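import Vale.Agent.P166.Defs
import Vale.Agent.P157.LBV

/-!
# P166: the profile algebra
-/

namespace Vale.Agent.P166

open MeasureTheory Finset Vale.Agent.P168 Vale.Agent.P168.PW Vale.Agent.P157 Function Filter Topology
open scoped BigOperators

/-- The product of two profiles. -/
noncomputable def conv (n : ℕ) (a b : ℕ → ℝ) (l : ℕ) : ℝ :=
  a 0 * b l + a l * b 0 - a l * cum n b l - b l * cum n a l - ze n l * (a l * b l) -
    wt n * ∑ j ∈ Ioc l (n + 1), a j * b j

/-- The weighted norm of a profile. -/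
noncomputable def nm (n : ℕ) (a : ℕ → ℝ) : ℝ := |a 0| + wt n * ∑ j ∈ Icc 1 (n + 1), |a j|

/-- Functional calculus. -/
noncomputable def fc (n : ℕ) (f : ℝ → ℝ) (r : ℕ → ℝ) (j : ℕ) : ℝ :=
  ∑ l ∈ Icc j n, (f (chi n r (l + 1)) - f (chi n r l)) / ze n l

/-- The profile of a row at distance `c` below the top. -/
noncomputable def zc (n : ℕ) (c : ℝ) (r : ℕ → ℝ) : ℕ → ℝ := fc n (fun x => x / (1 + c * x)) r

/-- Reference profiles. -/
structure Pr (n : ℕ) (X : ℝ) (r : ℕ → ℝ) : Prop where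
  mono : Mono n r
  top : r (n + 1) = 0
  le : r 0 ≤ X

section
variable {𝒞 : Type} [Fintype 𝒞]

noncomputable def uf (a c : 𝒞 → ℝ) (x : ℝ) : ℝ := ∑ j, a j / (1 + c j * x)
noncomputable def vf (a c : 𝒞 → ℝ) (x : ℝ) : ℝ := ∑ j, a j * c j / (1 + c j * x)
noncomputable def psi (a c : 𝒞 → ℝ) (x : ℝ) : ℝ := ∑ j, a j * c j - vf a c x / uf a c x

/-- Probability vectors. -/
def Pv (a : 𝒞 → ℝ) : Prop := (∀ j, 0 ≤ a j) ∧ ∑ j, a j = 1

/-- The inverse of `x ↦ x * uf a c x` on the half line. -/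
noncomputable def xi (a c : 𝒞 → ℝ) (y : ℝ) : ℝ := sInf {x | 0 ≤ x ∧ y ≤ x * uf a c x}

/-- The R-transform of the law with atoms `lam j`, weights `w j` and largest atom `lT`. -/
noncomputable def Rf (w lam : 𝒞 → ℝ) (lT : ℝ) (y : ℝ) : ℝ :=
  lT - vf w (fun j => lT - lam j) (xi w (fun j => lT - lam j) y) /
    uf w (fun j => lT - lam j) (xi w (fun j => lT - lam j) y)

/-- Frequencies of a class map. -/
noncomputable def fq {I : Type} [Fintype I] [DecidableEq 𝒞] (cl : I → 𝒞) (j : 𝒞) : ℝ :=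
  ((univ.filter fun i => cl i = j).card : ℝ) / Fintype.card I

/-- Finitely many classes with positive weights and a top class. -/
structure Cls (w lam : 𝒞 → ℝ) (top : 𝒞) : Prop where
  pos : ∀ j, 0 < w j
  sum : ∑ j, w j = 1
  le : ∀ j, lam j ≤ lam top

end

end Vale.Agent.P166
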