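import Vale.Agent.P166.Fn
import Vale.Agent.P166.ApproxX

/-!
# P166: reduction to finitely many eigenvalues
-/

namespace Vale.Agent.P166

open MeasureTheory Finset Vale.Agent.P168 Vale.Agent.P168.PW Vale.Agent.P157 Function Filter Topology
open scoped BigOperators

theorem Rf_eqApprox {𝒞 : Type} [Fintype 𝒞] {w l : 𝒞 → ℝ} {top : 𝒞} (h : Cls w l top) {x : ℝ}
    (hx : 0 < x) : ∃ B : ℝ, l top < B ∧ ∑ j, w j * (B - l j)⁻¹ = x ∧
      Rf w l (l top) x = B - x⁻¹ := by
  have h1 := yf_xi h hx.le
  have h2 := xi_nonneg w (fun j => l top - l j) x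
  have hd : ∀ j, 0 ≤ l top - l j := fun j => sub_nonneg.2 (h.le j)
  have h3 := uf_add (a := w) (c := fun j => l top - l j) ⟨fun j => (h.pos j).le, h.sum⟩ hd h2
  rw [Rf]
  generalize xi w (fun j => l top - l j) x = ξ at h1 h2 h3
  have h4 : 0 < ξ := by
    refine lt_of_le_of_ne h2 ?_
    rintro rfl
    rw [zero_mul] at h1
    exact hx.ne h1
  have h5 : 0 < ξ⁻¹ := inv_pos.2 h4
  refine ⟨l top + ξ⁻¹, by linarith, ?_, ?_⟩
  · rw [← h1, uf, mul_sum]
    refine sum_congr rfl fun j _ => ?_
    have h6 : l top + ξ⁻¹ - l j = (1 + (l top - l j) * ξ) / ξ := by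
      field_simp
      ring
    have h7 : 0 < 1 + (l top - l j) * ξ := by
      have := mul_nonneg (hd j) h2
      linarith
    rw [h6]
    field_simp
  · generalize uf w (fun j => l top - l j) ξ = u at h1 h3
    generalize vf w (fun j => l top - l j) ξ = v at h3
    have h6 : u ≠ 0 := by
      rintro rfl
      rw [mul_zero] at h1
      exact hx.ne h1
    have h7 : v = (1 - u) / ξ := by
      field_simp
      linarith
    rw [← h1, h7]
    field_simp
    ring

open Apx in
theorem approx (μ : Measure ℝ) [IsProbabilityMeasure μ] (hμ : IsCompact μ.support)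
    (lam : ∀ N : ℕ, Fin N → ℝ)
    (hw : ∀ f : BoundedContinuousFunction ℝ ℝ,
      Tendsto (fun N : ℕ => (∑ i, f (lam N i)) / (N : ℝ)) atTop (𝓝 (∫ y, f y ∂μ)))
    (hmin : Tendsto (fun N => ⨅ i, lam N i) atTop (𝓝 (sInf μ.support)))
    (hmax : Tendsto (fun N => ⨆ i, lam N i) atTop (𝓝 (sSup μ.support))) {δ : ℝ} (hδ : 0 < δ) :
    ∃ (k : ℕ) (w l : Fin k → ℝ) (top : Fin k) (up dn : ∀ N : ℕ, Fin N → Fin k), Cls w l top ∧
      (∀ x, 0 ≤ x → |Rtr μ x - Rf w l (l top) x| ≤ δ) ∧
      (∀ j, Tendsto (fun N => fq (up N) j) atTop (𝓝 (w j))) ∧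
      (∀ j, Tendsto (fun N => fq (dn N) j) atTop (𝓝 (w j))) ∧
      ∀ᶠ N in atTop, ∀ i, l (dn N i) - δ ≤ lam N i ∧ lam N i ≤ l (up N i) := by
  classical
  have hne : μ.support.Nonempty := Measure.nonempty_support (IsProbabilityMeasure.ne_zero μ)
  have ha := hμ.sInf_mem hne
  have hb := hμ.sSup_mem hne
  have hab : ∀ᵐ y ∂μ, sInf μ.support ≤ y ∧ y ≤ sSup μ.support := by
    filter_upwards [μ.support_mem_ae] with y hy
    exact ⟨csInf_le hμ.bddBelow hy, le_csSup hμ.bddAbove hy⟩
  have hK : ∀ x, Kinv μ x = sInf {b | sSup μ.support < b ∧ stj μ b ≤ x} := fun _ => rfl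
  have hab' : sInf μ.support ≤ sSup μ.support := csInf_le hμ.bddBelow hb
  generalize sInf μ.support = a at *
  generalize sSup μ.support = b at *
  obtain ⟨c, hc, hca, hcb⟩ := exists_grid μ δ a b
  let W : ℤ → ℝ := fun j => μ.real (cell c δ ⁻¹' {j})
  let S : Finset ℤ := (Icc (cell c δ a) (cell c δ b)).filter fun j => 0 < W j
  have hS : ∀ᵐ y ∂μ, cell c δ y ∈ S := by
    have h1 : ∀ᵐ y ∂μ, ∀ j : ℤ, W j = 0 → cell c δ y ≠ j := by
      rw [ae_all_iff]
      intro j
      by_cases h : W j = 0
      · have : μ (cell c δ ⁻¹' {j}) = 0 := (measureReal_eq_zero_iff (measure_ne_top _ _)).1 h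
        filter_upwards [measure_eq_zero_iff_ae_notMem.1 this] with y hy _
        exact hy
      · exact Eventually.of_forall fun y h' => absurd h' h
    filter_upwards [h1, hab] with y h2 h3
    refine mem_filter.2 ⟨mem_Icc.2 ⟨cell_mono hδ h3.1, cell_mono hδ h3.2⟩, ?_⟩
    exact lt_of_le_of_ne measureReal_nonneg fun h => h2 _ h.symm rfl
  have hpos : ∀ y ∈ μ.support, (∀ i : ℤ, y ≠ c + i * δ) → 0 < W (cell c δ y) := by
    intro y hy hn
    have := (Measure.mem_support_iff_forall y).1 hy (cell c δ ⁻¹' {cell c δ y}) (ev_cell hδ hn)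
    exact ENNReal.toReal_pos this.ne' (measure_ne_top _ _)
  have haS : cell c δ a ∈ S :=
    mem_filter.2 ⟨mem_Icc.2 ⟨le_rfl, cell_mono hδ hab'⟩, hpos a ha hca⟩
  have hbS : cell c δ b ∈ S :=
    mem_filter.2 ⟨mem_Icc.2 ⟨cell_mono hδ hab', le_rfl⟩, hpos b hb hcb⟩
  let e : S ≃ Fin S.card := S.equivFin
  let rd : S → ℤ → S := fun d j => if h : j ∈ S then ⟨j, h⟩ else d
  have hsum : ∀ φ : ℤ → ℝ, ∑ j : Fin S.card, W (e.symm j) * φ (e.symm j) =
      ∫ y, φ (cell c δ y) ∂μ := by
    intro φ
    rw [(int_cell μ hS φ).2, Equiv.sum_comp e.symm fun j : S => W j * φ j,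
      sum_coe_sort S fun j => W j * φ j]
  have hcl : Cls (fun j : Fin S.card => W (e.symm j)) (fun j => c + ((e.symm j : S) : ℤ) * δ)
      (e ⟨_, hbS⟩) := by
    refine ⟨fun j => (mem_filter.1 (e.symm j).2).2, ?_, fun j => ?_⟩
    · simpa using hsum fun _ => 1
    · have h1 : (((e.symm j : S) : ℤ) : ℝ) ≤ cell c δ b := by
        exact_mod_cast (mem_Icc.1 (mem_filter.1 (e.symm j).2).1).2
      simp only [Equiv.symm_apply_apply]
      nlinarith
  have hfq : ∀ (d : S) (j : Fin S.card),
      Tendsto (fun N => fq (fun i : Fin N => e (rd d (cell c δ (lam N i)))) j) atTop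
        (𝓝 (W (e.symm j))) := by
    intro d j
    have h1 : μ (frontier (cell c δ ⁻¹' {i | e (rd d i) = j})) = 0 :=
      measure_mono_null (frontier_cell hδ _) (measure_iUnion_null hc)
    have h2 := freq μ lam hw h1 (fun N i => e (rd d (cell c δ (lam N i))) = j) fun N i => Iff.rfl
    have h3 : μ.real (cell c δ ⁻¹' {i | e (rd d i) = j}) = W (e.symm j) := by
      refine measureReal_congr ?_
      filter_upwards [hS] with y hy
      refine propext ?_
      change e (rd d (cell c δ y)) = j ↔ cell c δ y = (e.symm j : S)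
      simp only [rd, dif_pos hy]
      rw [← Equiv.eq_symm_apply, Subtype.ext_iff]
    rw [h3] at h2
    simpa only [fq, Fintype.card_fin] using h2
  refine ⟨S.card, fun j => W (e.symm j), fun j => c + ((e.symm j : S) : ℤ) * δ, e ⟨_, hbS⟩,
    fun N i => e (rd ⟨_, hbS⟩ (cell c δ (lam N i))), fun N i => e (rd ⟨_, haS⟩ (cell c δ (lam N i))),
    hcl, fun x hx => ?_, hfq _, hfq _, ?_⟩
  · rcases hx.eq_or_lt with rfl | hx
    · have h1 := Rf_zero hcl
      rw [h1, Rtr, if_pos rfl, hsum fun j => c + j * δ]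
      have hi : Integrable (fun y : ℝ => y) μ := by
        refine Integrable.of_bound measurable_id.aestronglyMeasurable (|a| + |b|) ?_
        filter_upwards [hab] with y hy
        rw [Real.norm_eq_abs, abs_le]
        constructor
        · linarith [neg_abs_le a, abs_nonneg b, hy.1]
        · linarith [le_abs_self b, abs_nonneg a, hy.2]
      rw [← integral_sub hi (int_cell μ hS fun j => c + j * δ).1]
      have := norm_integral_le_of_norm_le_const (μ := μ) (C := δ)
        (f := fun y => y - (c + cell c δ y * δ)) (Eventually.of_forall fun y => by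
          rw [Real.norm_eq_abs, abs_le]
          constructor
          · linarith [rt_lt (c := c) hδ y]
          · linarith [le_rt (c := c) hδ y])
      simpa using this
    · obtain ⟨B, hB, h1, h2⟩ := Rf_eqApprox hcl hx
      rw [h2, Rtr, if_neg hx.ne', hK]
      simp only [Equiv.symm_apply_apply] at hB
      have hi : ∀ b', b < b' → Integrable (fun y : ℝ => (b' - y)⁻¹) μ := by
        intro b' hb'
        refine Integrable.of_bound (measurable_const.sub measurable_id).inv.aestronglyMeasurable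
          (b' - b)⁻¹ ?_
        filter_upwards [hab] with y hy
        rw [Real.norm_eq_abs, abs_of_pos (inv_pos.2 (by linarith [hy.2]))]
        exact inv_anti₀ (by linarith) (by linarith [hy.2])
      have hbB : b < B := (le_rt hδ b).trans_lt hB
      have hmem : B ∈ {b' | b < b' ∧ stj μ b' ≤ x} := by
        refine ⟨hbB, ?_⟩
        rw [← h1, hsum fun j => (B - (c + j * δ))⁻¹]
        refine integral_mono_ae (hi B hbB) (int_cell μ hS fun j => (B - (c + j * δ))⁻¹).1 ?_
        filter_upwards [hab] with y hy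
        have h3 : (cell c δ y : ℝ) ≤ cell c δ b := by exact_mod_cast cell_mono hδ hy.2
        exact inv_anti₀ (by nlinarith) (by linarith [le_rt (c := c) hδ y])
      have hup : sInf {b' | b < b' ∧ stj μ b' ≤ x} ≤ B := csInf_le ⟨b, fun _ h => h.1.le⟩ hmem
      have hlo : B - δ ≤ sInf {b' | b < b' ∧ stj μ b' ≤ x} := by
        refine le_csInf ⟨B, hmem⟩ fun b' h3 => ?_
        by_contra h4
        push Not at h4
        have h5 : ∑ j : Fin S.card, W (e.symm j) * (b' + δ - (c + ((e.symm j : S) : ℤ) * δ))⁻¹ ≤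
            x := by
          rw [hsum fun j => (b' + δ - (c + j * δ))⁻¹]
          refine le_trans ?_ h3.2
          refine integral_mono_ae (int_cell μ hS fun j => (b' + δ - (c + j * δ))⁻¹).1
            (hi b' h3.1) ?_
          filter_upwards [hab] with y hy
          exact inv_anti₀ (by linarith [hy.2, h3.1]) (by linarith [rt_lt (c := c) hδ y])
        have h6 : ∑ j : Fin S.card, W (e.symm j) * (B - (c + ((e.symm j : S) : ℤ) * δ))⁻¹ <
            ∑ j : Fin S.card, W (e.symm j) * (b' + δ - (c + ((e.symm j : S) : ℤ) * δ))⁻¹ := by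
          refine sum_lt_sum_of_nonempty ⟨e ⟨_, hbS⟩, mem_univ _⟩ fun j _ => ?_
          refine mul_lt_mul_of_pos_left ?_ (hcl.pos j)
          have h7 := hcl.le j
          simp only [Equiv.symm_apply_apply] at h7
          exact inv_strictAnti₀ (by linarith [rt_lt (c := c) hδ b, h3.1]) (by linarith)
        linarith
      rw [abs_le]
      constructor <;> linarith
  · filter_upwards [hmin.eventually (lt_mem_nhds (rt_lt (c := c) hδ a)),
      hmax.eventually (gt_mem_nhds (lt_of_le_of_ne (le_rt (c := c) hδ b) (hcb _)))] with N h1 h2 i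
    have h3 : ⨅ i, lam N i ≤ lam N i := ciInf_le (Set.finite_range _).bddBelow i
    have h4 : lam N i ≤ ⨆ i, lam N i := le_ciSup (Set.finite_range _).bddAbove i
    simp only [Equiv.symm_apply_apply, rd]
    split_ifs with h
    · exact ⟨(rt_lt hδ _).le, le_rt hδ _⟩
    · constructor <;> linarith

end Vale.Agent.P166
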