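import Vale.Agent.P166.Haar
import Vale.Agent.P168.PW

/-!
# P166: concentration on the orthogonal group
-/

namespace Vale.Agent.P166

open MeasureTheory Function Matrix Finset Vale.Agent.P168
open scoped BigOperators

theorem var_step {X : Type} [TopologicalSpace X] [CompactSpace X] [MeasurableSpace X]
    [OpensMeasurableSpace X] (ν : Measure X) [IsProbabilityMeasure ν] {g : X → ℝ}
    (hg : Continuous g) (c d : ℝ) :
    ∫ x, (g x - c) ^ 2 ∂ν ≤ (∫ x, g x ∂ν - c) ^ 2 + ∫ x, (g x - d) ^ 2 ∂ν := by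
  have e : ∀ a : ℝ, ∫ x, (g x - a) ^ 2 ∂ν = ∫ x, g x ^ 2 ∂ν - 2 * a * ∫ x, g x ∂ν + a ^ 2 :=
    fun a => by
      have e : ∀ x, (g x - a) ^ 2 = (g x ^ 2 - (2 * a) * g x) + a ^ 2 := fun x => by ring
      simp only [e]
      rw [integral_add (intg _ (by fun_prop)) (intg _ (by fun_prop)),
        integral_sub (intg _ (by fun_prop)) (intg _ (by fun_prop)), integral_const_mul]
      simp
  rw [e, e]
  nlinarith [sq_nonneg (∫ x, g x ∂ν - d)]

variable {I : Type} [Fintype I] [DecidableEq I] [MeasurableSpace (OG I)] [BorelSpace (OG I)]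

theorem mart_step (ν : Measure (OG I)) [IsProbabilityMeasure ν] [ν.IsMulLeftInvariant]
    {A : Finset I} {e : I} (he : e ∉ A) {μ' μ : Measure (OG I)} (h' : SubH (fixG A) μ')
    (h : SubH (fixG (insert e A)) μ) {F : OG I → ℝ} (hF : Continuous F) {Δ : (I → ℝ) → ℝ}
    (hΔ : Continuous Δ) (hD : ∀ ξ : I → ℝ, ξ ⬝ᵥ ξ = 1 →
      ∫ U, (F (refl (Pi.single e 1 - ξ) * U) - F U) ^ 2 ∂ν ≤ Δ ξ) (c : ℝ) :
    ∫ U, (∫ W, F (W * U) ∂μ' - c) ^ 2 ∂ν ≤
      ∫ U, (∫ V, F (V * U) ∂μ - c) ^ 2 ∂ν + ∫ V, Δ (act V⁻¹ (Pi.single e 1)) ∂μ := by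
  have := h.prob
  have := h'.prob
  have sub : fixG A ≤ fixG (insert e A) := fixG_mono (subset_insert e A)
  set F' : OG I → ℝ := fun U => ∫ W, F (W * U) ∂μ' with hF'
  have c' : Continuous F' := cont_int μ' (f := fun U W => F (W * U)) (by fun_prop)
  have c1 : Continuous fun U => ∫ V, F (V * U) ∂μ :=
    cont_int μ (f := fun U W => F (W * U)) (by fun_prop)
  have e1 : ∀ U, ∫ V, F' (V * U) ∂μ = ∫ V, F (V * U) ∂μ := fun U => by
    rw [hF', swap_int μ μ' (f := fun V W => F (W * (V * U))) (by fun_prop),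
      integral_congr_ae (g := fun _ => ∫ V, F (V * U) ∂μ)]
    · simp
    · filter_upwards [h'.mem] with W hW
      simpa only [mul_assoc] using h.left W (sub hW) (fun V => F (V * U)) (by fun_prop)
  have c2 : Continuous fun U => ∫ V, (F' (V * U) - F' U) ^ 2 ∂μ :=
    cont_int μ (f := fun U V => (F' (V * U) - F' U) ^ 2) (by fun_prop)
  have e2 : ∫ U, (F' U - c) ^ 2 ∂ν ≤ ∫ U, (∫ V, F (V * U) ∂μ - c) ^ 2 ∂ν +
      ∫ U, ∫ V, (F' (V * U) - F' U) ^ 2 ∂μ ∂ν := by
    rw [avg_left ν μ (e := id) continuous_id (F := fun U => (F' U - c) ^ 2) (by fun_prop),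
      ← integral_add (intg _ (by fun_prop)) (intg _ c2)]
    refine int_mono ν (cont_int μ (f := fun U V => (F' (V * U) - c) ^ 2) (by fun_prop))
      (by fun_prop) fun U => ?_
    rw [← e1]
    exact var_step μ (g := fun V => F' (V * U)) (by fun_prop) c _
  refine e2.trans (add_le_add le_rfl ?_)
  rw [swap_int ν μ (f := fun U V => (F' (V * U) - F' U) ^ 2) (by fun_prop)]
  have e3 : ∫ V, Δ (act V⁻¹ (Pi.single e 1)) ∂μ =
      ∫ V, ∫ W, Δ (act W (act V⁻¹ (Pi.single e 1))) ∂μ' ∂μ := by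
    rw [swap_int μ μ' (f := fun V W => Δ (act W (act V⁻¹ (Pi.single e 1)))) (by fun_prop),
      integral_congr_ae (f := fun W => ∫ V, Δ (act W (act V⁻¹ (Pi.single e 1))) ∂μ)
        (g := fun _ => ∫ V, Δ (act V⁻¹ (Pi.single e 1)) ∂μ)]
    · simp
    · filter_upwards [h'.mem] with W hW
      rw [← h.right W⁻¹ (sub ((fixG A).inv_mem hW)) (fun V => Δ (act V⁻¹ (Pi.single e 1)))
        (by fun_prop)]
      simp only [_root_.mul_inv_rev, inv_inv, act_mul]
  rw [e3]
  refine integral_mono_ae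
    (intg _ (cont_int ν (f := fun V U => (F' (V * U) - F' U) ^ 2) (by fun_prop)))
    (intg _ (cont_int μ' (f := fun V W => Δ (act W (act V⁻¹ (Pi.single e 1)))) (by fun_prop))) ?_
  filter_upwards [h.mem] with V hV
  set ξ := act V⁻¹ (Pi.single e 1) with hξ
  have n1 : ξ ⬝ᵥ ξ = 1 := by rw [hξ, act_dot]; simp
  set ρ := refl (Pi.single e 1 - ξ) with hρ
  have r1 : act ρ ξ = Pi.single e 1 := act_refl_sub (by rw [n1]; simp)
  have r2 : act ρ (Pi.single e 1) = ξ := by
    rw [← r1, ← act_mul, hρ, refl_mul_self, act_one]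
  have r3 : ρ ∈ fixG (insert e A) := refl_mem fun a ha => by
    rw [Pi.sub_apply, hξ, act_fix ((fixG _).inv_mem hV) _ ha, sub_self]
  have r4 : V * ρ ∈ fixG A := fun a ha => by
    by_cases hae : a = e
    · rw [hae, act_mul, r2, hξ, act_act_inv]
    · exact (fixG _).mul_mem hV r3 a (by simp [hae, ha])
  have r5 : ∀ U, F' (V * U) = F' (ρ * U) := fun U => by
    have := h'.right _ r4 (fun W => F (W * (ρ * U))) (by fun_prop)
    simp only [mul_assoc] at this
    rw [← mul_assoc ρ, hρ, refl_mul_self, one_mul] at this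
    exact this
  simp only [r5]
  calc _ ≤ ∫ U, ∫ W, (F (W * (ρ * U)) - F (W * U)) ^ 2 ∂μ' ∂ν := by
        refine int_mono ν (by fun_prop)
          (cont_int μ' (f := fun U W => (F (W * (ρ * U)) - F (W * U)) ^ 2) (by fun_prop))
          fun U => ?_
        rw [hF']
        simp only
        rw [← integral_sub (intg _ (by fun_prop)) (intg _ (by fun_prop))]
        exact sq_int_le μ' (by fun_prop)
    _ = ∫ W, ∫ U, (F (W * (ρ * U)) - F (W * U)) ^ 2 ∂ν ∂μ' :=
        swap_int ν μ' (f := fun U W => (F (W * (ρ * U)) - F (W * U)) ^ 2) (by fun_prop)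
    _ ≤ _ := by
        refine integral_mono_ae (intg _ (cont_int ν
          (f := fun W U => (F (W * (ρ * U)) - F (W * U)) ^ 2) (by fun_prop)))
          (intg _ (by fun_prop)) ?_
        filter_upwards [h'.mem] with W hW
        have := hD (act W ξ) (by rw [act_dot, n1])
        rw [← integral_mul_left_eq_self _ W, ← hW e he, ← act_sub] at this
        simpa only [← mul_assoc, hρ, mul_refl] using this

theorem mart_var (ν : Measure (OG I)) [IsProbabilityMeasure ν] [ν.IsMulLeftInvariant]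
    (T : Finset I) {F : OG I → ℝ} (hF : Continuous F) (hT : ∀ V ∈ fixG T, ∀ U, F (V * U) = F U)
    {Δ : I → (I → ℝ) → ℝ} (hΔ : ∀ e, Continuous (Δ e)) (hD : ∀ e ∉ T, ∀ ξ : I → ℝ, ξ ⬝ᵥ ξ = 1 →
      ∫ U, (F (refl (Pi.single e 1 - ξ) * U) - F U) ^ 2 ∂ν ≤ Δ e ξ) {C : ℝ} (hC0 : 0 ≤ C)
    (hC : ∀ A, T ⊆ A → ∀ e ∈ A, e ∉ T → ∀ μ, SubH (fixG A) μ →
      ∫ V, Δ e (act V⁻¹ (Pi.single e 1)) ∂μ ≤ C) :
    ∫ U, (F U - ∫ V, F V ∂ν) ^ 2 ∂ν ≤ Fintype.card I * C := by
  set c := ∫ V, F V ∂ν with hc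
  have key : ∀ B : Finset I, ∀ μ, SubH (fixG (B ∪ T)) μ →
      ∫ U, (F U - c) ^ 2 ∂ν ≤ ∫ U, (∫ V, F (V * U) ∂μ - c) ^ 2 ∂ν + B.card * C := fun B => by
    induction B using Finset.induction_on with
    | empty =>
      intro μ h
      have := h.prob
      have e : ∀ U, ∫ V, F (V * U) ∂μ = F U := fun U => by
        rw [integral_congr_ae (g := fun _ => F U)]
        · simp
        · filter_upwards [h.mem] with V hV
          exact hT V (by simpa using hV) U
      simp [e]
    | insert e B heB ih =>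
      intro μ h
      rw [card_insert_of_notMem heB]
      push_cast
      rw [insert_union] at h
      by_cases he : e ∈ T
      · rw [insert_eq_of_mem (mem_union_right _ he)] at h
        linarith [ih μ h]
      · obtain ⟨μ', h'⟩ := exists_fix (B ∪ T)
        have h1 := mart_step ν (by simp [heB, he]) h' h hF (hΔ e) (hD e he) c
        have h2 := hC _ (subset_union_right.trans (subset_insert _ _)) e (mem_insert_self _ _)
          he μ h
        linarith [ih μ' h']
  have := haar_right ν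
  have h := key univ ν (subH_top ν fun V => fixG_mono subset_union_left (mem_fixG_univ V))
  simpa [integral_mul_right_eq_self, ← hc] using h

omit [MeasurableSpace (OG I)] [BorelSpace (OG I)] in
theorem dir_le {e : I} {ξ t : I → ℝ} (hξ : ξ ⬝ᵥ ξ = 1) {B : ℝ} (hB : ∑ i, t i ^ 2 ≤ B) :
    ((Pi.single e 1 - ξ) ⬝ᵥ t) ^ 2 / ((Pi.single e 1 - ξ) ⬝ᵥ (Pi.single e 1 - ξ)) ≤
      2 * t e ^ 2 + 2 * (ξ ⬝ᵥ t) ^ 2 + 4 * B * ξ e ^ 2 := by
  have hB0 : 0 ≤ B := (sum_nonneg fun _ _ => sq_nonneg _).trans hB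
  have h1 : (Pi.single e 1 - ξ) ⬝ᵥ (Pi.single e (1 : ℝ) - ξ) = 2 - 2 * ξ e := by
    simp [sub_dotProduct, dotProduct_sub, hξ]; ring
  by_cases h : ξ e ≤ 1 / 2
  · refine (div_le_self (sq_nonneg _) (by rw [h1]; linarith)).trans ?_
    rw [sub_dotProduct, single_dotProduct, one_mul]
    nlinarith [sq_nonneg (t e + ξ ⬝ᵥ t), mul_nonneg hB0 (sq_nonneg (ξ e))]
  · have h2 : ((Pi.single e 1 - ξ) ⬝ᵥ t) ^ 2 ≤
        ((Pi.single e 1 - ξ) ⬝ᵥ (Pi.single e (1 : ℝ) - ξ)) * B := by
      refine (sum_mul_sq_le_sq_mul_sq _ _ _).trans (mul_le_mul ?_ hB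
        (sum_nonneg fun _ _ => sq_nonneg _) (sum_nonneg fun _ _ => mul_self_nonneg _))
      simp only [dotProduct, sq, le_refl]
    refine (div_le_of_le_mul₀ (sum_nonneg fun _ _ => mul_self_nonneg _) hB0
      (h2.trans_eq (mul_comm _ _))).trans ?_
    push Not at h
    have : 1 ≤ 4 * ξ e ^ 2 := by nlinarith
    nlinarith [sq_nonneg (t e), sq_nonneg (ξ ⬝ᵥ t)]

theorem cont_E {X Ω : Type} [TopologicalSpace X] [Fintype Ω] {m : X → PW Ω} {f : X → Ω → ℝ}
    (hm : ∀ ω, Continuous fun x => (m x).w ω) (hf : ∀ ω, Continuous fun x => f x ω) :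
    Continuous fun x => (m x).E (f x) :=
  continuous_finsetSum _ fun ω _ => (hm ω).mul (hf ω)

theorem int_E {X Ω : Type} [TopologicalSpace X] [CompactSpace X] [MeasurableSpace X]
    [OpensMeasurableSpace X] (ν : Measure X) [IsFiniteMeasure ν] [Fintype Ω] (m : PW Ω)
    {f : X → Ω → ℝ} (hf : ∀ ω, Continuous fun x => f x ω) :
    ∫ x, m.E (f x) ∂ν = m.E fun ω => ∫ x, f x ω ∂ν := by
  simp only [PW.E]
  rw [integral_finsetSum _ fun ω _ => intg _ (by have := hf ω; fun_prop)]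
  simp only [integral_const_mul]

/-- Concentration for functions with a one-sided response to reflections. -/
theorem hconc (ν : Measure (OG I)) [IsProbabilityMeasure ν] [ν.IsMulLeftInvariant]
    {Ω κ : Type} [Fintype Ω] [Fintype κ] (T : Finset I) (hT0 : 0 < T.card) {F : OG I → ℝ}
    (hF : Continuous F) (hT : ∀ V ∈ fixG T, ∀ U, F (V * U) = F U) (m : OG I → PW Ω)
    (hm : ∀ ω, Continuous fun U => (m U).w ω) (t : κ → OG I → Ω → I → ℝ)
    (ht : ∀ k ω, Continuous fun U => t k U ω) {B c M : ℝ} (hB : ∀ k U ω, ∑ i, t k U ω i ^ 2 ≤ B)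
    (hM : 0 ≤ M) (hD : ∀ U (w : I → ℝ), F U - F (refl w * U) ≤
      c + (m U).E fun ω => ∑ k, (w ⬝ᵥ t k U ω) ^ 2 / (w ⬝ᵥ w))
    (h4 : ∀ e ∉ T, ∀ k, ∫ U, (m U).E (fun ω => t k U ω e ^ 4) ∂ν ≤ M) :
    ∫ U, |F U - ∫ V, F V ∂ν| ∂ν ≤ Real.sqrt (Fintype.card I *
      (4 * c ^ 2 + 4 * Fintype.card κ ^ 2 * (12 * M + 180 * B ^ 2 / T.card ^ 2))) := by
  refine int_abs_le_sqrt ν (by fun_prop) (mart_var ν T hF hT (Δ := fun e ξ => ∫ U,
    (m U).E (fun ω => 4 * c ^ 2 + 4 * Fintype.card κ * ∑ k, (12 * t k U ω e ^ 4 +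
      (12 * (ξ ⬝ᵥ t k U ω) ^ 4 + 48 * B ^ 2 * ξ e ^ 4))) ∂ν)
    (fun e => cont_int ν (cont_E (fun ω => (hm ω).comp continuous_snd) fun ω => by
      have := fun k => (ht k ω).comp (continuous_snd (X := I → ℝ))
      fun_prop)) (fun e he ξ hξ => ?_) (by positivity) fun A hA e heA he μ hμ => ?_)
  · set ρ := refl (Pi.single e 1 - ξ) with hρ
    set D : OG I → ℝ := fun U => (m U).E fun ω => c + ∑ k,
      (2 * t k U ω e ^ 2 + 2 * (ξ ⬝ᵥ t k U ω) ^ 2 + 4 * B * ξ e ^ 2) with hDd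
    have cD : Continuous D := cont_E hm fun ω => by
      have := fun k => ht k ω
      fun_prop
    have d1 : ∀ U, F U - F (ρ * U) ≤ D U := fun U => (hD U _).trans (by
      rw [hDd]
      simp only
      rw [PW.E_add, PW.E_const]
      exact add_le_add le_rfl (PW.E_mono _ fun ω => sum_le_sum fun k _ => dir_le hξ (hB k U ω)))
    have d2 : ∀ U, (F (ρ * U) - F U) ^ 2 ≤ D U ^ 2 + D (ρ * U) ^ 2 := fun U => by
      have a1 := d1 U
      have a2 := d1 (ρ * U)
      rw [← mul_assoc, hρ, refl_mul_self, one_mul, ← hρ] at a2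
      rcases le_total 0 (F (ρ * U) - F U) with h | h <;> nlinarith [sq_nonneg (D U),
        sq_nonneg (D (ρ * U))]
    refine (int_mono ν (by fun_prop) (by fun_prop) d2).trans ?_
    rw [integral_add (intg _ (by fun_prop)) (intg _ (by fun_prop)),
      integral_mul_left_eq_self (fun U => D U ^ 2), ← two_mul, ← integral_const_mul]
    refine int_mono ν (by fun_prop) (cont_E hm fun ω => by
      have := fun k => ht k ω
      fun_prop) fun U => ?_
    refine (mul_le_mul_of_nonneg_left (PW.E_sq_le _ _) zero_le_two).trans ?_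
    rw [← PW.E_const_mul]
    refine PW.E_mono _ fun ω => ?_
    have a1 := sq_sum_le_card_mul_sum_sq (s := univ) (f := fun k =>
      2 * t k U ω e ^ 2 + 2 * (ξ ⬝ᵥ t k U ω) ^ 2 + 4 * B * ξ e ^ 2)
    have a2 : ∑ k, (2 * t k U ω e ^ 2 + 2 * (ξ ⬝ᵥ t k U ω) ^ 2 + 4 * B * ξ e ^ 2) ^ 2 ≤
        ∑ k, (12 * t k U ω e ^ 4 + (12 * (ξ ⬝ᵥ t k U ω) ^ 4 + 48 * B ^ 2 * ξ e ^ 4)) :=
      sum_le_sum fun k _ => by
        nlinarith [sq_nonneg (t k U ω e ^ 2 - (ξ ⬝ᵥ t k U ω) ^ 2),
          sq_nonneg (t k U ω e ^ 2 - 2 * B * ξ e ^ 2),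
          sq_nonneg ((ξ ⬝ᵥ t k U ω) ^ 2 - 2 * B * ξ e ^ 2)]
    have a3 := mul_le_mul_of_nonneg_left a2 (Nat.cast_nonneg (α := ℝ) (Fintype.card κ))
    rw [card_univ] at a1
    nlinarith [sq_nonneg (c - ∑ k,
      (2 * t k U ω e ^ 2 + 2 * (ξ ⬝ᵥ t k U ω) ^ 2 + 4 * B * ξ e ^ 2))]
  · have := hμ.prob
    have hTA : (0 : ℝ) < T.card := by exact_mod_cast hT0
    have hTA' : (T.card : ℝ) ≤ A.card := by exact_mod_cast card_le_card hA
    have m4 : ∀ (x : I → ℝ) (b : ℝ), ∑ i, x i ^ 2 ≤ b →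
        ∫ V, act V x e ^ 4 ∂μ ≤ 3 * b ^ 2 / T.card ^ 2 := fun x b hb => by
      have a1 := hμ.mom4 heA x
      have a2 : ∑ j ∈ A, x j ^ 2 ≤ b :=
        (sum_le_sum_of_subset_of_nonneg (subset_univ _) fun _ _ _ => sq_nonneg _).trans hb
      have a3 : 0 ≤ ∑ j ∈ A, x j ^ 2 := sum_nonneg fun _ _ => sq_nonneg _
      have a4 : 0 ≤ ∫ V, act V x e ^ 4 ∂μ := integral_nonneg fun V => by positivity
      rw [le_div_iff₀ (by positivity)]
      calc _ ≤ (∫ V, act V x e ^ 4 ∂μ) * (A.card : ℝ) ^ 2 := by gcongr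
        _ ≤ 3 * (∑ j ∈ A, x j ^ 2) ^ 2 := by rw [mul_comm]; exact a1
        _ ≤ _ := by gcongr
    have e0 : ∀ V : OG I, act V⁻¹ (Pi.single e 1) e = act V (Pi.single e 1) e := fun V => by
      rw [← act_row V, dotProduct_single, mul_one]
    simp only [act_row, e0]
    rw [swap_int μ ν (cont_E (fun ω => (hm ω).comp continuous_snd) fun ω => by
      have := fun k => (ht k ω).comp (continuous_snd (X := OG I))
      fun_prop)]
    calc _ ≤ ∫ U, (4 * c ^ 2 + 4 * Fintype.card κ * ∑ k,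
          (12 * (m U).E (fun ω => t k U ω e ^ 4) + 180 * B ^ 2 / T.card ^ 2)) ∂ν := by
          refine int_mono ν (cont_int μ (cont_E (fun ω => (hm ω).comp continuous_fst) fun ω => by
            have := fun k => (ht k ω).comp (continuous_fst (Y := OG I))
            fun_prop)) (by
              have := fun k => cont_E hm (f := fun U ω => t k U ω e ^ 4) fun ω => by
                have := ht k ω
                fun_prop
              fun_prop) fun U => ?_
          rw [int_E μ _ fun ω => by fun_prop]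
          simp only [← PW.E_const_mul, ← PW.E_add_const, ← PW.E_sum]
          rw [add_comm (4 * c ^ 2), ← PW.E_add_const]
          refine PW.E_mono _ fun ω => ?_
          rw [add_comm _ (4 * c ^ 2),
            integral_add (intg _ (by fun_prop)) (intg _ (by fun_prop)), integral_const_mul,
            integral_const_mul, integral_finsetSum _ fun k _ => intg _ (by fun_prop)]
          refine add_le_add (by simp) (mul_le_mul_of_nonneg_left (sum_le_sum fun k _ => ?_)
            (by positivity))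
          rw [integral_add (intg _ (by fun_prop)) (intg _ (by fun_prop)),
            integral_add (intg _ (by fun_prop)) (intg _ (by fun_prop)), integral_const_mul,
            integral_const_mul, integral_const_mul]
          have b1 := m4 _ _ (hB k U ω)
          have b2 := mul_le_mul_of_nonneg_left (m4 (Pi.single e 1) 1 (by
            simp [Pi.single_apply])) (by positivity : 0 ≤ 48 * B ^ 2)
          simp only [integral_const, probReal_univ, smul_eq_mul, one_mul]
          have b3 : 180 * B ^ 2 / (T.card : ℝ) ^ 2 =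
              12 * (3 * B ^ 2 / T.card ^ 2) + 48 * B ^ 2 * (3 * 1 ^ 2 / T.card ^ 2) := by ring
          linarith
      _ ≤ _ := by
          have cc := fun k => cont_E hm (f := fun U ω => t k U ω e ^ 4) fun ω => by
            have := ht k ω
            fun_prop
          rw [integral_add (intg _ (by fun_prop)) (intg _ (by fun_prop)), integral_const_mul,
            integral_const_mul, integral_finsetSum _ fun k _ => intg _ (by fun_prop)]
          refine add_le_add (by simp) ?_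
          have b1 : ∑ k, ∫ U, (12 * (m U).E (fun ω => t k U ω e ^ 4) +
              180 * B ^ 2 / T.card ^ 2) ∂ν ≤ ∑ _k : κ, (12 * M + 180 * B ^ 2 / T.card ^ 2) :=
            sum_le_sum fun k _ => by
              rw [integral_add (intg _ (by fun_prop)) (intg _ (by fun_prop)), integral_const_mul]
              simp only [integral_const, probReal_univ, smul_eq_mul, one_mul]
              linarith [h4 e he k]
          rw [sum_const, card_univ, nsmul_eq_mul] at b1
          calc _ ≤ 4 * Fintype.card κ *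
              (Fintype.card κ * (12 * M + 180 * B ^ 2 / T.card ^ 2)) := by gcongr
            _ = _ := by ring

end Vale.Agent.P166
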