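import Vale.Agent.P166.Defs
import Vale.Agent.P166.HConc
import Vale.Agent.P157.OcW

/-!
# P166: hierarchical systems with a Haar distributed rotation
-/

namespace Vale.Agent.P166

open MeasureTheory Finset Vale.Agent.P168 Vale.Agent.P168.PW Vale.Agent.P157 Function
open scoped BigOperators

/-! ### Continuity in a parameter -/

section cont
variable {X Ω : Type} [TopologicalSpace X] [Fintype Ω]

/-- A chain depending continuously on a parameter. -/
def CCh (Q : X → Ch Ω) : Prop := ∀ p ω ω', Continuous fun x => (Q x p ω).w ω'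

theorem cch_const (P : Ch Ω) : CCh fun _ : X => P := fun _ _ _ => continuous_const

theorem cont_Xc (a : ℕ → ℝ) (P : Ch Ω) {G : X → Ω → ℝ} (hG : ∀ ω, Continuous fun x => G x ω)
    (p : ℕ) : ∀ ω, Continuous fun x => Vale.Agent.P168.X a P 0 (G x) p ω := by
  induction p with
  | zero => exact hG
  | succ p ih =>
    intro ω
    simp only [X_succ (Nat.zero_le p), lam]
    exact ((cont_E (m := fun _ => P p ω) (fun _ => continuous_const) fun y =>
      ((ih y).const_mul _).rexp).log fun x => (E_pos _ fun _ => Real.exp_pos _).ne').div_const _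

theorem cch_Tn (n : ℕ) (P : Ch Ω) {G : X → Ω → ℝ} (hG : ∀ ω, Continuous fun x => G x ω) :
    CCh fun x => Tn n P (G x) := fun p ω ω' => by
  simp only [Tn, T_of_le (Nat.zero_le p), PW.tilt]
  exact (((cont_Xc _ P hG p ω').const_mul _).rexp.const_mul _).div
    (cont_E (m := fun _ => P p ω) (fun _ => continuous_const) fun y =>
      ((cont_Xc _ P hG p y).const_mul _).rexp) fun x => (E_pos _ fun _ => Real.exp_pos _).ne'

theorem CCh.A {Q : X → Ch Ω} (h : CCh Q) {f : X → Ω → ℝ} (hf : ∀ ω, Continuous fun x => f x ω)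
    (j p : ℕ) : ∀ ω, Continuous fun x => A (Q x) j p (f x) ω := by
  induction p using ht_induction (j := j) with
  | h0 p hp => simpa only [A_of_le hp] using hf
  | hs p hp ih => intro ω; simp only [A_succ hp]; exact cont_E (h p ω) ih

theorem cont_Xn (n : ℕ) (P : Ch Ω) {G : X → Ω → ℝ} (hG : ∀ ω, Continuous fun x => G x ω) (ω : Ω) :
    Continuous fun x => Xn n P (G x) ω := cont_Xc _ P hG _ ω

theorem cont_Fr (n : ℕ) (P : Ch Ω) (ρ : PW Ω) {G : X → Ω → ℝ}
    (hG : ∀ ω, Continuous fun x => G x ω) : Continuous fun x => Fr n P ρ (G x) :=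
  cont_E (m := fun _ => ρ) (fun _ => continuous_const) (cont_Xn n P hG)

theorem CCh.Eh {Q : X → Ch Ω} (h : CCh Q) (n : ℕ) (ρ : PW Ω) (j : ℕ) {f : X → Ω → ℝ}
    (hf : ∀ ω, Continuous fun x => f x ω) : Continuous fun x => Eh n (Q x) ρ j (f x) :=
  cont_E (m := fun _ => ρ) (fun _ => continuous_const) (h.A hf j _)

theorem CCh.E2 {Q : X → Ch Ω} (h : CCh Q) (n : ℕ) (ρ : PW Ω) (j : ℕ) {f : X → Ω → Ω → ℝ}
    (hf : ∀ ω ω', Continuous fun x => f x ω ω') : Continuous fun x => E2 n (Q x) ρ j (f x) :=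
  h.Eh n ρ j fun ω => h.A (fun y => h.A (hf y) 0 j ω) 0 j ω

theorem CCh.dev {Q : X → Ch Ω} (h : CCh Q) (n : ℕ) (ρ : PW Ω) {f : X → ℕ → Ω → Ω → ℝ}
    (hf : ∀ j ω ω', Continuous fun x => f x j ω ω') : Continuous fun x => dev n (Q x) ρ (f x) :=
  (continuous_finsetSum _ fun j _ => h.E2 n ρ j fun ω ω' => (hf j ω ω').abs).const_mul _

end cont

/-- Differentiation under the integral over a compact space. -/
theorem deriv_int {X : Type} [TopologicalSpace X] [CompactSpace X] [SecondCountableTopology X]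
    [MeasurableSpace X] [OpensMeasurableSpace X] (ν : Measure X) [IsFiniteMeasure ν]
    {Φ Φ' : ℝ → X → ℝ} (h0 : Continuous (uncurry Φ)) (h1 : Continuous (uncurry Φ'))
    (hd : ∀ s x, HasDerivAt (fun s => Φ s x) (Φ' s x) s) (s : ℝ) :
    HasDerivAt (fun s => ∫ x, Φ s x ∂ν) (∫ x, Φ' s x ∂ν) s := by
  obtain ⟨C, hC⟩ := ((isCompact_closedBall s 1).prod isCompact_univ).exists_bound_of_continuousOn
    (f := uncurry Φ') h1.continuousOn
  exact (hasDerivAt_integral_of_dominated_loc_of_deriv_le (μ := ν) (F := Φ) (F' := Φ')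
    (bound := fun _ => C) (Metric.ball_mem_nhds s one_pos)
    (Filter.Eventually.of_forall fun t => (h0.uncurry_left t).aestronglyMeasurable)
    (intg ν (h0.uncurry_left s)) (h1.uncurry_left s).aestronglyMeasurable
    (Filter.Eventually.of_forall fun x t ht =>
      hC (t, x) ⟨Metric.ball_subset_closedBall ht, Set.mem_univ _⟩)
    (integrable_const C) (Filter.Eventually.of_forall fun x t _ => hd t x)).2

/-- Mean value inequality on an interval. -/
theorem mvt_abs {f f' : ℝ → ℝ} {a b e : ℝ} (hab : a ≤ b) (hd : ∀ s, HasDerivAt f (f' s) s)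
    (h : ∀ s, a ≤ s → s ≤ b → |f' s| ≤ e) : |f b - f a| ≤ e * (b - a) := by
  have := Convex.norm_image_sub_le_of_norm_hasDerivWithin_le (f := f) (f' := f') (C := e)
    (s := Set.Icc a b) (fun x _ => (hd x).hasDerivWithinAt) (fun x hx => h x hx.1 hx.2)
    (convex_Icc a b) (Set.left_mem_Icc.2 hab) (Set.right_mem_Icc.2 hab)
  simpa only [Real.norm_eq_abs, abs_of_nonneg (sub_nonneg.2 hab)] using this

/-! ### Finite level facts -/

section fin
variable {n : ℕ} {Ω : Type} [Fintype Ω] {P : Ch Ω} {ρ : PW Ω}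

theorem Fr_cvx (G G' : Ω → ℝ) :
    Fr n P ρ G + Eh n (Tn n P G) ρ 0 (fun ω => G' ω - G ω) ≤ Fr n P ρ G' := by
  have := Fr_add (n := n) (P := P) (ρ := ρ) G fun ω => G' ω - G ω
  simp only [add_sub_cancel] at this
  rw [this]
  exact add_le_add le_rfl (Eh_le_Fr _)

/-- Switching on a linear sign field. -/
theorem lin_two {Λ : Type} [Fintype Λ] {s : Fam Λ Ω} {H : Ω → ℝ} (h : s.Ok (Tn n P H) ρ)
    {v : Λ → Ω → ℝ} (hv : ∀ l, s.Inv (v l)) {W : ℝ} (hW : ∀ ω, ∑ l, v l ω ^ 2 ≤ W) :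
    Fr n P ρ H ≤ Fr n P ρ (fun ω => H ω + ∑ l, sp (s.τ l ω) * v l ω) ∧
      Fr n P ρ (fun ω => H ω + ∑ l, sp (s.τ l ω) * v l ω) ≤ Fr n P ρ H + W / 2 := by
  rw [Fr_add]
  have h1 := Eh_le_Fr (n := n) (P := Tn n P H) (ρ := ρ) fun ω => ∑ l, sp (s.τ l ω) * v l ω
  rw [Eh_lin_zero h hv] at h1
  have h2 := (Fr_le_log _).trans (Real.log_le_log (E_pos _ fun _ => E_pos _ fun _ =>
    Real.exp_pos _) (linmom (n := n) h hv hW))
  rw [Real.log_exp] at h2
  constructor <;> linarith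

end fin

/-! ### Haar measure -/

section haar
variable (I : Type) [Fintype I] [DecidableEq I]

noncomputable instance : MeasurableSpace (OG I) := borel _
instance : BorelSpace (OG I) := ⟨rfl⟩

/-- The Haar probability measure. -/
noncomputable def hr : Measure (OG I) := (exists_haar (OG I)).choose

instance : IsProbabilityMeasure (hr I) := (exists_haar (OG I)).choose_spec.1
instance : (hr I).IsMulLeftInvariant := (exists_haar (OG I)).choose_spec.2
instance : (hr I).IsMulRightInvariant := haar_right _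

end haar

/-! ### Systems -/

/-- A hierarchical system with spins `σ`, eigenvalues `κ`, a linear term `b`, a free term `G` and a
small hierarchical field acting on the rows in `S`. -/
structure Sys (n K : ℕ) (Ω I : Type) [Fintype Ω] where
  P : Ch Ω
  ρ : PW Ω
  σ : Ω → I → ℝ
  b : Ω → I → ℝ
  G : Ω → ℝ
  κ : I → ℝ
  S : Finset I
  s : Fam (Fin (n + 1) × (I × Fin K)) Ω
  γ : Fin (n + 1) → ℝ

namespace Sys
variable {n K : ℕ} {Ω I : Type} [Fintype Ω] [Fintype I] [DecidableEq I] (Y : Sys n K Ω I)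

/-- Rotated spins. -/
def t (U : OG I) (ω : Ω) : I → ℝ := act U (Y.σ ω)

/-- The small field in spin coordinates. -/
noncomputable def g (ω : Ω) (a : I) : ℝ :=
  ∑ l, Y.γ l * ∑ k, sp (Y.s.τ (l, (a, k)) ω) / Real.sqrt K

/-- The energy without the small field. -/
noncomputable def H (U : OG I) (ω : Ω) : ℝ :=
  (∑ i, Y.κ i * Y.t U ω i ^ 2) / 2 + ∑ i, Y.b ω i * Y.t U ω i + Y.G ω

/-- The features of the small field. -/
noncomputable def u (U : OG I) (q : I × Fin K) (ω : Ω) : ℝ :=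
  (∑ i ∈ Y.S, U.1 i q.1 * Y.t U ω i) / Real.sqrt K

/-- The energy. -/
noncomputable def En (U : OG I) (ω : Ω) : ℝ := Y.H U ω + tot (fld Y.s (Y.u U)) Y.γ ω

/-- The Gibbs chain. -/
noncomputable def Q (U : OG I) : Ch Ω := Tn n Y.P (Y.En U)

/-- The free energy at a fixed rotation. -/
noncomputable def F0 (U : OG I) : ℝ := Fr n Y.P Y.ρ (Y.En U)

/-- The averaged free energy. -/
noncomputable def F : ℝ := ∫ U, Y.F0 U ∂(hr I)

noncomputable def I1 (f : OG I → Ω → ℝ) : ℝ := ∫ U, Eh n (Y.Q U) Y.ρ 0 (f U) ∂(hr I)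

noncomputable def I2 (j : ℕ) (f : OG I → Ω → Ω → ℝ) : ℝ :=
  ∫ U, E2 n (Y.Q U) Y.ρ j (f U) ∂(hr I)

/-- Overlap of the rows in `A`. -/
noncomputable def R (A : Finset I) (N : ℝ) (U : OG I) (x y : Ω) : ℝ :=
  (∑ i ∈ A, Y.t U x i * Y.t U y i) / N

/-- Distance of the overlap of the rows in `S` from the profile `r`. -/
noncomputable def dv (N : ℝ) (r : ℕ → ℝ) : ℝ :=
  ∫ U, (Eh n (Y.Q U) Y.ρ 0 (fun x => |Y.R Y.S N U x x - r 0|) +
    dev n (Y.Q U) Y.ρ fun j x y => Y.R Y.S N U x y - r j) ∂(hr I)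

/-- The mean profile, cut at the top. -/
noncomputable def prf (N : ℝ) (j : ℕ) : ℝ := if j ≤ n then Y.I2 j (Y.R Y.S N) else 0

/-- Distance of the free energy from the number `c`. -/
noncomputable def fl (c : ℝ) : ℝ :=
  ∫ U, Y.ρ.E (fun ω => |Xn n Y.P (Y.En U) ω - c|) ∂(hr I)

/-- Perturbation of the small field and of the eigenvalues in `S`. -/
noncomputable def pert (δ : Option (Fin (n + 1)) → ℝ) : Sys n K Ω I :=
  { Y with γ := fun l => Y.γ l + δ (some l)
           κ := fun i => Y.κ i + if i ∈ Y.S then δ none else 0 }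

/-- A cavity spin `ε` coupled to the rows (angle `π/2`) or to a hierarchical field (angle `0`). -/
noncomputable def cav (ε : Ω → ℝ) (bh : I → ℝ) (s2 : Fam (Fin (n + 1) × Fin K) Ω)
    (α : Fin (n + 1) → ℝ) (φ : ℝ) : Sys n K Ω I :=
  { Y with b := fun ω i => Real.sin φ * bh i * ε ω
           G := fun ω => Y.G ω +
             Real.cos φ * tot (fld s2 fun _ ω => ε ω / Real.sqrt K) α ω }

/-- Structural hypotheses. -/
structure St : Prop where
  ok : Y.s.Ok Y.P Y.ρ
  lv : ∀ l q, Y.s.lv (l, q) = l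
  inv_σ : Y.s.Inv Y.σ
  inv_b : Y.s.Inv Y.b
  inv_G : Y.s.Inv Y.G
  nσ : ∀ ω, ∑ a, Y.σ ω a ^ 2 ≤ Fintype.card I
  hK : 0 < K
  hγ : ∑ l, Y.γ l ^ 2 ≤ 1

/-- Block structure: a large top block `T`, few other rows in `S`, large blocks outside `S`. -/
structure Ok (T : Finset I) (κT X C : ℝ) : Prop extends Y.St where
  TS : T ⊆ Y.S
  κ_T : ∀ i ∈ T, Y.κ i = κT
  κ_le : ∀ i, Y.κ i ≤ κT
  κ_bd : ∀ i, |Y.κ i| ≤ C
  κT_bd : |κT| ≤ C
  b_T : ∀ ω, ∀ i ∈ T, Y.b ω i = 0
  b_S : ∀ ω, ∀ i ∉ Y.S, Y.b ω i = 0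
  b_bd : ∀ ω, ∑ i, Y.b ω i ^ 2 ≤ C
  hI : 0 < Fintype.card I
  cT : (Fintype.card I : ℝ) ≤ X * (T.card - 1)
  cS : ((Y.S \ T).card : ℝ) ≤ C
  blk : ∀ i ∉ Y.S, ∃ B : Finset I, i ∈ B ∧ Disjoint B Y.S ∧ (∀ j ∈ B, Y.κ j = Y.κ i) ∧
    (Fintype.card I : ℝ) ≤ X * (B.card - 1)

/-- The normalisation `N` and the small number `e`. -/
structure Nz (K : ℕ) (I : Type) [Fintype I] (T : Finset I) (X N e : ℝ) : Prop where
  hN : 0 < N
  cN : (Fintype.card I : ℝ) ≤ X * N
  cT : |(T.card : ℝ) - N| ≤ e * N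
  one : 1 ≤ e * N
  hK : (Fintype.card I : ℝ) ^ 3 ≤ e * Real.sqrt K

section basic
variable {Y} {Z : Type} [TopologicalSpace Z]

theorem cont_t (U : Z → OG I) (hU : Continuous U) (ω : Ω) (i : I) :
    Continuous fun z => Y.t (U z) ω i :=
  (continuous_apply i).comp (continuous_act hU continuous_const)

theorem cont_entry (U : Z → OG I) (hU : Continuous U) (i a : I) :
    Continuous fun z => (U z).1 i a :=
  (continuous_subtype_val.comp hU).matrix_elem i a

theorem cont_u (U : Z → OG I) (hU : Continuous U) (q : I × Fin K) (ω : Ω) :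
    Continuous fun z => Y.u (U z) q ω :=
  (continuous_finsetSum _ fun i _ => (cont_entry U hU i _).mul (cont_t U hU ω i)).div_const _

theorem cont_fld (U : Z → OG I) (hU : Continuous U) (l : Fin (n + 1)) (ω : Ω) :
    Continuous fun z => fld Y.s (Y.u (U z)) l ω :=
  continuous_finsetSum _ fun q _ => (cont_u U hU q ω).const_mul _

theorem cont_H (U : Z → OG I) (hU : Continuous U) (ω : Ω) : Continuous fun z => Y.H (U z) ω :=
  (((continuous_finsetSum _ fun i _ => ((cont_t U hU ω i).pow 2).const_mul _).div_const _).add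
    (continuous_finsetSum _ fun i _ => (cont_t U hU ω i).const_mul _)).add continuous_const

theorem cont_En (U : Z → OG I) (hU : Continuous U) (ω : Ω) : Continuous fun z => Y.En (U z) ω :=
  (cont_H U hU ω).add (continuous_finsetSum _ fun l _ => (cont_fld U hU l ω).const_mul _)

theorem cont_R (A : Finset I) (N : ℝ) (x y : Ω) : Continuous fun U => Y.R A N U x y :=
  (continuous_finsetSum _ fun i _ =>
    (cont_t id continuous_id x i).mul (cont_t id continuous_id y i)).div_const _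

variable (Y) in
theorem cch : CCh Y.Q := cch_Tn n Y.P (cont_En id continuous_id)

variable (Y) in
theorem cont_F0 : Continuous Y.F0 := cont_Fr n Y.P Y.ρ (cont_En id continuous_id)

theorem sum_t_sq (h : Y.St) (U : OG I) (ω : Ω) : ∑ i, Y.t U ω i ^ 2 ≤ Fintype.card I :=
  (sum_act_sq U _).trans_le (h.nσ ω)

theorem sum_uu (hK : 0 < K) (U : OG I) (x y : Ω) :
    ∑ q, Y.u U q x * Y.u U q y = ∑ i ∈ Y.S, Y.t U x i * Y.t U y i := by
  have h : (0 : ℝ) < K := by exact_mod_cast hK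
  have e : ∀ (z : Ω) a, ∑ i ∈ Y.S, U.1 i a * Y.t U z i =
      act U⁻¹ (fun i => if i ∈ Y.S then Y.t U z i else 0) a := fun z a => by
    simp [act_apply]
  simp only [u, Fintype.sum_prod_type, div_mul_div_comm, Real.mul_self_sqrt h.le, sum_const,
    card_univ, Fintype.card_fin, nsmul_eq_mul, mul_div_cancel₀ _ h.ne', e]
  have := act_dot U⁻¹ (fun i => if i ∈ Y.S then Y.t U x i else 0)
    fun i => if i ∈ Y.S then Y.t U y i else 0
  simp only [dotProduct] at this
  rw [this]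
  simp

theorem ov_u (hK : 0 < K) (U : OG I) (N : ℝ) : ov (Y.u U) N = Y.R Y.S N U :=
  funext fun x => funext fun y => by rw [ov, R, sum_uu hK]

theorem sum_u_sq (h : Y.St) (U : OG I) (ω : Ω) : ∑ q, Y.u U q ω ^ 2 ≤ Fintype.card I := by
  have := sum_uu (Y := Y) h.hK U ω ω
  simp only [← sq] at this
  rw [this]
  exact (sum_le_sum_of_subset_of_nonneg (subset_univ _) fun _ _ _ => sq_nonneg _).trans
    (sum_t_sq h U ω)

theorem abs_u_le (h : Y.St) (U : OG I) (q : I × Fin K) (ω : Ω) :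
    |Y.u U q ω| ≤ Real.sqrt (Fintype.card I) / Real.sqrt K := by
  have hK : (0 : ℝ) < K := by exact_mod_cast h.hK
  rw [← Real.sqrt_div (Nat.cast_nonneg _)]
  refine Real.abs_le_sqrt ?_
  rw [le_div_iff₀ hK]
  refine le_trans ?_ (sum_u_sq h U ω)
  rw [Fintype.sum_prod_type]
  refine le_trans (le_of_eq ?_) (single_le_sum (f := fun a => ∑ k, Y.u U (a, k) ω ^ 2)
    (fun _ _ => sum_nonneg fun _ _ => sq_nonneg _) (mem_univ q.1))
  simp [u, mul_comm]

theorem inv_t (h : Y.St) (U : OG I) : Y.s.Inv (Y.t U) := fun l ω => by rw [t, t, h.inv_σ]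

theorem inv_H (h : Y.St) (U : OG I) : Y.s.Inv (Y.H U) := fun l ω => by
  rw [H, H, inv_t h, h.inv_b, h.inv_G]

theorem fs (h : Y.St) (U : OG I) : FS Y.s (Y.u U) (Real.sqrt (Fintype.card I) / Real.sqrt K)
    (Tn n Y.P (Y.H U)) Y.ρ where
  ok := h.ok.Tn (inv_H h U)
  lv := h.lv
  inv := fun q l ω => by rw [u, u, inv_t h]
  bd := abs_u_le h U

theorem Q_eq (U : OG I) : Y.Q U = Tn n (Tn n Y.P (Y.H U)) (tot (fld Y.s (Y.u U)) Y.γ) :=
  (Tn_Tn _ _).symm

theorem tot_eq (U : OG I) (ω : Ω) :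
    tot (fld Y.s (Y.u U)) Y.γ ω = ∑ i ∈ Y.S, act U (Y.g ω) i * Y.t U ω i := by
  simp only [tot, fld, u, g, act_apply, Fintype.sum_prod_type, mul_sum, sum_mul, sum_div]
  rw [sum_comm]
  conv_rhs => rw [sum_comm]
  refine sum_congr rfl fun a _ => ?_
  conv_rhs => rw [sum_comm]
  refine sum_congr rfl fun l _ => ?_
  rw [sum_comm]
  exact sum_congr rfl fun i _ => sum_congr rfl fun k _ => by ring

theorem abs_R_le (h : Y.St) (A : Finset I) {N X : ℝ} (hN : 0 < N)
    (hX : (Fintype.card I : ℝ) ≤ X * N) (U : OG I) (x y : Ω) : |Y.R A N U x y| ≤ X := by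
  have := abs_ov_le (u := fun (i : I) ω => if i ∈ A then Y.t U ω i else 0) hN (c := X)
    (fun ω => le_trans (sum_le_sum fun i _ => by split_ifs <;> simp [sq_nonneg])
      ((sum_t_sq h U ω).trans hX)) x y
  simpa [ov, R] using this

theorem dv_nonneg (N : ℝ) (r : ℕ → ℝ) : 0 ≤ Y.dv N r :=
  integral_nonneg fun _ => add_nonneg (Eh_nonneg fun _ => abs_nonneg _) (dev_nonneg _)

theorem pert_zero : Y.pert 0 = Y := by simp [pert]

theorem pert_pert (δ δ' : Option (Fin (n + 1)) → ℝ) : (Y.pert δ).pert δ' = Y.pert (δ + δ') := by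
  simp only [pert, Pi.add_apply, add_assoc]
  congr 1
  funext i
  by_cases h : i ∈ Y.S <;> simp [h]

theorem En_pert (δ : Option (Fin (n + 1)) → ℝ) (U : OG I) (ω : Ω) :
    (Y.pert δ).En U ω = Y.En U ω + (δ none * ((∑ i ∈ Y.S, Y.t U ω i ^ 2) / 2) +
      ∑ l, δ (some l) * fld Y.s (Y.u U) l ω) := by
  have : (Y.pert δ).u U = Y.u U := rfl
  have e : (Y.pert δ).t U = Y.t U := rfl
  simp only [En, H, tot, this, e]
  simp only [pert, add_mul, sum_add_distrib, ite_mul, zero_mul, ← sum_filter, filter_mem_eq_inter,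
    univ_inter, ← mul_sum]
  ring

theorem St.pert (h : Y.St) {δ : Option (Fin (n + 1)) → ℝ}
    (hγ : ∑ l, (Y.γ l + δ (some l)) ^ 2 ≤ 1) : (Y.pert δ).St :=
  ⟨h.ok, h.lv, h.inv_σ, h.inv_b, h.inv_G, h.nσ, h.hK, hγ⟩

end basic

end Sys

/-- Sum of second differences at the origin. -/
noncomputable def sd {J : Type} [Fintype J] [DecidableEq J] (f : (J → ℝ) → ℝ) (h : ℝ) : ℝ :=
  ∑ j, (f (Pi.single j h) + f (Pi.single j (-h)) - 2 * f 0)

end Vale.Agent.P166
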