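import Vale.Agent.P157.Base

/-!
# P166: the product of hierarchical profiles
-/

namespace Vale.Agent.P166.W

open Vale.Agent.P157 Finset
open scoped BigOperators

/-- The product of two profiles. -/
noncomputable def star (n : ℕ) (a b : ℕ → ℝ) (l : ℕ) : ℝ :=
  a 0 * b l + a l * b 0 - a l * cum n b l - b l * cum n a l - ze n l * (a l * b l) -
    wt n * ∑ j ∈ Icc (l + 1) (n + 1), a j * b j

/-- The unit profile. -/
def one0 (l : ℕ) : ℝ := if l = 0 then 1 else 0

/-- The weighted norm of a profile. -/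
noncomputable def nw (n : ℕ) (e : ℕ → ℝ) : ℝ := |e 0| + wt n * ∑ j ∈ Icc 1 (n + 1), |e j|

/-- The reference profile of a coordinate at distance `c` below the top. -/
noncomputable def zz (n : ℕ) (r : ℕ → ℝ) (c : ℝ) (l : ℕ) : ℝ :=
  ∑ j ∈ Ico l (n + 1), (r j - r (j + 1)) / ((1 + c * chi n r j) * (1 + c * chi n r (j + 1))) +
    r (n + 1) / (1 + c * chi n r (n + 1)) ^ 2

variable {n l : ℕ} {a b r e : ℕ → ℝ} {c : ℝ}

theorem ze_succ (n l : ℕ) : ze n (l + 1) = ze n l - wt n := by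
  simp only [ze, wt]; push_cast; ring

theorem ze_zero (n : ℕ) : ze n 0 = 1 := by simp [ze]

theorem ze_top (n : ℕ) : ze n (n + 1) = 0 := by
  rw [ze]; push_cast; rw [div_self (by positivity), sub_self]

theorem ze_eq (n l : ℕ) : ze n l = 1 - l * wt n := by rw [ze, wt]; ring

theorem ze_pos (h : l ≤ n) : 0 < ze n l := by
  rw [← al_eq_ze h]; exact P168.al_pos n l

theorem ze_nonneg (h : l ≤ n + 1) : 0 ≤ ze n l := by
  rcases h.eq_or_lt with rfl | h
  · rw [ze_top]
  · exact (ze_pos (by omega)).le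

theorem ze_le_one (n l : ℕ) : ze n l ≤ 1 := by
  rw [ze_eq]; have := wt_pos n; have : 0 ≤ (l : ℝ) * wt n := by positivity
  linarith

theorem chi_zero (a : ℕ → ℝ) : chi n a 0 = 0 := by simp [chi]

theorem chi_succ (a : ℕ → ℝ) (l : ℕ) :
    chi n a (l + 1) = chi n a l + ze n l * (a l - a (l + 1)) := by simp [chi, sum_range_succ]

theorem chi_eq (a : ℕ → ℝ) (l : ℕ) : chi n a l = a 0 - cum n a l - ze n l * a l := by
  induction l with
  | zero => simp [chi_zero, cum_zero, ze_zero]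
  | succ l ih => rw [chi_succ, ih, cum_succ, ze_succ]; ring

theorem chi_congr (h : ∀ l, l ≤ n + 1 → a l = b l) (hl : l ≤ n + 1) : chi n a l = chi n b l :=
  sum_congr rfl fun j hj => by
    have := mem_range.mp hj
    rw [h j (by omega), h (j + 1) (by omega)]

theorem chi_add (a b : ℕ → ℝ) (l : ℕ) :
    chi n (fun j => a j + b j) l = chi n a l + chi n b l := by
  simp only [chi, ← sum_add_distrib]; exact sum_congr rfl fun _ _ => by ring

theorem chi_sub (a b : ℕ → ℝ) (l : ℕ) :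
    chi n (fun j => a j - b j) l = chi n a l - chi n b l := by
  simp only [chi, ← sum_sub_distrib]; exact sum_congr rfl fun _ _ => by ring

theorem chi_const_mul (c : ℝ) (a : ℕ → ℝ) (l : ℕ) :
    chi n (fun j => c * a j) l = c * chi n a l := by
  simp only [chi, mul_sum]; exact sum_congr rfl fun _ _ => by ring

theorem chi_sum {ι : Type} (s : Finset ι) (a : ι → ℕ → ℝ) (l : ℕ) :
    chi n (fun j => ∑ i ∈ s, a i j) l = ∑ i ∈ s, chi n (a i) l := by
  simp only [chi, ← sum_sub_distrib, mul_sum]; exact sum_comm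

theorem chi_mono (h : Mono n r) {i j : ℕ} (hi : i ≤ j) (hj : j ≤ n + 1) :
    chi n r i ≤ chi n r j := by
  induction j, hi using Nat.le_induction with
  | base => exact le_rfl
  | succ j hij ih =>
    rw [chi_succ]
    have := mul_nonneg (ze_nonneg (n := n) (l := j) (by omega)) (sub_nonneg.mpr (h.1 j (by omega)))
    linarith [ih (by omega)]

theorem chi_nonneg (h : Mono n r) (hl : l ≤ n + 1) : 0 ≤ chi n r l :=
  (chi_zero r).symm.trans_le (chi_mono h (Nat.zero_le l) hl)

theorem cum_nonneg (h : Mono n r) (hl : l ≤ n + 1) : 0 ≤ cum n r l :=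
  mul_nonneg (wt_pos n).le (sum_nonneg fun _ hj => h.nonneg ((mem_Icc.mp hj).2.trans hl))

theorem chi_le (h : Mono n r) (hl : l ≤ n + 1) : chi n r l ≤ r 0 := by
  rw [chi_eq]
  linarith [cum_nonneg h hl, mul_nonneg (ze_nonneg hl) (h.nonneg hl)]

theorem star_eq (a b : ℕ → ℝ) (l : ℕ) : star n a b l = a l * chi n b l + b l * chi n a l +
    ze n l * (a l * b l) - wt n * ∑ j ∈ Icc (l + 1) (n + 1), a j * b j := by
  rw [star, chi_eq, chi_eq]; ring

theorem star_comm (a b : ℕ → ℝ) : star n a b = star n b a := funext fun l => by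
  simp only [star_eq, mul_comm (b _) (a _)]; ring

theorem star_zero (a b : ℕ → ℝ) :
    star n a b 0 = a 0 * b 0 - wt n * ∑ j ∈ Icc 1 (n + 1), a j * b j := by
  simp [star_eq, chi_zero, ze_zero]

theorem star_zero_vr (a b : ℕ → ℝ) :
    star n a b 0 = ∑ l ∈ range (n + 2), vr n b l * (a 0 - cum n a l) := by
  simp only [star_zero, mul_sub, sum_sub_distrib, ← sum_mul, sum_vr, sum_vr_cum]; ring

theorem star_top (a b : ℕ → ℝ) :
    star n a b (n + 1) = a (n + 1) * chi n b (n + 1) + b (n + 1) * chi n a (n + 1) := by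
  simp [star_eq, ze_top]

theorem star_sub (a b : ℕ → ℝ) (hl : l ≤ n) : star n a b l - star n a b (l + 1) =
    (a l - a (l + 1)) * chi n b l + chi n a l * (b l - b (l + 1)) +
      ze n l * ((a l - a (l + 1)) * (b l - b (l + 1))) := by
  rw [star_eq, star_eq, chi_succ, chi_succ, ze_succ,
    ← insert_Icc_add_one_left_eq_Icc (show l + 1 ≤ n + 1 by omega), sum_insert (by simp)]
  ring

theorem chi_star (a b : ℕ → ℝ) (hl : l ≤ n + 1) :
    chi n (star n a b) l = chi n a l * chi n b l := by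
  induction l with
  | zero => simp [chi_zero]
  | succ l ih => rw [chi_succ, ih (by omega), star_sub a b (by omega), chi_succ, chi_succ]; ring

theorem eq_sum_chi (a : ℕ → ℝ) (hl : l ≤ n + 1) :
    a l = ∑ j ∈ Ico l (n + 1), (chi n a (j + 1) - chi n a j) / ze n j + a (n + 1) := by
  rw [sum_congr rfl (g := fun j => a j - a (j + 1)) fun j hj => by
    have := (ze_pos (n := n) (l := j) (by have := mem_Ico.mp hj; omega)).ne'
    rw [chi_succ]; field_simp; ring, P168.sum_Ico_tele a hl]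
  ring

theorem eq_of_chi (h : ∀ l, l ≤ n + 1 → chi n a l = chi n b l) (ht : a (n + 1) = b (n + 1))
    (hl : l ≤ n + 1) : a l = b l := by
  rw [eq_sum_chi a hl, eq_sum_chi b hl, ht]
  congr 1
  exact sum_congr rfl fun j hj => by
    have := mem_Ico.mp hj
    rw [h j (by omega), h (j + 1) (by omega)]

theorem star_one (b : ℕ → ℝ) (l : ℕ) : star n one0 b l = b l := by
  have h1 : cum n one0 l = 0 := by
    rw [cum, sum_eq_zero fun j hj => by have := mem_Icc.mp hj; rw [one0, if_neg (by omega)],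
      mul_zero]
  have h2 : ∑ j ∈ Icc (l + 1) (n + 1), one0 j * b j = 0 := sum_eq_zero fun j hj => by
    have := mem_Icc.mp hj; rw [one0, if_neg (by omega), zero_mul]
  rw [star, h1, h2]
  rcases Nat.eq_zero_or_pos l with rfl | h
  · simp [one0, cum_zero, ze_zero]
  · simp [one0, h.ne']

theorem star_congr {a' b' : ℕ → ℝ} (ha : ∀ l, l ≤ n + 1 → a l = a' l)
    (hb : ∀ l, l ≤ n + 1 → b l = b' l) (hl : l ≤ n + 1) : star n a b l = star n a' b' l := by
  rw [star_eq, star_eq, chi_congr ha hl, chi_congr hb hl, ha l hl, hb l hl,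
    sum_congr rfl fun j hj => by rw [ha j (mem_Icc.mp hj).2, hb j (mem_Icc.mp hj).2]]

theorem star_add_left (a a' b : ℕ → ℝ) (l : ℕ) :
    star n (fun j => a j + a' j) b l = star n a b l + star n a' b l := by
  simp only [star_eq, chi_add, add_mul, sum_add_distrib]; ring

theorem star_sub_left (a a' b : ℕ → ℝ) (l : ℕ) :
    star n (fun j => a j - a' j) b l = star n a b l - star n a' b l := by
  simp only [star_eq, chi_sub, sub_mul, sum_sub_distrib]; ring

theorem star_const_mul_left (c : ℝ) (a b : ℕ → ℝ) (l : ℕ) :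
    star n (fun j => c * a j) b l = c * star n a b l := by
  simp only [star_eq, chi_const_mul, mul_assoc, ← mul_sum]; ring

theorem star_sum_left {ι : Type} (s : Finset ι) (a : ι → ℕ → ℝ) (b : ℕ → ℝ) (l : ℕ) :
    star n (fun j => ∑ i ∈ s, a i j) b l = ∑ i ∈ s, star n (a i) b l := by
  simp only [star_eq, chi_sum, sum_sub_distrib, sum_add_distrib, sum_mul, mul_sum]
  rw [sum_comm (s := s)]

theorem zz_top (r : ℕ → ℝ) (c : ℝ) :
    zz n r c (n + 1) = r (n + 1) / (1 + c * chi n r (n + 1)) ^ 2 := by simp [zz]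

theorem zz_sub (r : ℕ → ℝ) (c : ℝ) (hl : l ≤ n) : zz n r c l - zz n r c (l + 1) =
    (r l - r (l + 1)) / ((1 + c * chi n r l) * (1 + c * chi n r (l + 1))) := by
  rw [zz, zz, sum_eq_sum_Ico_succ_bot (show l < n + 1 by omega)]; ring

theorem den_ge (h : Mono n r) (hc : 0 ≤ c) (hl : l ≤ n + 1) : 1 ≤ 1 + c * chi n r l :=
  le_add_of_nonneg_right (mul_nonneg hc (chi_nonneg h hl))

theorem chi_zz (h : Mono n r) (hc : 0 ≤ c) (hl : l ≤ n + 1) :
    chi n (zz n r c) l = chi n r l / (1 + c * chi n r l) := by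
  induction l with
  | zero => simp [chi_zero]
  | succ l ih =>
    have h1 := den_ge h hc hl
    have h2 := den_ge h hc (show l ≤ n + 1 by omega)
    have h3 : ze n l * (r l - r (l + 1)) = chi n r (l + 1) - chi n r l := by
      rw [chi_succ]; ring
    rw [chi_succ, ih (by omega), zz_sub r c (by omega), ← mul_div_assoc, h3,
      div_add_div _ _ (by positivity) (by positivity), div_eq_div_iff (by positivity) (by positivity)]
    ring

theorem zz_mono (h : Mono n r) (hc : 0 ≤ c) : Mono n (zz n r c) := by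
  refine ⟨fun j hj => ?_, ?_⟩
  · rw [← sub_nonneg, zz_sub r c hj]
    have h1 := den_ge h hc (show j + 1 ≤ n + 1 by omega)
    have h2 := den_ge h hc (show j ≤ n + 1 by omega)
    exact div_nonneg (sub_nonneg.mpr (h.1 j hj)) (by positivity)
  · rw [zz_top]; exact div_nonneg h.2 (sq_nonneg _)

theorem zz_le (h : Mono n r) (hc : 0 ≤ c) (hl : l ≤ n + 1) : zz n r c l ≤ r l := by
  have h0 := P168.sum_Ico_tele r hl
  have h1 : ∑ j ∈ Ico l (n + 1), (r j - r (j + 1)) /
      ((1 + c * chi n r j) * (1 + c * chi n r (j + 1))) ≤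
      ∑ j ∈ Ico l (n + 1), (r j - r (j + 1)) := sum_le_sum fun j hj => by
    have := mem_Ico.mp hj
    exact div_le_self (sub_nonneg.mpr (h.1 j (by omega)))
      (one_le_mul_of_one_le_of_one_le (den_ge h hc (by omega)) (den_ge h hc (by omega)))
  have h2 := div_le_self h.2 (one_le_pow₀ (n := 2) (den_ge h hc (le_refl (n + 1))))
  rw [zz]; linarith

theorem abs_zz_le (h : Mono n r) (hc : 0 ≤ c) (hl : l ≤ n + 1) : |zz n r c l| ≤ r 0 := by
  rw [abs_of_nonneg ((zz_mono h hc).nonneg hl)]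
  exact (zz_le h hc hl).trans (h.anti (Nat.zero_le l) hl)

/-- Solution of the approximate loop equation. -/
theorem solve {ρ : ℕ → ℝ} (h : Mono n r) (hc : 0 ≤ c)
    (H : ∀ l, l ≤ n + 1 → ρ l + c * star n ρ r l = star n a r l + e l) (hl : l ≤ n + 1) :
    ρ l = star n a (zz n r c) l + (e l - c * star n e (zz n r c) l) := by
  have H1 : ∀ l, l ≤ n + 1 → chi n ρ l * (1 + c * chi n r l) = chi n a l * chi n r l + chi n e l :=
    fun l hl => by
      have := chi_congr (a := fun l => ρ l + c * star n ρ r l)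
        (b := fun l => star n a r l + e l) H hl
      rw [chi_add, chi_add, chi_const_mul, chi_star _ _ hl, chi_star _ _ hl] at this
      linarith
  refine eq_of_chi (b := fun l => star n a (zz n r c) l + (e l - c * star n e (zz n r c) l))
    (fun l hl => ?_) ?_ hl
  · have h1 := den_ge h hc hl
    rw [chi_add, chi_sub, chi_const_mul, chi_star _ _ hl, chi_star _ _ hl, chi_zz h hc hl]
    have h2 := H1 l hl
    obtain ⟨D, hD⟩ : ∃ D, D = 1 + c * chi n r l := ⟨_, rfl⟩
    rw [← hD] at h1 h2 ⊢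
    field_simp
    linear_combination h2 - chi n e l * hD
  · have h1 := den_ge h hc (le_refl (n + 1))
    have h2 := H1 _ le_rfl
    have h3 := H _ le_rfl
    rw [star_top, star_top] at h3
    simp only [star_top, zz_top, chi_zz h hc le_rfl]
    obtain ⟨D, hD⟩ : ∃ D, D = 1 + c * chi n r (n + 1) := ⟨_, rfl⟩
    rw [← hD] at h1 h2 ⊢
    field_simp
    linear_combination D * h3 - c * r (n + 1) * h2 +
      (D * ρ (n + 1) - D * e (n + 1) + r (n + 1) * chi n a (n + 1)) * hD

theorem nw_nonneg (e : ℕ → ℝ) : 0 ≤ nw n e := by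
  have := wt_pos n
  unfold nw; positivity

theorem abs_zero_le_nw (e : ℕ → ℝ) : |e 0| ≤ nw n e := by
  have := wt_pos n
  exact le_add_of_nonneg_right (by positivity)

theorem abs_cum_le_sum (e : ℕ → ℝ) (l : ℕ) : |cum n e l| ≤ wt n * ∑ j ∈ Icc 1 l, |e j| := by
  rw [cum, abs_mul, abs_of_pos (wt_pos n)]
  exact mul_le_mul_of_nonneg_left (abs_sum_le_sum_abs _ _) (wt_pos n).le

theorem abs_cum_le_nw (e : ℕ → ℝ) (hl : l ≤ n + 1) : |cum n e l| ≤ nw n e := by
  refine (abs_cum_le_sum e l).trans (le_add_of_nonneg_of_le (abs_nonneg _) ?_)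
  exact mul_le_mul_of_nonneg_left (sum_le_sum_of_subset_of_nonneg (Icc_subset_Icc_right hl)
    fun _ _ _ => abs_nonneg _) (wt_pos n).le

theorem abs_cum_le_sup {M : ℝ} (hb : ∀ l, l ≤ n + 1 → |b l| ≤ M) (hl : l ≤ n + 1) :
    |cum n b l| ≤ M := by
  refine (abs_cum_le_sum b l).trans ?_
  rw [← wt_sum n M]
  refine mul_le_mul_of_nonneg_left ((sum_le_sum fun j hj => hb j ((mem_Icc.mp hj).2.trans hl)).trans
    (sum_le_sum_of_subset_of_nonneg (Icc_subset_Icc_right hl) fun _ _ _ =>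
      (abs_nonneg _).trans (hb 0 (by omega)))) (wt_pos n).le

theorem nw_mono (h : ∀ l, l ≤ n + 1 → |a l| ≤ |b l|) : nw n a ≤ nw n b :=
  add_le_add (h 0 (by omega)) (mul_le_mul_of_nonneg_left
    (sum_le_sum fun j hj => h j (mem_Icc.mp hj).2) (wt_pos n).le)

theorem nw_le_add {e : ℕ → ℝ} (h : ∀ l, l ≤ n + 1 → |e l| ≤ |a l| + |b l|) :
    nw n e ≤ nw n a + nw n b := by
  have h1 := mul_le_mul_of_nonneg_left
    (sum_le_sum fun j (hj : j ∈ Icc 1 (n + 1)) => h j (mem_Icc.mp hj).2) (wt_pos n).le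
  rw [sum_add_distrib, mul_add] at h1
  unfold nw
  linarith [h 0 (by omega)]

theorem nw_const_mul (c : ℝ) (e : ℕ → ℝ) : nw n (fun l => c * e l) = |c| * nw n e := by
  simp only [nw, abs_mul, ← mul_sum]; ring

theorem nw_le_sup {M : ℝ} (h : ∀ l, l ≤ n + 1 → |e l| ≤ M) : nw n e ≤ 2 * M := by
  have h1 := mul_le_mul_of_nonneg_left
    (sum_le_sum fun j (hj : j ∈ Icc 1 (n + 1)) => h j (mem_Icc.mp hj).2) (wt_pos n).le
  rw [wt_sum] at h1
  unfold nw
  linarith [h 0 (by omega)]

theorem abs_star_le {M : ℝ} (hb : ∀ l, l ≤ n + 1 → |b l| ≤ M) (hl : l ≤ n + 1) :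
    |star n e b l| ≤ M * (nw n e + 3 * |e l|) := by
  have hM : 0 ≤ M := (abs_nonneg _).trans (hb 0 (by omega))
  have h1 : |e 0 * b l| ≤ |e 0| * M := P168.abs_mul_le' le_rfl (hb l hl)
  have h2 : |e l * b 0| ≤ |e l| * M := P168.abs_mul_le' le_rfl (hb 0 (by omega))
  have h3 : |e l * cum n b l| ≤ |e l| * M := P168.abs_mul_le' le_rfl (abs_cum_le_sup hb hl)
  have h4 : |b l * cum n e l| ≤ M * (wt n * ∑ j ∈ Icc 1 l, |e j|) :=
    P168.abs_mul_le' (hb l hl) (abs_cum_le_sum e l)
  have h5 : |ze n l * (e l * b l)| ≤ 1 * (|e l| * M) := P168.abs_mul_le'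
    (by rw [abs_of_nonneg (ze_nonneg hl)]; exact ze_le_one n l) (P168.abs_mul_le' le_rfl (hb l hl))
  have h6 : |wt n * ∑ j ∈ Icc (l + 1) (n + 1), e j * b j| ≤
      wt n * ∑ j ∈ Icc (l + 1) (n + 1), |e j| * M :=
    P168.abs_mul_le' (abs_of_pos (wt_pos n)).le ((abs_sum_le_sum_abs _ _).trans
      (sum_le_sum fun j hj => P168.abs_mul_le' le_rfl (hb j (mem_Icc.mp hj).2)))
  have h7 : ∑ j ∈ Icc 1 (n + 1), |e j| = ∑ j ∈ Icc 1 l, |e j| + ∑ j ∈ Icc (l + 1) (n + 1), |e j| := by
    rw [← sum_union (by simp [disjoint_left]; omega)]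
    congr 1; ext j; simp; omega
  rw [← sum_mul] at h6
  rw [star, nw, h7]
  rw [abs_le] at h1 h2 h3 h4 h5 h6 ⊢
  constructor <;> linarith [h1.1, h1.2, h2.1, h2.2, h3.1, h3.2, h4.1, h4.2, h5.1, h5.2, h6.1, h6.2]

theorem nw_star_le {M : ℝ} (hb : ∀ l, l ≤ n + 1 → |b l| ≤ M) :
    nw n (star n e b) ≤ 5 * M * nw n e := by
  have hM : 0 ≤ M := (abs_nonneg _).trans (hb 0 (by omega))
  have h1 := mul_le_mul_of_nonneg_left (sum_le_sum fun j (hj : j ∈ Icc 1 (n + 1)) =>
    abs_star_le (e := e) hb (mem_Icc.mp hj).2) (wt_pos n).le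
  have h2 := abs_star_le (e := e) hb (Nat.zero_le (n + 1))
  simp only [mul_add, sum_add_distrib, wt_sum] at h1
  simp only [← mul_sum] at h1
  have h3 : nw n e = |e 0| + wt n * ∑ j ∈ Icc 1 (n + 1), |e j| := rfl
  rw [nw]
  nlinarith

/-- Quantitative form of `solve`. -/
theorem solve_le {ρ : ℕ → ℝ} (h : Mono n r) (hc : 0 ≤ c) :
    nw n (fun l => ρ l - star n a (zz n r c) l) ≤
      (1 + 5 * c * r 0) * nw n fun l => ρ l + c * star n ρ r l - star n a r l := by
  set e : ℕ → ℝ := fun l => ρ l + c * star n ρ r l - star n a r l with he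
  have h1 := fun l => solve (ρ := ρ) (a := a) (e := e) (l := l) h hc fun l _ => by
    rw [he]; ring
  have h2 := nw_le_add (n := n) (e := fun l => ρ l - star n a (zz n r c) l) (a := e)
    (b := fun l => c * star n e (zz n r c) l) fun l hl => by
      rw [show ρ l - star n a (zz n r c) l = e l - c * star n e (zz n r c) l by
        linarith [h1 l hl]]
      exact abs_sub _ _
  rw [nw_const_mul, abs_of_nonneg hc] at h2
  have h3 := mul_le_mul_of_nonneg_left (nw_star_le (e := e) fun l hl => abs_zz_le h hc hl) hc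
  linarith

end Vale.Agent.P166.W
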