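import Vale.Agent.P166.Alg
import Vale.Agent.P166.Star

/-!
# P166: identities of the profile algebra
-/

namespace Vale.Agent.P166

open MeasureTheory Finset Vale.Agent.P168 Vale.Agent.P168.PW Vale.Agent.P157 Function Filter Topology
open scoped BigOperators

variable {n : ℕ} {X : ℝ} {r a b : ℕ → ℝ} {f g : ℝ → ℝ}

theorem conv_eq (a b : ℕ → ℝ) : conv n a b = W.star n a b := funext fun l => by
  rw [conv, W.star, Icc_add_one_left_eq_Ioc]

theorem fc_step (f : ℝ → ℝ) (r : ℕ → ℝ) {j : ℕ} (hj : j ≤ n) : fc n f r j - fc n f r (j + 1) =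
    (f (chi n r (j + 1)) - f (chi n r j)) / ze n j := by
  rw [fc, fc, ← insert_Icc_add_one_left_eq_Icc hj, sum_insert (by simp)]; ring

theorem chi_eq (p : ℕ → ℝ) {l : ℕ} (hl : l ≤ n + 1) :
    chi n p l = p 0 - cum n p l - ze n l * p l := by
  have _ := hl
  exact W.chi_eq p l

theorem Pr.mem (h : Pr n X r) {j : ℕ} (hj : j ≤ n + 1) : 0 ≤ r j ∧ r j ≤ X := by
  exact ⟨h.mono.nonneg hj, (h.mono.anti (Nat.zero_le j) hj).trans h.le⟩

theorem Pr.chi_mem (h : Pr n X r) {l : ℕ} (hl : l ≤ n + 1) : 0 ≤ chi n r l ∧ chi n r l ≤ X := by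
  exact ⟨W.chi_nonneg h.mono hl, (W.chi_le h.mono hl).trans h.le⟩

theorem fc_top (f : ℝ → ℝ) (r : ℕ → ℝ) : fc n f r (n + 1) = 0 := by
  simp [fc]

theorem chi_fc (f : ℝ → ℝ) (r : ℕ → ℝ) {l : ℕ} (hl : l ≤ n + 1) :
    chi n (fc n f r) l = f (chi n r l) - f 0 := by
  induction l with
  | zero => simp [W.chi_zero]
  | succ l ih =>
    have := (W.ze_pos (n := n) (l := l) (by omega)).ne'
    rw [W.chi_succ, ih (by omega), fc_step f r (by omega)]
    field_simp
    ring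

theorem fc_congr (h : Pr n X r) (hf : ∀ x, 0 ≤ x → x ≤ X → f x = g x) (j : ℕ) :
    fc n f r j = fc n g r j := by
  refine sum_congr rfl fun l hl => ?_
  have := mem_Icc.mp hl
  have h1 := h.chi_mem (show l + 1 ≤ n + 1 by omega)
  have h2 := h.chi_mem (show l ≤ n + 1 by omega)
  rw [hf _ h1.1 h1.2, hf _ h2.1 h2.2]

theorem fc_add (f g : ℝ → ℝ) (r : ℕ → ℝ) (j : ℕ) :
    fc n (fun x => f x + g x) r j = fc n f r j + fc n g r j := by
  simp only [fc, ← sum_add_distrib]; exact sum_congr rfl fun _ _ => by ring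

theorem fc_sub (f g : ℝ → ℝ) (r : ℕ → ℝ) (j : ℕ) :
    fc n (fun x => f x - g x) r j = fc n f r j - fc n g r j := by
  simp only [fc, ← sum_sub_distrib]; exact sum_congr rfl fun _ _ => by ring

theorem fc_const_mul (c : ℝ) (f : ℝ → ℝ) (r : ℕ → ℝ) (j : ℕ) :
    fc n (fun x => c * f x) r j = c * fc n f r j := by
  simp only [fc, mul_sum]; exact sum_congr rfl fun _ _ => by ring

theorem fc_const (c : ℝ) (r : ℕ → ℝ) (j : ℕ) : fc n (fun _ => c) r j = 0 := by
  simp [fc]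

theorem fc_sum {ι : Type*} (s : Finset ι) (F : ι → ℝ → ℝ) (r : ℕ → ℝ) (j : ℕ) :
    fc n (fun x => ∑ i ∈ s, F i x) r j = ∑ i ∈ s, fc n (F i) r j := by
  simp only [fc, ← sum_sub_distrib, sum_div]; exact sum_comm

theorem fc_id (h : r (n + 1) = 0) {j : ℕ} (hj : j ≤ n + 1) : fc n (fun x => x) r j = r j := by
  refine W.eq_of_chi (a := fc n (fun x => x) r) (fun l hl => ?_) (by rw [fc_top, h]) hj
  rw [chi_fc _ _ hl, sub_zero]

theorem fc_lip (h : Pr n X r) {L : ℝ}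
    (hf : ∀ x y, 0 ≤ x → x ≤ y → y ≤ X → |f y - f x| ≤ L * (y - x)) {j : ℕ} (hj : j ≤ n + 1) :
    |fc n f r j| ≤ L * r j := by
  rw [← fc_id h.top hj, ← fc_const_mul]
  refine (abs_sum_le_sum_abs _ _).trans (sum_le_sum fun l hl => ?_)
  have := mem_Icc.mp hl
  have h0 := W.ze_pos (n := n) (l := l) this.2
  rw [abs_div, abs_of_pos h0, ← mul_sub]
  exact div_le_div_of_nonneg_right (hf _ _ (h.chi_mem (by omega)).1
    (W.chi_mono h.mono (Nat.le_succ l) (by omega)) (h.chi_mem (by omega)).2) h0.le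

theorem fc_mono (h : Pr n X r) (hf : ∀ x y, 0 ≤ x → x ≤ y → y ≤ X → f x ≤ f y) :
    Mono n (fc n f r) := by
  refine ⟨fun j hj => ?_, (fc_top f r).ge⟩
  rw [← sub_nonneg, fc_step f r hj]
  exact div_nonneg (sub_nonneg.mpr (hf _ _ (h.chi_mem (by omega)).1
    (W.chi_mono h.mono (Nat.le_succ j) (by omega)) (h.chi_mem (by omega)).2)) (W.ze_pos hj).le

theorem zc_eq (h : Pr n X r) {c : ℝ} (hc : 0 ≤ c) {j : ℕ} (hj : j ≤ n + 1) :
    zc n c r j = W.zz n r c j := by
  refine W.eq_of_chi (fun l hl => ?_) (by rw [zc, fc_top, W.zz_top, h.top, zero_div]) hj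
  rw [zc, chi_fc _ _ hl, W.chi_zz h.mono hc hl, zero_div, sub_zero]

theorem zc_mem (h : Pr n X r) {c : ℝ} (hc : 0 ≤ c) {j : ℕ} (hj : j ≤ n + 1) :
    0 ≤ zc n c r j ∧ zc n c r j ≤ r j := by
  rw [zc_eq h hc hj]
  exact ⟨(W.zz_mono h.mono hc).nonneg hj, W.zz_le h.mono hc hj⟩

theorem zc_lip (h : Pr n X r) {c c' : ℝ} (hc : 0 ≤ c) (hc' : 0 ≤ c') {j : ℕ} (hj : j ≤ n + 1) :
    |zc n c r j - zc n c' r j| ≤ 2 * X ^ 2 * |c - c'| := by
  have hX : 0 ≤ X := (h.mem (Nat.zero_le _)).1.trans (h.mem (Nat.zero_le _)).2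
  rw [zc, zc, ← fc_sub]
  refine (fc_lip h (L := 2 * X * |c - c'|) (fun x y hx hxy hy => ?_) hj).trans ?_
  · have hy0 := hx.trans hxy
    have a1 : 0 < 1 + c * x := by positivity
    have a2 : 0 < 1 + c * y := by positivity
    have a3 : 0 < 1 + c' * x := by positivity
    have a4 : 0 < 1 + c' * y := by positivity
    have e : y / (1 + c * y) - y / (1 + c' * y) - (x / (1 + c * x) - x / (1 + c' * x)) =
        (c' - c) * (y - x) * (x / ((1 + c * x) * (1 + c' * x) * (1 + c' * y)) +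
          y / ((1 + c * x) * (1 + c * y) * (1 + c' * y))) := by
      field_simp; ring
    have b : ∀ {u v w : ℝ}, 0 ≤ u → 0 ≤ v → 0 ≤ w → 1 ≤ (1 + u) * (1 + v) * (1 + w) :=
      fun hu hv hw => one_le_mul_of_one_le_of_one_le
        (one_le_mul_of_one_le_of_one_le (by linarith) (by linarith)) (by linarith)
    have b1 := div_le_self hx (b (mul_nonneg hc hx) (mul_nonneg hc' hx) (mul_nonneg hc' hy0))
    have b2 := div_le_self hy0 (b (mul_nonneg hc hx) (mul_nonneg hc hy0) (mul_nonneg hc' hy0))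
    rw [e, abs_mul, abs_mul, abs_sub_comm c' c, abs_of_nonneg (sub_nonneg.mpr hxy),
      abs_of_nonneg (by positivity : 0 ≤ x / _ + y / _)]
    calc _ ≤ |c - c'| * (y - x) * (2 * X) :=
          mul_le_mul_of_nonneg_left (by linarith) (mul_nonneg (abs_nonneg _) (by linarith))
      _ = _ := by ring
  · calc _ ≤ 2 * X * |c - c'| * X := by gcongr; exact (h.mem hj).2
      _ = _ := by ring

theorem conv_zero (a b : ℕ → ℝ) :
    conv n a b 0 = a 0 * b 0 - wt n * ∑ j ∈ Icc 1 (n + 1), a j * b j := by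
  rw [conv_eq, W.star_zero]

theorem conv_fc (hf : f 0 = 0) (hg : g 0 = 0) (r : ℕ → ℝ) {l : ℕ} (hl : l ≤ n + 1) :
    conv n (fc n f r) (fc n g r) l = fc n (fun x => f x * g x) r l := by
  rw [conv_eq]
  refine W.eq_of_chi (b := fc n (fun x => f x * g x) r) (fun l hl => ?_) ?_ hl
  · rw [W.chi_star _ _ hl, chi_fc _ _ hl, chi_fc _ _ hl, chi_fc _ _ hl, hf, hg]; ring
  · simp [W.star_top, fc_top]

theorem nm_nonneg (a : ℕ → ℝ) : 0 ≤ nm n a := by
  exact W.nw_nonneg a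

theorem nm_congr (h : ∀ j, j ≤ n + 1 → a j = b j) : nm n a = nm n b := by
  exact le_antisymm (W.nw_mono fun l hl => by rw [h l hl]) (W.nw_mono fun l hl => by rw [h l hl])

theorem nm_add_le (a b : ℕ → ℝ) : nm n (fun j => a j + b j) ≤ nm n a + nm n b := by
  exact W.nw_le_add fun l _ => abs_add_le _ _

theorem nm_const_mul (c : ℝ) (a : ℕ → ℝ) : nm n (fun j => c * a j) = |c| * nm n a := by
  exact W.nw_const_mul c a

theorem nm_sum_le {ι : Type*} (s : Finset ι) (F : ι → ℕ → ℝ) :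
    nm n (fun j => ∑ i ∈ s, F i j) ≤ ∑ i ∈ s, nm n (F i) := by
  classical
  induction s using Finset.induction_on with
  | empty => simp [nm]
  | insert i s hi ih =>
    simp only [sum_insert hi]
    exact (nm_add_le _ _).trans (add_le_add le_rfl ih)

theorem nm_le_of_bd {c : ℝ} (h : ∀ j, j ≤ n + 1 → |a j| ≤ c) : nm n a ≤ 2 * c := by
  exact W.nw_le_sup h

theorem abs_zero_le_nm (a : ℕ → ℝ) : |a 0| ≤ nm n a := by
  exact W.abs_zero_le_nw a

theorem abs_cum_sub_le_nm (a b : ℕ → ℝ) {l : ℕ} (hl : l ≤ n + 1) :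
    |cum n a l - cum n b l| ≤ nm n fun j => a j - b j := by
  refine le_trans (le_of_eq ?_) (W.abs_cum_le_nw (fun j => a j - b j) hl)
  simp only [cum, sum_sub_distrib, mul_sub]

theorem nm_conv_le {c : ℝ} (hb : ∀ j, j ≤ n + 1 → |b j| ≤ c) (a : ℕ → ℝ) :
    nm n (conv n a b) ≤ 7 * c * nm n a := by
  have hc : 0 ≤ c := (abs_nonneg _).trans (hb 0 (by omega))
  rw [conv_eq]
  refine (W.nw_star_le hb).trans ?_
  have := mul_nonneg hc (nm_nonneg (n := n) a)
  change 5 * c * nm n a ≤ _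
  linarith

theorem solve (h : Pr n X r) {c e : ℝ} (hc : 0 ≤ c)
    (he : nm n (fun l => a l + c * conv n a r l - conv n b r l) ≤ e) :
    nm n (fun l => a l - conv n b (zc n c r) l) ≤ (1 + 7 * c * X) * e := by
  have h1 := W.solve_le (ρ := a) (a := b) h.mono hc
  simp only [conv_eq] at he ⊢
  rw [nm_congr (b := fun l => a l - W.star n b (W.zz n r c) l) fun l hl => by
    rw [W.star_congr (fun _ _ => rfl) (fun l hl => zc_eq h hc hl) hl]]
  have h0 := (h.mem (Nat.zero_le _)).1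
  have h2 := mul_le_mul_of_nonneg_left h.le hc
  refine h1.trans (mul_le_mul (by nlinarith) he (W.nw_nonneg _) (by nlinarith))

theorem solve1 (h : Pr n X r) {c e : ℝ} (hc : 0 ≤ c)
    (he : nm n (fun l => a l + c * conv n a r l - r l) ≤ e) :
    nm n (fun l => a l - zc n c r l) ≤ (1 + 7 * c * X) * e := by
  simpa only [conv_eq, W.star_one] using solve (a := a) (b := W.one0) (e := e) h hc
    (by simpa only [conv_eq, W.star_one] using he)

end Vale.Agent.P166
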