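import Vale.Agent.P166.Base
import Vale.Agent.P166.Alg

/-!
# P166: linear algebra for the corner lemma
-/

namespace Vale.Agent.P166

open MeasureTheory Finset Function Matrix
open scoped BigOperators

variable {I 𝒞 : Type} [Fintype I] [DecidableEq I] [DecidableEq 𝒞]

/-- class sums are preserved -/
def CPCorner (cl : I → 𝒞) (ρ : OG I) : Prop :=
  ∀ j x y, ∑ i with cl i = j, act ρ x i * act ρ y i = ∑ i with cl i = j, x i * y i

theorem exists_cpCorner (cl : I → 𝒞) (rep : 𝒞 → I) (hrep : ∀ j, cl (rep j) = j) (y : I → ℝ)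
    (S : Finset 𝒞) : ∃ ρ : OG I, CPCorner cl ρ ∧
      ∀ i, cl i ∈ S → i ≠ rep (cl i) → act ρ y i = 0 := by
  induction S using Finset.induction_on with
  | empty => exact ⟨1, fun j x y => by simp [act_one], by simp⟩
  | insert j S hj ih =>
    obtain ⟨ρ, h1, h2⟩ := ih
    set y' := act ρ y with hy'
    set yj : I → ℝ := fun i => if cl i = j then y' i else 0 with hyj
    set t : I → ℝ := Pi.single (rep j) (Real.sqrt (yj ⬝ᵥ yj)) with ht
    have htt : t ⬝ᵥ t = yj ⬝ᵥ yj := by
      rw [ht, single_dotProduct, Pi.single_eq_same]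
      exact Real.mul_self_sqrt (sum_nonneg fun i _ => mul_self_nonneg _)
    have hz : ∀ a, cl a ≠ j → (t - yj) a = 0 := fun a ha => by
      have : a ≠ rep j := fun h => ha (h ▸ hrep j)
      simp [ht, hyj, ha, this]
    have hσ : refl (t - yj) ∈ fixG (univ.filter fun i => cl i = j) :=
      refl_mem fun a ha => hz a (by simpa using ha)
    refine ⟨refl (t - yj) * ρ, fun j' x z => ?_, fun i hi hne => ?_⟩
    · simp only [act_mul]
      rw [sum_act_fix hσ, h1]
      by_cases h : j = j'
      · exact Or.inl (h ▸ subset_rfl)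
      · exact Or.inr (disjoint_filter.2 fun a _ ha hb => h (ha.symm.trans hb))
    · rw [act_mul, ← hy']
      by_cases h : cl i = j
      · have e : y' = yj + (y' - yj) := by abel
        have e2 : (t - yj) ⬝ᵥ (y' - yj) = 0 := sum_eq_zero fun a _ => by
          by_cases ha : cl a = j
          · simp [hyj, ha]
          · rw [hz a ha, zero_mul]
        rw [e, act_add, act_refl_sub htt, act_refl, e2]
        rw [h] at hne
        simp [ht, hyj, h, hne]
      · rw [act_fix hσ _ (by simpa using h)]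
        exact h2 i ((mem_insert.1 hi).resolve_left h) hne

theorem diag_blockCorner (A : Finset I) (S : Matrix I I ℝ) (hS : Sᵀ = S)
    (h0 : ∀ a b, a ≠ b → b ∉ A → S a b = 0) :
    ∃ P : OG I, P ∈ fixG A ∧ ∀ a b, a ≠ b → (P.1ᵀ * S * P.1) a b = 0 := by
  let e : {a // a ∈ A} ⊕ {a // ¬ a ∈ A} ≃ I := Equiv.sumCompl _
  have hH : (S.submatrix (Subtype.val : {a // a ∈ A} → I) Subtype.val).IsHermitian := by
    ext a b
    simpa using congrFun (congrFun hS a) b
  set P0 := hH.eigenvectorUnitary with hP0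
  have hd : P0.1ᵀ * S.submatrix Subtype.val Subtype.val * P0.1 = diagonal hH.eigenvalues := by
    have := hH.conjStarAlgAut_star_eigenvectorUnitary
    rw [Unitary.conjStarAlgAut_star_apply] at this
    simpa [star_eq_conjTranspose, conjTranspose_eq_transpose_of_trivial] using this
  have hS' : S = (fromBlocks (S.submatrix Subtype.val Subtype.val) 0 0
      (diagonal fun a : {a // ¬ a ∈ A} => S a a)).submatrix e.symm e.symm := by
    rw [← submatrix_id_id S]
    ext a b
    obtain ⟨a, rfl⟩ := e.surjective a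
    obtain ⟨b, rfl⟩ := e.surjective b
    rcases a with a | a <;> rcases b with b | b
    · simp [e]
    · simpa [e] using h0 a b (fun h => b.2 (h ▸ a.2)) b.2
    · have := h0 b a (fun h => a.2 (h ▸ b.2)) a.2
      rw [← hS] at this
      simpa [e] using this
    · by_cases h : a = b
      · simp [e, h]
      · simpa [e, h] using h0 a b (fun h' => h (Subtype.ext h')) b.2
  have hu : P0.1 * P0.1ᵀ = 1 := (mem_orthogonalGroup_iff _ ℝ).1 P0.2
  refine ⟨⟨(fromBlocks P0.1 0 0 1).submatrix e.symm e.symm,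
    (mem_orthogonalGroup_iff I ℝ).2 ?_⟩, fun a ha => ?_, fun a b hab => ?_⟩
  · rw [transpose_submatrix, submatrix_mul_equiv, fromBlocks_transpose, fromBlocks_multiply]
    simp [hu]
  · funext i
    obtain ⟨i, rfl⟩ := e.surjective i
    have ea : e.symm a = Sum.inr ⟨a, ha⟩ := Equiv.sumCompl_symm_apply_of_neg ha
    rw [act, mulVec_single_one]
    rcases i with i | i
    · have : (i : I) ≠ a := fun h => ha (h ▸ i.2)
      simp [ea, e, this]
    · simp [ea, e, one_apply, Pi.single_apply, Subtype.ext_iff]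
  · dsimp only
    rw [hS', transpose_submatrix, submatrix_mul_equiv, submatrix_mul_equiv, fromBlocks_transpose,
      fromBlocks_multiply, fromBlocks_multiply]
    simp only [Matrix.mul_zero, Matrix.zero_mul, add_zero, zero_add, transpose_zero, transpose_one,
      Matrix.one_mul, Matrix.mul_one, hd, fromBlocks_diagonal, submatrix_apply]
    exact diagonal_apply_ne _ fun h => hab (e.symm.injective h)

theorem mom22Corner {i j : I} (hij : i ≠ j) (x : I → ℝ) :
    ∫ V, 3 * (act V x i ^ 2 * act V x j ^ 2) ∂(hr I) = ∫ V, act V x i ^ 4 ∂(hr I) := by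
  have := flow_rot (hr I) i j (Φ := fun V => act V x i ^ 3 * act V x j)
    (g := fun V => 3 * (act V x i ^ 2 * act V x j ^ 2) - act V x i ^ 4) (by fun_prop)
    (by fun_prop) fun U => by
      refine (((hasDerivAt_rot i j U x i).pow 3).mul (hasDerivAt_rot i j U x j)).congr_deriv ?_
      simp [act_rot_zero, hij, Ne.symm hij]; ring
  rwa [integral_sub (intg _ (by fun_prop)) (intg _ (by fun_prop)), sub_eq_zero] at this

theorem var_leCorner (S : Finset I) (e : I) :
    ∫ U, (∑ i ∈ S, act U (Pi.single e 1) i ^ 2 - (S.card : ℝ) / Fintype.card I) ^ 2 ∂(hr I) ≤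
      9 / Fintype.card I := by
  haveI : Nonempty I := ⟨e⟩
  have hN : (0 : ℝ) < Fintype.card I := by positivity
  have hs := subH_top (hr I) (mem_fixG_univ (I := I))
  have h1 : ∑ j, (Pi.single e (1 : ℝ) : I → ℝ) j ^ 2 = 1 := by simp [Pi.single_apply]
  have m2 : ∀ i, ∫ V, act V (Pi.single e 1) i ^ 2 ∂(hr I) = 1 / Fintype.card I := fun i => by
    have := hs.mom2 (mem_univ i) (Pi.single e 1)
    rw [h1, card_univ] at this
    rw [eq_div_iff hN.ne', mul_comm, this]
  have m4 : ∀ i, ∫ V, act V (Pi.single e 1) i ^ 4 ∂(hr I) ≤ 3 / (Fintype.card I : ℝ) ^ 2 :=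
    fun i => by
    have := hs.mom4 (mem_univ i) (Pi.single e 1)
    rw [h1, card_univ] at this
    rw [le_div_iff₀ (by positivity)]; linarith
  have m22 : ∀ i j, ∫ V, act V (Pi.single e 1) i ^ 2 * act V (Pi.single e 1) j ^ 2 ∂(hr I) ≤
      1 / (Fintype.card I : ℝ) ^ 2 + if j = i then 2 / (Fintype.card I : ℝ) ^ 2 else 0 := by
    intro i j
    have := m4 i
    split_ifs with h
    · subst h
      simp only [← pow_add]
      refine this.trans (le_of_eq (by ring))
    · rw [← mom22Corner (Ne.symm h), integral_const_mul] at this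
      have e : 3 / (Fintype.card I : ℝ) ^ 2 = 3 * (1 / (Fintype.card I : ℝ) ^ 2) := by ring
      linarith
  have e1 : ∀ U : OG I,
      (∑ i ∈ S, act U (Pi.single e 1) i ^ 2 - (S.card : ℝ) / Fintype.card I) ^ 2 =
      (∑ i ∈ S, ∑ j ∈ S, act U (Pi.single e 1) i ^ 2 * act U (Pi.single e 1) j ^ 2 -
        (2 * (S.card / Fintype.card I)) * ∑ i ∈ S, act U (Pi.single e 1) i ^ 2) +
        ((S.card : ℝ) / Fintype.card I) ^ 2 := fun U => by
    rw [← sum_mul_sum]; ring
  simp only [e1]
  rw [integral_add (intg _ (by fun_prop)) (intg _ (by fun_prop)),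
    integral_sub (intg _ (by fun_prop)) (intg _ (by fun_prop)), integral_const_mul,
    integral_finsetSum _ fun j _ => intg _ (by fun_prop),
    integral_finsetSum _ fun j _ => intg _ (by fun_prop)]
  have h2 : ∑ i ∈ S, ∫ U, ∑ j ∈ S, act U (Pi.single e 1) i ^ 2 * act U (Pi.single e 1) j ^ 2
      ∂(hr I) ≤ ∑ _i ∈ S, (S.card * (1 / (Fintype.card I : ℝ) ^ 2) +
        2 / (Fintype.card I : ℝ) ^ 2) := sum_le_sum fun i hi => by
    rw [integral_finsetSum _ fun j _ => intg _ (by fun_prop)]
    refine (sum_le_sum fun j _ => m22 i j).trans (le_of_eq ?_)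
    rw [sum_add_distrib, sum_ite_eq', if_pos hi, sum_const, nsmul_eq_mul]
  simp only [m2, sum_const, nsmul_eq_mul, integral_const, probReal_univ, one_smul] at h2 ⊢
  have h3 : (S.card : ℝ) ≤ Fintype.card I := by exact_mod_cast card_le_univ S
  have h4 : (S.card : ℝ) * (2 / (Fintype.card I : ℝ) ^ 2) ≤ 9 / Fintype.card I := by
    rw [mul_div_assoc', div_le_div_iff₀ (by positivity) hN]; nlinarith
  have e2 : (S.card : ℝ) * (S.card * (1 / (Fintype.card I : ℝ) ^ 2) + 2 / (Fintype.card I : ℝ) ^ 2)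
      - 2 * (S.card / Fintype.card I) * (S.card * (1 / Fintype.card I)) +
      ((S.card : ℝ) / Fintype.card I) ^ 2 = S.card * (2 / (Fintype.card I : ℝ) ^ 2) := by ring
  linarith

/-- the resolvent identities of an arrowhead matrix -/
theorem arrowCorner {N : ℕ} (O : OG (Fin (N + 1))) (d : Fin (N + 1) → ℝ) (hd : ∀ i, 0 < d i)
    (h0 : ∀ a b : Fin N, a ≠ b → (O.1ᵀ * diagonal d * O.1) a.succ b.succ = 0)
    (hp : ∀ a : Fin N, 0 < (O.1ᵀ * diagonal d * O.1) a.succ a.succ) :
    (∑ i, O.1 i 0 ^ 2 / d i) * ((O.1ᵀ * diagonal d * O.1) 0 0 -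
      ∑ a : Fin N, (O.1ᵀ * diagonal d * O.1) 0 a.succ ^ 2 /
        (O.1ᵀ * diagonal d * O.1) a.succ a.succ) = 1 ∧
    (∏ i, d i) * (∑ i, O.1 i 0 ^ 2 / d i) =
      ∏ a : Fin N, (O.1ᵀ * diagonal d * O.1) a.succ a.succ := by
  set M := O.1ᵀ * diagonal d * O.1 with hM
  have hO : O.1 * O.1ᵀ = 1 := (mem_orthogonalGroup_iff _ ℝ).1 O.2
  have hO' : O.1ᵀ * O.1 = 1 := (mem_orthogonalGroup_iff' _ ℝ).1 O.2
  have hsym : Mᵀ = M := by rw [hM]; simp [transpose_mul, Matrix.mul_assoc]
  set v := (O.1ᵀ * diagonal (fun i => (d i)⁻¹) * O.1) *ᵥ Pi.single 0 1 with hv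
  have hMv : M *ᵥ v = Pi.single 0 1 := by
    rw [hv, mulVec_mulVec, hM, show O.1ᵀ * diagonal d * O.1 *
      (O.1ᵀ * diagonal (fun i => (d i)⁻¹) * O.1) = O.1ᵀ * (diagonal d * (O.1 * O.1ᵀ) *
        diagonal (fun i => (d i)⁻¹)) * O.1 by simp only [Matrix.mul_assoc], hO, Matrix.mul_one,
      diagonal_mul_diagonal]
    simp only [fun i => mul_inv_cancel₀ (hd i).ne', diagonal_one, Matrix.mul_one, hO', one_mulVec]
  have hv0 : v 0 = ∑ i, O.1 i 0 ^ 2 / d i := by
    rw [hv, mulVec_single_one]
    simp only [col_apply, mul_apply, transpose_apply, diagonal_apply, mul_ite, mul_zero,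
      sum_ite_eq', mem_univ, if_true]
    exact sum_congr rfl fun i _ => by ring
  have hrow : ∀ a : Fin N, v a.succ = -(M 0 a.succ * v 0) / M a.succ a.succ := by
    intro a
    have := congrFun hMv a.succ
    rw [mulVec, dotProduct, Fin.sum_univ_succ, sum_eq_single a
      (fun b _ hb => by rw [h0 a b (Ne.symm hb), zero_mul]) (by simp)] at this
    have e : M a.succ 0 = M 0 a.succ := congrFun (congrFun hsym 0) a.succ
    rw [e] at this
    rw [eq_div_iff (hp a).ne']
    simp at this
    linarith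
  rw [← hv0]
  constructor
  · have := congrFun hMv 0
    rw [mulVec, dotProduct, Fin.sum_univ_succ, Pi.single_eq_same] at this
    rw [← this, mul_sub, mul_sum, sub_eq_add_neg, ← sum_neg_distrib, mul_comm]
    congr 1
    exact sum_congr rfl fun a _ => by rw [hrow]; ring
  · have h1 : M.det = ∏ i, d i := by
      rw [hM, det_mul, det_mul, det_diagonal, mul_right_comm, ← det_mul, hO', det_one, one_mul]
    have h2 := congrFun (congrArg (adjugate M *ᵥ ·) hMv) 0
    simp only [mulVec_mulVec, adjugate_mul, smul_mulVec, one_mulVec, Pi.smul_apply, smul_eq_mul,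
      mulVec_single_one, col_apply] at h2
    rw [← h1, h2, adjugate_fin_succ_eq_det_submatrix]
    have h3 : M.submatrix (Fin.succAbove 0) (Fin.succAbove 0) =
        diagonal fun a => M a.succ a.succ := by
      ext a b
      by_cases h : a = b
      · simp [h]
      · simp [h, h0 a b h]
    rw [h3, det_diagonal]; simp

end Vale.Agent.P166
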