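import Vale.Agent.P166.Base
import Vale.Agent.P166.Alg
import Vale.Agent.P166.CornerX

/-!
# P166: removing one spin
-/

namespace Vale.Agent.P166

open MeasureTheory Finset Vale.Agent.P168 Vale.Agent.P168.PW Vale.Agent.P157 Function Filter Topology
open scoped BigOperators

/-- The rotation acting on all coordinates but the first. -/
noncomputable def emb1 {N : ℕ} (V : OG (Fin N)) : OG (Fin (N + 1)) :=
  ⟨Matrix.of fun i j => Fin.cases (Fin.cases 1 (fun _ => 0) j)
    (fun i' => Fin.cases 0 (fun j' => V.1 i' j') j) i, by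
      refine (Matrix.mem_orthogonalGroup_iff _ ℝ).2 ?_
      have h := (Matrix.mem_orthogonalGroup_iff _ ℝ).1 V.2
      ext i j
      refine Fin.cases ?_ (fun i' => ?_) i <;> refine Fin.cases ?_ (fun j' => ?_) j
      · simp [Matrix.mul_apply, Fin.sum_univ_succ]
      · simp [Matrix.mul_apply, Fin.sum_univ_succ, Matrix.one_apply, (Fin.succ_ne_zero _).symm]
      · simp [Matrix.mul_apply, Fin.sum_univ_succ, Matrix.one_apply]
      · simpa [Matrix.mul_apply, Fin.sum_univ_succ, Matrix.one_apply] using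
          congrFun (congrFun h i') j'⟩

theorem act_emb1 {N : ℕ} (V : OG (Fin N)) (x : Fin (N + 1) → ℝ) :
    act (emb1 V) x = Fin.cons (x 0) (act V (Fin.tail x)) := by
  funext i
  refine Fin.cases ?_ (fun i' => ?_) i <;> simp [act_apply, emb1, Fin.sum_univ_succ, Fin.tail]

theorem cont_emb1 (N : ℕ) : Continuous (emb1 : OG (Fin N) → OG (Fin (N + 1))) := by
  refine Continuous.subtype_mk (continuous_matrix fun i j => ?_) _
  refine Fin.cases ?_ (fun i' => ?_) i <;> refine Fin.cases ?_ (fun j' => ?_) j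
  · exact continuous_const
  · exact continuous_const
  · exact continuous_const
  · exact (continuous_apply_apply i' j').comp continuous_subtype_val

/-- The weight of class `j` in the first column. -/
noncomputable def om {I 𝒞 : Type} [Fintype I] [DecidableEq I] [DecidableEq 𝒞] (cl : I → 𝒞) (e : I)
    (U : OG I) (j : 𝒞) : ℝ := ∑ i with cl i = j, U.1 i e ^ 2

theorem om_pv {I 𝒞 : Type} [Fintype I] [DecidableEq I] [Fintype 𝒞] [DecidableEq 𝒞] (cl : I → 𝒞)
    (e : I) (U : OG I) : Pv (om cl e U) := by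
  refine ⟨fun j => sum_nonneg fun _ _ => sq_nonneg _, ?_⟩
  unfold om
  rw [sum_fiberwise]
  have := sum_act_sq U (Pi.single e 1)
  simpa [act, Pi.single_apply] using this

theorem om_close {I 𝒞 : Type} [Fintype I] [DecidableEq I] [DecidableEq 𝒞] (cl : I → 𝒞) (e : I)
    (j : 𝒞) : ∫ U, |om cl e U j - fq cl j| ∂(hr I) ≤ 3 / Real.sqrt (Fintype.card I) := by
  have h := int_abs_le_sqrt (hr I) (by fun_prop) (var_leCorner (univ.filter fun i => cl i = j) e)
  rw [Real.sqrt_div (by norm_num), show Real.sqrt 9 = 3 by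
    rw [show (9 : ℝ) = 3 ^ 2 by norm_num, Real.sqrt_sq (by norm_num)]] at h
  simpa [om, fq, act] using h

theorem emb1_mulCorner {N : ℕ} (V W : OG (Fin N)) : emb1 (V * W) = emb1 V * emb1 W :=
  og_ext fun x => by simp [act_mul, act_emb1]

theorem emb1_e0Corner {N : ℕ} (V : OG (Fin N)) :
    act (emb1 V) (Pi.single 0 1) = Pi.single 0 1 := by
  funext i
  refine Fin.cases ?_ (fun i' => ?_) i <;> simp [act, emb1]

theorem exists_emb1Corner {N : ℕ} (V : OG (Fin (N + 1)))
    (h : act V (Pi.single 0 1) = Pi.single 0 1) : ∃ W : OG (Fin N), V = emb1 W := by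
  have h' : act V⁻¹ (Pi.single 0 1) = Pi.single 0 1 := by
    conv_lhs => rw [← h]
    exact act_inv_act _ _
  have a1 : ∀ i, V.1 i 0 = (Pi.single 0 1 : Fin (N + 1) → ℝ) i := fun i => by
    simpa [act] using congrFun h i
  have a2 : ∀ i, V.1 0 i = (Pi.single 0 1 : Fin (N + 1) → ℝ) i := fun i => by
    simpa [act, coe_inv] using congrFun h' i
  have hV := (Matrix.mem_orthogonalGroup_iff _ ℝ).1 V.2
  refine ⟨⟨V.1.submatrix Fin.succ Fin.succ, (Matrix.mem_orthogonalGroup_iff _ ℝ).2 ?_⟩, ?_⟩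
  · ext a b
    simpa [Matrix.mul_apply, Fin.sum_univ_succ, a1, Matrix.one_apply] using
      congrFun (congrFun hV a.succ) b.succ
  · refine Subtype.ext ?_
    ext i j
    refine Fin.cases ?_ (fun i' => ?_) i <;> refine Fin.cases ?_ (fun j' => ?_) j <;>
      simp [emb1, a1, a2]

theorem sandCorner {I : Type} [Fintype I] [DecidableEq I] (O : OG I) (d : I → ℝ) (a b : I) :
    (O.1.transpose * Matrix.diagonal d * O.1) a b = ∑ i, d i * (O.1 i a * O.1 i b) := by
  simp only [Matrix.mul_apply, Matrix.transpose_apply, Matrix.diagonal_apply, mul_ite, mul_zero,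
    sum_ite_eq', mem_univ, if_true]
  exact sum_congr rfl fun i _ => by ring

theorem col_fixCorner {I : Type} [Fintype I] [DecidableEq I] {R : Finset I} {O : OG I}
    (h : O ∈ fixG R) {b : I} (hb : b ∉ R) (i : I) : O.1 i b = if i = b then 1 else 0 := by
  simpa [act, Pi.single_apply] using congrFun (h b hb) i

theorem row_fixCorner {I : Type} [Fintype I] [DecidableEq I] {R : Finset I} {O : OG I}
    (h : O ∈ fixG R) {b : I} (hb : b ∉ R) (i : I) : O.1 b i = if b = i then 1 else 0 := by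
  simpa [act, Pi.single_apply] using act_fix h (Pi.single i 1) hb

theorem decompCorner {N : ℕ} {𝒞 : Type} [Fintype 𝒞] [DecidableEq 𝒞] (cl : Fin (N + 1) → 𝒞)
    (A : Finset (Fin N)) (R : Finset (Fin (N + 1))) (h0 : 0 ∈ R) (hR : ∀ a, a.succ ∈ R ↔ a ∈ A)
    (rep : 𝒞 → Fin (N + 1)) (h1 : ∀ j, cl (rep j) = j) (h2 : ∀ j, rep j ∈ R)
    (d : Fin (N + 1) → ℝ) (U : OG (Fin (N + 1))) :
    ∃ (ρ O : OG (Fin (N + 1))) (W : OG (Fin N)), CPCorner cl ρ ∧ O ∈ fixG R ∧
      ρ * U = O * emb1 W ∧
      ∀ a b : Fin N, a ≠ b → (O.1.transpose * Matrix.diagonal d * O.1) a.succ b.succ = 0 := by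
  obtain ⟨ρ, c1, c2⟩ := exists_cpCorner cl rep h1 (act U (Pi.single 0 1)) univ
  set t := act ρ (act U (Pi.single 0 1)) with ht
  have hC : refl (t - Pi.single 0 1) ∈ fixG R := refl_mem fun a ha => by
    have : a ≠ 0 := fun h => ha (h ▸ h0)
    simp [this, c2 a (mem_univ _) fun h => ha (h ▸ h2 _)]
  have hC2 : act (refl (t - Pi.single 0 1)) (Pi.single 0 1) = t :=
    act_refl_sub (by rw [ht, act_dot, act_dot])
  generalize refl (t - Pi.single 0 1) = C0 at hC hC2
  obtain ⟨W0, hW0⟩ := exists_emb1Corner (C0⁻¹ * (ρ * U)) (by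
    rw [act_mul, act_mul, ← ht, ← hC2, act_inv_act])
  obtain ⟨P, p1, p2⟩ := diag_blockCorner A
    ((C0.1.transpose * Matrix.diagonal d * C0.1).submatrix Fin.succ Fin.succ)
    (by simp [Matrix.transpose_mul, Matrix.mul_assoc]) fun a b hab hb => by
      have hb' := mt (hR b).1 hb
      rw [Matrix.submatrix_apply, sandCorner]
      simp [col_fixCorner hC hb', row_fixCorner hC hb', hab.symm]
  refine ⟨ρ, C0 * emb1 P, P⁻¹ * W0, c1, mul_mem hC fun i hi => ?_, ?_, fun a b hab => ?_⟩
  · obtain ⟨a, rfl⟩ := Fin.exists_succ_eq.2 (show i ≠ 0 from fun h => hi (h ▸ h0))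
    funext i
    refine Fin.cases ?_ (fun i' => ?_) i <;>
      simp [act, emb1, col_fixCorner p1 (mt (hR a).2 hi), Pi.single_apply]
  · rw [mul_assoc, ← emb1_mulCorner, mul_inv_cancel_left, ← hW0, mul_inv_cancel_left]
  · rw [← p2 a b hab, show ((C0 * emb1 P : OG _) : Matrix _ _ ℝ) = C0.1 * (emb1 P).1 from rfl,
      Matrix.transpose_mul, show (emb1 P).1.transpose * C0.1.transpose * Matrix.diagonal d *
        (C0.1 * (emb1 P).1) = (emb1 P).1.transpose * (C0.1.transpose * Matrix.diagonal d * C0.1) *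
          (emb1 P).1 by simp only [Matrix.mul_assoc]]
    generalize C0.1.transpose * Matrix.diagonal d * C0.1 = M
    simp [Matrix.mul_apply, Fin.sum_univ_succ, emb1]

theorem corner {N : ℕ} {𝒞 : Type} [Fintype 𝒞] [DecidableEq 𝒞] (cl : Fin (N + 1) → 𝒞)
    (A : Finset (Fin N)) (κ : 𝒞 → ℝ) (top : 𝒞) {C : ℝ} (hC : ∀ j, |κ j| ≤ C)
    (hκ : ∀ j, κ j ≤ κ top)
    (hA : Bijective fun o : Option A => cl (o.elim 0 fun a => a.1.succ)) (U : OG (Fin (N + 1))) :
    ∃ (W : OG (Fin N)) (θ bh : Fin N → ℝ) (ξ : Fin (N + 1) → ℝ),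
      (∀ a ∉ A, θ a = κ (cl a.succ) ∧ bh a = 0 ∧ ξ a.succ = 0) ∧
      (∀ a, |θ a| ≤ C ∧ θ a ≤ κ top) ∧ ∑ a, bh a ^ 2 ≤ C ^ 2 ∧ ∑ i, ξ i ^ 2 = 1 ∧
      (∀ x : Fin (N + 1) → ℝ, ∑ i, κ (cl i) * act U x i ^ 2 =
        (∑ j, om cl 0 U j * κ j) * x 0 ^ 2 + 2 * x 0 * ∑ a, bh a * act W (Fin.tail x) a +
          ∑ a, θ a * act W (Fin.tail x) a ^ 2) ∧
      (∀ x y : Fin (N + 1) → ℝ, ∑ i with cl i = top, act U x i * act U y i =
        ∑ a with cl a.succ = top ∧ a ∉ A, act W (Fin.tail x) a * act W (Fin.tail y) a +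
          (∑ i, ξ i * act (emb1 W) x i) * ∑ i, ξ i * act (emb1 W) y i) ∧
      ∀ x : ℝ, 0 ≤ x →
        ∑ a, bh a ^ 2 * (x / (1 + (κ top - θ a) * x)) =
          psi (om cl 0 U) (fun j => κ top - κ j) x ∧
        ∑ a ∈ A, Real.log (1 + (κ top - θ a) * x) =
          Real.log (uf (om cl 0 U) (fun j => κ top - κ j) x) +
            ∑ j, Real.log (1 + (κ top - κ j) * x) := by
  have hA' : Bijective (cl ∘ fun o : Option A => o.elim 0 fun a => a.1.succ) := hA
  let e := Equiv.ofBijective _ hA'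
  let rep : 𝒞 → Fin (N + 1) := fun j => (e.symm j).elim 0 fun a => a.1.succ
  have h1 : ∀ j, cl (rep j) = j := fun j => e.apply_symm_apply j
  have hinj : Injective rep := fun a b h => by rw [← h1 a, h, h1]
  have h2 : ∀ j, rep j ∈ univ.image rep := fun j => mem_image_of_mem _ (mem_univ _)
  have h0 : 0 ∈ univ.image rep := mem_image.2 ⟨e none, mem_univ _, by simp [rep]⟩
  have hR : ∀ a : Fin N, a.succ ∈ univ.image rep ↔ a ∈ A := fun a => by
    constructor
    · intro h
      obtain ⟨j, -, hj⟩ := mem_image.1 h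
      simp only [rep] at hj
      rcases h' : e.symm j with _ | b <;> rw [h'] at hj
      · exact absurd hj.symm (Fin.succ_ne_zero _)
      · exact Fin.succ_injective _ hj ▸ b.2
    · intro h
      exact mem_image.2 ⟨e (some ⟨a, h⟩), mem_univ _, by simp [rep]⟩
  obtain ⟨ρ, O, W, c1, c2, c3, c4⟩ :=
    decompCorner cl A (univ.image rep) h0 hR rep h1 h2 (fun i => κ (cl i)) U
  have hact : ∀ x, act ρ (act U x) = act O (act (emb1 W) x) := fun x => by
    rw [← act_mul, c3, act_mul]
  have hO : ∀ a b, ∑ i, O.1 i a * O.1 i b = if a = b then 1 else 0 := fun a b => by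
    simpa [Matrix.mul_apply, Matrix.one_apply] using
      congrFun (congrFun ((Matrix.mem_orthogonalGroup_iff' _ ℝ).1 O.2) a) b
  have hcs : ∀ (g : 𝒞 → ℝ) x, ∑ i, g (cl i) * act U x i ^ 2 =
      ∑ i, g (cl i) * act O (act (emb1 W) x) i ^ 2 := fun g x => by
    rw [← hact, ← sum_fiberwise univ cl, ← sum_fiberwise univ cl]
    refine sum_congr rfl fun j _ => ?_
    rw [sum_congr rfl (g := fun i => g j * (act U x i * act U x i)) fun i hi => by
      rw [(mem_filter.1 hi).2, sq], sum_congr rfl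
      (f := fun i => g (cl i) * act ρ (act U x) i ^ 2)
      (g := fun i => g j * (act ρ (act U x) i * act ρ (act U x) i)) fun i hi => by
      rw [(mem_filter.1 hi).2, sq], ← mul_sum, ← mul_sum, c1]
  have hom : ∀ g : 𝒞 → ℝ, ∑ i, g (cl i) * (O.1 i 0 * O.1 i 0) = ∑ j, om cl 0 U j * g j :=
    fun g => by
    have := hcs g (Pi.single 0 1)
    rw [emb1_e0Corner] at this
    simp only [act, Matrix.mulVec_single_one, Matrix.col_apply, sq] at this
    rw [← this, ← sum_fiberwise univ cl]
    refine sum_congr rfl fun j _ => ?_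
    rw [om, sum_mul]
    exact sum_congr rfl fun i hi => by rw [(mem_filter.1 hi).2]; ring
  obtain ⟨M, hM⟩ : ∃ M, M = O.1.transpose * Matrix.diagonal (fun i => κ (cl i)) * O.1 := ⟨_, rfl⟩
  rw [← hM] at c4
  have hM' : ∀ a b, M a b = ∑ i, κ (cl i) * (O.1 i a * O.1 i b) := fun a b => by
    rw [hM, sandCorner]
  have hoff : ∀ a ∉ A, M a.succ a.succ = κ (cl a.succ) ∧ M 0 a.succ = 0 ∧
      O.1 (rep top) a.succ = 0 := fun a ha => by
    have ha' := mt (hR a).1 ha
    have : rep top ≠ a.succ := fun h => ha' (h ▸ h2 _)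
    simp [hM', col_fixCorner c2 ha', row_fixCorner c2 ha', this]
  have hbd : ∀ b c, (∀ j, κ j ≤ c) → M b b ≤ c := fun b c hc => by
    calc M b b ≤ ∑ i, c * (O.1 i b * O.1 i b) := by
          rw [hM']; exact sum_le_sum fun i _ => mul_le_mul_of_nonneg_right (hc _) (mul_self_nonneg _)
      _ = c := by rw [← mul_sum, hO]; simp
  refine ⟨W, fun a => M a.succ a.succ, fun a => M 0 a.succ, fun i => O.1 (rep top) i, hoff,
    fun a => ⟨abs_le.2 ⟨?_, hbd _ _ fun j => (abs_le.1 (hC j)).2⟩, hbd _ _ hκ⟩, ?_, ?_,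
    fun x => ?_, fun x y => ?_, fun x hx => ?_⟩
  · calc -C = ∑ i, -C * (O.1 i a.succ * O.1 i a.succ) := by rw [← mul_sum, hO]; simp
      _ ≤ M a.succ a.succ := by
        rw [hM']
        exact sum_le_sum fun i _ =>
          mul_le_mul_of_nonneg_right (abs_le.1 (hC _)).1 (mul_self_nonneg _)
  · have e1 := sum_act_sq O⁻¹ fun i => κ (cl i) * O.1 i 0
    have e2 : ∀ b, act O⁻¹ (fun i => κ (cl i) * O.1 i 0) b = M 0 b := fun b => by
      rw [act_apply, hM']
      exact sum_congr rfl fun i _ => by rw [coe_inv, Matrix.transpose_apply]; ring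
    simp only [e2] at e1
    rw [Fin.sum_univ_succ] at e1
    have e3 : ∑ i, (κ (cl i) * O.1 i 0) ^ 2 ≤ ∑ i, C ^ 2 * (O.1 i 0 * O.1 i 0) :=
      sum_le_sum fun i _ => by
        rw [mul_pow, ← sq]
        exact mul_le_mul_of_nonneg_right (sq_le_sq' (abs_le.1 (hC _)).1 (abs_le.1 (hC _)).2)
          (sq_nonneg _)
    rw [← mul_sum, hO, if_pos rfl] at e3
    linarith [sq_nonneg (M 0 0)]
  · simpa [Matrix.mul_apply, sq] using congrFun (congrFun
      ((Matrix.mem_orthogonalGroup_iff _ ℝ).1 O.2) (rep top)) (rep top)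
  · have e1 : ∀ z, ∑ i, κ (cl i) * act O z i ^ 2 = ∑ a, ∑ b, M a b * (z a * z b) := fun z => by
      simp only [hM', act_apply, sq, mul_sum, sum_mul]
      rw [sum_comm]
      refine sum_congr rfl fun a _ => ?_
      rw [sum_comm]
      exact sum_congr rfl fun b _ => sum_congr rfl fun i _ => by ring
    have e2 : ∀ a : Fin N, M a.succ 0 = M 0 a.succ := fun a => by
      simp only [hM', mul_comm (O.1 _ 0)]
    have e3 : ∀ (a : Fin N) (z : Fin N → ℝ), ∑ b : Fin N, M a.succ b.succ * (z a * z b) =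
        M a.succ a.succ * z a ^ 2 := fun a z => by
      rw [sum_eq_single a (fun b _ hb => by rw [c4 a b (Ne.symm hb), zero_mul]) (by simp), sq]
    rw [hcs, e1, act_emb1, ← hom, ← hM']
    simp only [Fin.sum_univ_succ, Fin.cons_zero, Fin.cons_succ, e2, e3, sum_add_distrib, mul_sum]
    rw [sq, add_assoc, add_assoc, ← add_assoc (∑ _, _), ← sum_add_distrib]
    congr 2
    exact sum_congr rfl fun a _ => by ring
  · rw [← c1, hact, hact, ← act_apply, ← act_apply,
      ← sum_filter_add_sum_filter_not _ (· ∈ univ.image rep), add_comm]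
    congr 1
    · rw [filter_filter, sum_filter, sum_filter, Fin.sum_univ_succ, if_neg (fun h => h.2 h0),
        zero_add]
      refine sum_congr rfl fun a _ => ?_
      simp only [hR]
      split_ifs with h
      · rw [act_fix c2 _ (mt (hR a).1 h.2), act_fix c2 _ (mt (hR a).1 h.2), act_emb1, act_emb1]
        rfl
      · rfl
    · refine sum_eq_single_of_mem _ (by simp [h1]) fun i hi hne => absurd ?_ hne
      obtain ⟨j, -, rfl⟩ := mem_image.1 (mem_filter.1 hi).2
      rw [← (mem_filter.1 (mem_filter.1 hi).1).2, h1]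
  · have hd : ∀ j, 0 < 1 + (κ top - κ j) * x := fun j => by
      have := mul_nonneg (sub_nonneg.2 (hκ j)) hx; linarith
    have hθ : ∀ a : Fin N, 0 < 1 + (κ top - M a.succ a.succ) * x := fun a => by
      have := mul_nonneg (sub_nonneg.2 (hbd a.succ _ hκ)) hx; linarith
    have hE : ∀ a b, (O.1.transpose * Matrix.diagonal (fun i => 1 + (κ top - κ (cl i)) * x) *
        O.1) a b = (1 + κ top * x) * (if a = b then 1 else 0) - x * M a b := fun a b => by
      rw [sandCorner, ← hO, hM', mul_sum, mul_sum, ← sum_sub_distrib]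
      exact sum_congr rfl fun i _ => by ring
    have hE2 : ∀ a, (1 + κ top * x) * 1 - x * M a a = 1 + (κ top - M a a) * x := fun a => by ring
    obtain ⟨r1, r2⟩ := arrowCorner O (fun i => 1 + (κ top - κ (cl i)) * x) (fun i => hd _)
      (fun a b h => by rw [hE, c4 a b h, if_neg (fun h' => h (Fin.succ_injective _ h'))]; ring)
      (fun a => by rw [hE, if_pos rfl, hE2]; exact hθ a)
    have hu : ∑ i, O.1 i 0 ^ 2 / (1 + (κ top - κ (cl i)) * x) =
        uf (om cl 0 U) (fun j => κ top - κ j) x := by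
      unfold uf
      simp only [div_eq_mul_inv]
      rw [← hom fun j => (1 + (κ top - κ j) * x)⁻¹]
      exact sum_congr rfl fun i _ => by ring
    simp only [hE, if_true, hE2, hu, (Fin.succ_ne_zero _).symm, if_false] at r1 r2
    have pv := om_pv cl 0 U
    have huv : uf (om cl 0 U) (fun j => κ top - κ j) x +
        x * vf (om cl 0 U) (fun j => κ top - κ j) x = 1 := by
      rw [← pv.2, uf, vf, mul_sum, ← sum_add_distrib]
      exact sum_congr rfl fun j _ => by have := (hd j).ne'; field_simp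
    have hc : ∑ j, om cl 0 U j * (κ top - κ j) = κ top - M 0 0 := by
      simp only [mul_sub, sum_sub_distrib, ← sum_mul, pv.2, one_mul, hM', hom]
    have hu0 : uf (om cl 0 U) (fun j => κ top - κ j) x ≠ 0 := by
      intro h; rw [h, zero_mul] at r1; exact zero_ne_one r1
    constructor
    · rcases hx.eq_or_lt with rfl | hx'
      · simp [psi, uf, vf, pv.2]
      · have e1 : ∑ a : Fin N, ((1 + κ top * x) * 0 - x * M 0 a.succ) ^ 2 /
            (1 + (κ top - M a.succ a.succ) * x) =
            x * ∑ a : Fin N, M 0 a.succ ^ 2 * (x / (1 + (κ top - M a.succ a.succ) * x)) := by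
          rw [mul_sum]; exact sum_congr rfl fun a _ => by ring
        rw [e1] at r1
        rw [psi, hc, eq_sub_iff_add_eq, ← eq_sub_iff_add_eq', div_eq_iff hu0]
        refine mul_left_cancel₀ hx'.ne' ?_
        linear_combination huv - r1
    · have e1 := congrArg Real.log r2
      rw [Real.log_mul (prod_ne_zero_iff.2 fun i _ => (hd _).ne') hu0,
        Real.log_prod fun i _ => (hd _).ne', Real.log_prod fun a _ => (hθ a).ne',
        ← sum_filter_add_sum_filter_not univ (· ∈ univ.image rep),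
        ← sum_filter_add_sum_filter_not univ (· ∈ A), filter_mem_eq_inter, filter_mem_eq_inter,
        univ_inter, univ_inter, sum_image fun a _ b _ h => hinj h] at e1
      simp only [h1] at e1
      have e2 : ∑ i with i ∉ univ.image rep, Real.log (1 + (κ top - κ (cl i)) * x) =
          ∑ a with a ∉ A, Real.log (1 + (κ top - M a.succ a.succ) * x) := by
        rw [sum_filter, sum_filter, Fin.sum_univ_succ, if_neg (fun h => h h0), zero_add]
        refine sum_congr rfl fun a _ => ?_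
        simp only [hR]
        split_ifs with h
        · rfl
        · rw [(hoff a h).1]
      linarith

end Vale.Agent.P166
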