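import Vale.Agent.P166.Alg

/-!
# P166: the scalar functions
-/

namespace Vale.Agent.P166

open MeasureTheory Finset Vale.Agent.P168 Vale.Agent.P168.PW Vale.Agent.P157 Function Filter Topology
open scoped BigOperators

variable {𝒞 : Type} [Fintype 𝒞] {a a' c c' : 𝒞 → ℝ}

theorem denFn {c x : ℝ} (hc : 0 ≤ c) (hx : 0 ≤ x) : 0 < 1 + c * x := by positivity

theorem uf_zero (h : Pv a) (c : 𝒞 → ℝ) : uf a c 0 = 1 := by
  simpa [uf] using h.2

theorem psi_zero (h : Pv a) (c : 𝒞 → ℝ) : psi a c 0 = 0 := by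
  simp [psi, vf, uf, h.2]

theorem uf_add (h : Pv a) (hc : ∀ j, 0 ≤ c j) {x : ℝ} (hx : 0 ≤ x) :
    uf a c x + x * vf a c x = 1 := by
  rw [← h.2, uf, vf, mul_sum, ← sum_add_distrib]
  refine sum_congr rfl fun j _ => ?_
  have := denFn (hc j) hx
  field_simp

theorem uf_mem (h : Pv a) {D : ℝ} (hc : ∀ j, 0 ≤ c j ∧ c j ≤ D) {x : ℝ} (hx : 0 ≤ x) :
    1 / (1 + D * x) ≤ uf a c x ∧ uf a c x ≤ 1 := by
  constructor
  · nth_rw 1 [← h.2]
    rw [sum_div]
    exact sum_le_sum fun j _ => div_le_div_of_nonneg_left (h.1 j) (denFn (hc j).1 hx)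
      (by nlinarith [(hc j).2])
  · rw [← h.2]
    exact sum_le_sum fun j _ => div_le_self (h.1 j) (by nlinarith [(hc j).1])

theorem uf_posFn (h : Pv a) (hc : ∀ j, 0 ≤ c j) {x : ℝ} (hx : 0 ≤ x) : 0 < uf a c x :=
  lt_of_lt_of_le (one_div_pos.2 (denFn (sum_nonneg fun j _ => hc j) hx)) (uf_mem h
    (fun j => ⟨hc j, single_le_sum (fun j _ => hc j) (mem_univ j)⟩) hx).1

theorem chebFn {p q : 𝒞 → ℝ} (ha : ∀ j, 0 ≤ a j)
    (h : ∀ i j, 0 ≤ (c i - c j) * (p i * q j - q i * p j)) :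
    (∑ j, a j * c j * q j) * ∑ j, a j * p j ≤ (∑ j, a j * c j * p j) * ∑ j, a j * q j := by
  have h1 : 0 ≤ ∑ i, ∑ j, a i * a j * ((c i - c j) * (p i * q j - q i * p j)) :=
    sum_nonneg fun i _ => sum_nonneg fun j _ => mul_nonneg (mul_nonneg (ha i) (ha j)) (h i j)
  have e : ∑ i, ∑ j, a i * a j * ((c i - c j) * (p i * q j - q i * p j)) =
      (∑ j, a j * c j * p j) * (∑ j, a j * q j) - (∑ j, a j * c j * q j) * (∑ j, a j * p j) -
      ((∑ j, a j * p j) * (∑ j, a j * c j * q j) - (∑ j, a j * q j) * ∑ j, a j * c j * p j) := by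
    simp only [sum_mul_sum, ← sum_sub_distrib]
    exact sum_congr rfl fun i _ => sum_congr rfl fun j _ => by ring
  linarith

theorem psi_mono (h : Pv a) (hc : ∀ j, 0 ≤ c j) {x y : ℝ} (hx : 0 ≤ x) (hxy : x ≤ y) :
    psi a c x ≤ psi a c y := by
  have hy := hx.trans hxy
  rw [psi, psi, sub_le_sub_iff_left, div_le_div_iff₀ (uf_posFn h hc hy) (uf_posFn h hc hx)]
  simpa only [uf, vf, div_eq_mul_inv] using chebFn (c := c) (p := fun j => (1 + c j * x)⁻¹)
    (q := fun j => (1 + c j * y)⁻¹) h.1 fun i j => by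
      have h1 := denFn (hc i) hx
      have h2 := denFn (hc j) hx
      have h3 := denFn (hc i) hy
      have h4 := denFn (hc j) hy
      have : (c i - c j) * ((1 + c i * x)⁻¹ * (1 + c j * y)⁻¹ - (1 + c i * y)⁻¹ * (1 + c j * x)⁻¹) =
          (c i - c j) ^ 2 * (y - x) / ((1 + c i * x) * (1 + c j * y) * (1 + c i * y) *
            (1 + c j * x)) := by field_simp; ring
      rw [this]
      have := sub_nonneg.2 hxy
      positivity

/-- Minus the derivative of `uf`. -/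
noncomputable def duFn (a c : 𝒞 → ℝ) (x : ℝ) : ℝ :=
  ∑ j, a j * (c j * ((1 + c j * x)⁻¹ * (1 + c j * x)⁻¹))

/-- Minus the derivative of `vf`. -/
noncomputable def dvFn (a c : 𝒞 → ℝ) (x : ℝ) : ℝ :=
  ∑ j, a j * (c j * (c j * ((1 + c j * x)⁻¹ * (1 + c j * x)⁻¹)))

theorem frac_derivFn (b : ℝ) {c x : ℝ} (hc : 0 ≤ c) (hx : 0 ≤ x) :
    HasDerivAt (fun x => b / (1 + c * x)) (-(b * (c * ((1 + c * x)⁻¹ * (1 + c * x)⁻¹)))) x := by
  have := denFn hc hx
  refine ((hasDerivAt_const x b).div (((hasDerivAt_id' x).const_mul c).const_add 1)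
    this.ne').congr_deriv ?_
  field_simp
  ring

theorem uf_derivFn (a : 𝒞 → ℝ) (hc : ∀ j, 0 ≤ c j) {x : ℝ} (hx : 0 ≤ x) :
    HasDerivAt (uf a c) (-duFn a c x) x := by
  refine (HasDerivAt.fun_sum fun j (_ : j ∈ univ) => frac_derivFn (a j) (hc j) hx).congr_deriv ?_
  simp only [duFn, sum_neg_distrib]

theorem vf_derivFn (a : 𝒞 → ℝ) (hc : ∀ j, 0 ≤ c j) {x : ℝ} (hx : 0 ≤ x) :
    HasDerivAt (vf a c) (-dvFn a c x) x := by
  refine (HasDerivAt.fun_sum fun j (_ : j ∈ univ) =>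
    frac_derivFn (a j * c j) (hc j) hx).congr_deriv ?_
  simp only [dvFn, sum_neg_distrib, mul_assoc]

theorem uf_contFn (a : 𝒞 → ℝ) (hc : ∀ j, 0 ≤ c j) : ContinuousOn (uf a c) (Set.Ici 0) :=
  fun _ hx => (uf_derivFn a hc hx).continuousAt.continuousWithinAt

theorem vf_contFn (a : 𝒞 → ℝ) (hc : ∀ j, 0 ≤ c j) : ContinuousOn (vf a c) (Set.Ici 0) :=
  fun _ hx => (vf_derivFn a hc hx).continuousAt.continuousWithinAt

theorem psi_derivFn (h : Pv a) (hc : ∀ j, 0 ≤ c j) {x : ℝ} (hx : 0 ≤ x) :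
    HasDerivAt (psi a c) ((dvFn a c x * uf a c x - vf a c x * duFn a c x) *
      ((uf a c x)⁻¹ * (uf a c x)⁻¹)) x := by
  have := uf_posFn h hc hx
  refine (((vf_derivFn a hc hx).div (uf_derivFn a hc hx) this.ne').const_sub
    (∑ j, a j * c j)).congr_deriv ?_
  field_simp
  ring

theorem log_derivFn (h : Pv a) (hc : ∀ j, 0 ≤ c j) {x : ℝ} (hx : 0 ≤ x) :
    HasDerivAt (fun x => Real.log (uf a c x)) ((0 - duFn a c x) * (uf a c x)⁻¹) x := by
  simpa only [zero_sub, div_eq_mul_inv] using (uf_derivFn a hc hx).log (uf_posFn h hc hx).ne'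

theorem mvtFn {f f' : ℝ → ℝ} {x y L : ℝ} (hxy : x ≤ y)
    (hf : ∀ t ∈ Set.Icc x y, HasDerivAt f (f' t) t) (hL : ∀ t ∈ Set.Icc x y, |f' t| ≤ L) :
    |f y - f x| ≤ L * (y - x) :=
  norm_image_sub_le_of_norm_deriv_le_segment' (fun t ht => (hf t ht).hasDerivWithinAt)
    (fun t ht => hL t (Set.Ico_subset_Icc_self ht)) y ⟨hxy, le_rfl⟩

/-- Two bounded numbers at a controlled distance. -/
def GFn (B δ p p' : ℝ) : Prop := |p| ≤ B ∧ |p'| ≤ B ∧ |p - p'| ≤ B * δ

namespace GFn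

variable {B B' δ p p' q q' : ℝ}

theorem mul (h : GFn B δ p p') (h' : GFn B' δ q q') : GFn (2 * (B * B')) δ (p * q) (p' * q') := by
  have hB := (abs_nonneg _).trans h.1
  have hB' := (abs_nonneg _).trans h'.1
  have h0 := mul_nonneg hB hB'
  refine ⟨?_, ?_, ?_⟩
  · rw [abs_mul]; linarith [mul_le_mul h.1 h'.1 (abs_nonneg _) hB]
  · rw [abs_mul]; linarith [mul_le_mul h.2.1 h'.2.1 (abs_nonneg _) hB]
  · rw [show p * q - p' * q' = p * (q - q') + q' * (p - p') by ring]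
    refine (abs_add_le _ _).trans ?_
    rw [abs_mul, abs_mul]
    linarith [mul_le_mul h.1 h'.2.2 (abs_nonneg _) hB, mul_le_mul h'.2.1 h.2.2 (abs_nonneg _) hB']

theorem sub (h : GFn B δ p p') (h' : GFn B' δ q q') : GFn (B + B') δ (p - q) (p' - q') := by
  refine ⟨(abs_sub _ _).trans (add_le_add h.1 h'.1), (abs_sub _ _).trans (add_le_add h.2.1 h'.2.1),
    ?_⟩
  rw [show p - q - (p' - q') = p - p' - (q - q') by ring, add_mul]
  exact (abs_sub _ _).trans (add_le_add h.2.2 h'.2.2)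

theorem inv (h : GFn B δ p p') (hδ : 0 ≤ δ) {m : ℝ} (hm : 0 < m) (h1 : m ≤ p) (h2 : m ≤ p') :
    GFn (m⁻¹ + B * (m⁻¹ * m⁻¹)) δ p⁻¹ p'⁻¹ := by
  have hB := (abs_nonneg _).trans h.1
  have hp := hm.trans_le h1
  have hp' := hm.trans_le h2
  refine ⟨?_, ?_, ?_⟩
  · rw [abs_of_pos (inv_pos.2 hp)]
    exact le_add_of_le_of_nonneg (inv_anti₀ hm h1) (by positivity)
  · rw [abs_of_pos (inv_pos.2 hp')]
    exact le_add_of_le_of_nonneg (inv_anti₀ hm h2) (by positivity)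
  · rw [show p⁻¹ - p'⁻¹ = -(p - p') * (p⁻¹ * p'⁻¹) by field_simp; ring, abs_mul, abs_neg,
      abs_of_pos (a := _ * _) (by positivity), add_mul, mul_right_comm B]
    refine le_add_of_nonneg_of_le (by positivity) ?_
    gcongr
    exact h.2.2

theorem zero : GFn 0 δ 0 0 := by simp [GFn]

theorem sum (ha : Pv a) (ha' : Pv a') {g g' : 𝒞 → ℝ}
    (h : ∀ j, GFn B |c j - c' j| (g j) (g' j)) : GFn B (∑ j, |a j - a' j| + ∑ j, |c j - c' j|)
      (∑ j, a j * g j) (∑ j, a' j * g' j) := by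
  have key : ∀ a g : 𝒞 → ℝ, Pv a → (∀ j, |g j| ≤ B) → |∑ j, a j * g j| ≤ B := fun a g ha hg => by
    refine (abs_sum_le_sum_abs _ _).trans ((sum_le_sum (g := fun j => a j * B) fun j _ => ?_).trans
      (by rw [← sum_mul, ha.2, one_mul]))
    rw [abs_mul, abs_of_nonneg (ha.1 j)]
    exact mul_le_mul_of_nonneg_left (hg j) (ha.1 j)
  refine ⟨key _ _ ha fun j => (h j).1, key _ _ ha' fun j => (h j).2.1, ?_⟩
  rw [← sum_sub_distrib, ← sum_add_distrib, mul_sum]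
  refine (abs_sum_le_sum_abs _ _).trans (sum_le_sum fun j _ => ?_)
  rw [show a j * g j - a' j * g' j = g j * (a j - a' j) + a' j * (g j - g' j) by ring, mul_add]
  refine (abs_add_le _ _).trans (add_le_add ?_ ?_)
  · rw [abs_mul]
    exact mul_le_mul_of_nonneg_right (h j).1 (abs_nonneg _)
  · rw [abs_mul, abs_of_nonneg (ha'.1 j)]
    exact (mul_le_of_le_one_left (abs_nonneg _) (ha'.2 ▸ single_le_sum (fun j _ => ha'.1 j)
      (mem_univ j))).trans (h j).2.2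

theorem base {D c c' : ℝ} (h : 0 ≤ c ∧ c ≤ D) (h' : 0 ≤ c' ∧ c' ≤ D) :
    GFn (D + 1) |c - c'| c c' :=
  ⟨by rw [abs_of_nonneg h.1]; linarith [h.2], by rw [abs_of_nonneg h'.1]; linarith [h'.2],
    le_mul_of_one_le_left (abs_nonneg _) (by linarith [h.1, h.2])⟩

theorem frac {X c c' x : ℝ} (h : 0 ≤ c) (h' : 0 ≤ c') (hx : 0 ≤ x) (hX : x ≤ X) :
    GFn (X + 1) |c - c'| (1 + c * x)⁻¹ (1 + c' * x)⁻¹ := by
  have h1 := mul_nonneg h hx
  have h2 := mul_nonneg h' hx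
  refine ⟨?_, ?_, ?_⟩
  · rw [abs_of_pos (by positivity)]
    exact (inv_le_one_of_one_le₀ (by linarith)).trans (by linarith)
  · rw [abs_of_pos (by positivity)]
    exact (inv_le_one_of_one_le₀ (by linarith)).trans (by linarith)
  · rw [show (1 + c * x)⁻¹ - (1 + c' * x)⁻¹ = -(x * (c - c')) / ((1 + c * x) * (1 + c' * x)) by
      field_simp; ring, abs_div, abs_neg, abs_mul, abs_of_nonneg hx,
      abs_of_pos (a := _ * _) (by positivity)]
    exact (div_le_self (by positivity) (by nlinarith [mul_nonneg h1 h2])).trans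
      (mul_le_mul_of_nonneg_right (by linarith) (abs_nonneg _))

end GFn

theorem uf_lbFn (h : Pv a) {D X : ℝ} (hc : ∀ j, 0 ≤ c j ∧ c j ≤ D) {x : ℝ} (hx : 0 ≤ x)
    (hX : x ≤ X) : 1 / (1 + |D| * |X|) ≤ uf a c x :=
  le_trans (one_div_le_one_div_of_le (by positivity) (by gcongr; exact hX.trans (le_abs_self _)))
    (uf_mem h (fun j => ⟨(hc j).1, (hc j).2.trans (le_abs_self D)⟩) hx).1

theorem blocksFn (D X : ℝ) : ∃ B1 B2 : ℝ, ∀ (𝒞 : Type) [Fintype 𝒞] (a a' c c' : 𝒞 → ℝ),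
    Pv a → Pv a' → (∀ j, 0 ≤ c j ∧ c j ≤ D) → (∀ j, 0 ≤ c' j ∧ c' j ≤ D) → ∀ x, 0 ≤ x → x ≤ X →
      GFn B1 (∑ j, |a j - a' j| + ∑ j, |c j - c' j|)
        ((dvFn a c x * (∑ j, a j * (1 + c j * x)⁻¹) - (∑ j, a j * (c j * (1 + c j * x)⁻¹)) *
          duFn a c x) * ((uf a c x)⁻¹ * (uf a c x)⁻¹))
        ((dvFn a' c' x * (∑ j, a' j * (1 + c' j * x)⁻¹) - (∑ j, a' j * (c' j * (1 + c' j * x)⁻¹)) *
          duFn a' c' x) * ((uf a' c' x)⁻¹ * (uf a' c' x)⁻¹)) ∧
      GFn B2 (∑ j, |a j - a' j| + ∑ j, |c j - c' j|) ((0 - duFn a c x) * (uf a c x)⁻¹)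
        ((0 - duFn a' c' x) * (uf a' c' x)⁻¹) :=
  ⟨_, _, fun _ _ a a' c c' ha ha' hc hc' x hx hX =>
    have hb := fun j => GFn.base (hc j) (hc' j)
    have hY := fun j => GFn.frac (hc j).1 (hc' j).1 hx hX
    have hu := GFn.sum ha ha' hY
    have hd := GFn.sum ha ha' fun j => (hb j).mul ((hY j).mul (hY j))
    have hi := hu.inv (by positivity) (m := 1 / (1 + |D| * |X|)) (by positivity)
      (uf_lbFn ha hc hx hX) (uf_lbFn ha' hc' hx hX)
    ⟨(((GFn.sum ha ha' fun j => (hb j).mul ((hb j).mul ((hY j).mul (hY j)))).mul hu).sub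
      ((GFn.sum ha ha' fun j => (hb j).mul (hY j)).mul hd)).mul (hi.mul hi),
      (GFn.zero.sub hd).mul hi⟩⟩

/-- Lipschitz bounds and stability in the parameters. -/
theorem fn_lip (D X : ℝ) : ∃ L : ℝ, 0 ≤ L ∧ ∀ (𝒞 : Type) [Fintype 𝒞] (a a' c c' : 𝒞 → ℝ),
    Pv a → Pv a' → (∀ j, 0 ≤ c j ∧ c j ≤ D) → (∀ j, 0 ≤ c' j ∧ c' j ≤ D) →
    ∀ x y, 0 ≤ x → x ≤ y → y ≤ X →
      |psi a c y - psi a c x| ≤ L * (y - x) ∧
      |Real.log (uf a c y) - Real.log (uf a c x)| ≤ L * (y - x) ∧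
      |psi a c y - psi a' c' y - (psi a c x - psi a' c' x)| ≤
        L * (∑ j, |a j - a' j| + ∑ j, |c j - c' j|) * (y - x) ∧
      |Real.log (uf a c y) - Real.log (uf a' c' y) -
        (Real.log (uf a c x) - Real.log (uf a' c' x))| ≤
        L * (∑ j, |a j - a' j| + ∑ j, |c j - c' j|) * (y - x) := by
  obtain ⟨B1, B2, hB⟩ := blocksFn D X
  refine ⟨|B1| + |B2|, by positivity, fun 𝒞 _ a a' c c' ha ha' hc hc' x y hx hxy hy => ?_⟩
  have h := fun t (ht : t ∈ Set.Icc x y) => hB 𝒞 a a' c c' ha ha' hc hc' t (hx.trans ht.1)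
    (ht.2.trans hy)
  have e0 : ∀ a c : 𝒞 → ℝ, ∀ t, ∑ j, a j * (c j * (1 + c j * t)⁻¹) = vf a c t := fun a c t => by
    simp only [vf, div_eq_mul_inv, mul_assoc]
  simp only [e0] at h
  have e1 : B1 ≤ |B1| + |B2| := le_add_of_le_of_nonneg (le_abs_self _) (abs_nonneg _)
  have e2 : B2 ≤ |B1| + |B2| := le_add_of_nonneg_of_le (abs_nonneg _) (le_abs_self _)
  have hδ : 0 ≤ ∑ j, |a j - a' j| + ∑ j, |c j - c' j| := by positivity
  have d1 := fun t (ht : t ∈ Set.Icc x y) => psi_derivFn ha (fun j => (hc j).1) (hx.trans ht.1)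
  have d2 := fun t (ht : t ∈ Set.Icc x y) => psi_derivFn ha' (fun j => (hc' j).1) (hx.trans ht.1)
  have d3 := fun t (ht : t ∈ Set.Icc x y) => log_derivFn ha (fun j => (hc j).1) (hx.trans ht.1)
  have d4 := fun t (ht : t ∈ Set.Icc x y) => log_derivFn ha' (fun j => (hc' j).1) (hx.trans ht.1)
  exact ⟨mvtFn hxy d1 fun t ht => (h t ht).1.1.trans e1,
    mvtFn hxy d3 fun t ht => (h t ht).2.1.trans e2,
    mvtFn hxy (fun t ht => (d1 t ht).sub (d2 t ht)) fun t ht =>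
      (h t ht).1.2.2.trans (mul_le_mul_of_nonneg_right e1 hδ),
    mvtFn hxy (fun t ht => (d3 t ht).sub (d4 t ht)) fun t ht =>
      (h t ht).2.2.2.trans (mul_le_mul_of_nonneg_right e2 hδ)⟩

theorem log_lip {d d' x y : ℝ} (hd : 0 ≤ d) (hd' : 0 ≤ d') (hx : 0 ≤ x) (hxy : x ≤ y) :
    |Real.log (1 + d * y) - Real.log (1 + d * x)| ≤ d * (y - x) ∧
    |Real.log (1 + d * y) - Real.log (1 + d' * y) - (Real.log (1 + d * x) - Real.log (1 + d' * x))| ≤
      |d - d'| * (y - x) := by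
  have d1 : ∀ d : ℝ, 0 ≤ d → ∀ t ∈ Set.Icc x y,
      HasDerivAt (fun t => Real.log (1 + d * t)) (d / (1 + d * t)) t := fun d hd t ht => by
    simpa using (((hasDerivAt_id t).const_mul d).const_add 1).log (denFn hd (hx.trans ht.1)).ne'
  refine ⟨mvtFn hxy (d1 d hd) fun t ht => ?_,
    mvtFn hxy (fun t ht => (d1 d hd t ht).sub (d1 d' hd' t ht)) fun t ht => ?_⟩
  · have := mul_nonneg hd (hx.trans ht.1)
    rw [abs_of_nonneg (by positivity)]
    exact div_le_self hd (by linarith)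
  · have h1 := mul_nonneg hd (hx.trans ht.1)
    have h2 := mul_nonneg hd' (hx.trans ht.1)
    rw [show d / (1 + d * t) - d' / (1 + d' * t) = (d - d') / ((1 + d * t) * (1 + d' * t)) by
      rw [div_sub_div _ _ (by positivity) (by positivity)]; ring, abs_div, abs_of_nonneg (a := _ * _) (by positivity)]
    exact div_le_self (abs_nonneg _) (by nlinarith [mul_nonneg h1 h2])

variable {w lam : 𝒞 → ℝ} {top : 𝒞}

theorem Cls.pvFn (h : Cls w lam top) : Pv w := ⟨fun j => (h.pos j).le, h.sum⟩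

theorem Cls.gapFn (h : Cls w lam top) (j : 𝒞) : 0 ≤ lam top - lam j := sub_nonneg.2 (h.le j)

theorem yf_gapFn (h : Cls w lam top) {x y : ℝ} (hx : 0 ≤ x) (hxy : x ≤ y) :
    w top * (y - x) ≤ y * uf w (fun j => lam top - lam j) y -
      x * uf w (fun j => lam top - lam j) x := by
  rw [uf, uf, mul_sum, mul_sum, ← sum_sub_distrib]
  refine le_trans (le_of_eq ?_) (single_le_sum (fun j _ => ?_) (mem_univ top))
  · simp
    ring
  · have h1 := denFn (h.gapFn j) hx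
    have h2 := denFn (h.gapFn j) (hx.trans hxy)
    have h3 := h.pos j
    have h4 := sub_nonneg.2 hxy
    rw [show y * (w j / (1 + (lam top - lam j) * y)) - x * (w j / (1 + (lam top - lam j) * x)) =
      w j * (y - x) / ((1 + (lam top - lam j) * y) * (1 + (lam top - lam j) * x)) by
        rw [← mul_div_assoc, ← mul_div_assoc, div_sub_div _ _ h2.ne' h1.ne']; congr 1; ring]
    positivity

theorem yf_strictMono (h : Cls w lam top) :
    StrictMonoOn (fun x => x * uf w (fun j => lam top - lam j) x) (Set.Ici 0) := by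
  intro x hx y _ hxy
  have := yf_gapFn h hx hxy.le
  have := mul_pos (h.pos top) (sub_pos.2 hxy)
  simp only
  linarith

theorem xi_nonneg (a c : 𝒞 → ℝ) (y : ℝ) : 0 ≤ xi a c y := by
  exact Real.sInf_nonneg fun _ h => h.1

theorem xi_yf (h : Cls w lam top) {x : ℝ} (hx : 0 ≤ x) :
    xi w (fun j => lam top - lam j) (x * uf w (fun j => lam top - lam j) x) = x := by
  refine (congrArg sInf (Set.ext fun t => ?_)).trans (csInf_Ici (a := x))
  exact ⟨fun ht => ((yf_strictMono h).le_iff_le hx ht.1).1 ht.2,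
    fun ht => ⟨hx.trans ht, (yf_strictMono h).monotoneOn hx (hx.trans ht) ht⟩⟩

theorem yf_xi (h : Cls w lam top) {y : ℝ} (hy : 0 ≤ y) :
    xi w (fun j => lam top - lam j) y *
      uf w (fun j => lam top - lam j) (xi w (fun j => lam top - lam j) y) = y := by
  have h0 := div_nonneg hy (h.pos top).le
  have h1 := yf_gapFn h le_rfl h0
  rw [zero_mul, sub_zero, sub_zero, mul_div_cancel₀ _ (h.pos top).ne'] at h1
  obtain ⟨x, hx, e⟩ := intermediate_value_Icc h0 (f := fun x => x * uf w (fun j => lam top - lam j) x)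
    ((continuousOn_id.mul (uf_contFn w h.gapFn)).mono Set.Icc_subset_Ici_self)
    (show y ∈ _ from ⟨by simpa, h1⟩)
  rw [← e, xi_yf h hx.1]

theorem xi_cont (h : Cls w lam top) : ContinuousOn (xi w fun j => lam top - lam j) (Set.Ici 0) := by
  have key : ∀ y ∈ Set.Ici (0 : ℝ), ∀ y' ∈ Set.Ici (0 : ℝ), xi w (fun j => lam top - lam j) y -
      xi w (fun j => lam top - lam j) y' ≤ (w top)⁻¹ * |y - y'| := fun y hy y' hy' => by
    have := (h.pos top).le
    rcases le_total (xi w (fun j => lam top - lam j) y) (xi w (fun j => lam top - lam j) y') with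
      h1 | h1
    · exact (sub_nonpos.2 h1).trans (by positivity)
    · have := yf_gapFn h (xi_nonneg _ _ _) h1
      rw [yf_xi h hy, yf_xi h hy'] at this
      exact (le_inv_mul_iff₀ (h.pos top)).2 (this.trans (le_abs_self _))
  refine (LipschitzOnWith.of_dist_le_mul (K := ⟨(w top)⁻¹, (inv_pos.2 (h.pos top)).le⟩)
    fun y hy y' hy' => abs_sub_le_iff.2 ⟨key y hy y' hy', ?_⟩).continuousOn
  exact (key y' hy' y hy).trans_eq (by rw [abs_sub_comm])

theorem Rf_cont (h : Cls w lam top) : ContinuousOn (Rf w lam (lam top)) (Set.Ici 0) := by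
  exact continuousOn_const.sub (((vf_contFn w h.gapFn).div (uf_contFn w h.gapFn) fun x hx =>
    (uf_posFn h.pvFn h.gapFn hx).ne').comp (xi_cont h) fun y _ => xi_nonneg _ _ y)

theorem Rf_eqFn (h : Cls w lam top) (y : ℝ) : Rf w lam (lam top) y =
    (∑ j, w j * lam j / (1 + (lam top - lam j) * xi w (fun j => lam top - lam j) y)) /
      uf w (fun j => lam top - lam j) (xi w (fun j => lam top - lam j) y) := by
  have h1 := uf_posFn h.pvFn h.gapFn (xi_nonneg w (fun j => lam top - lam j) y)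
  rw [Rf, eq_div_iff h1.ne', sub_mul, div_mul_cancel₀ _ h1.ne', uf, vf, mul_sum, ← sum_sub_distrib]
  exact sum_congr rfl fun j _ => by ring

theorem Rf_zero (h : Cls w lam top) : Rf w lam (lam top) 0 = ∑ j, w j * lam j := by
  have := xi_yf h le_rfl
  rw [zero_mul] at this
  rw [Rf_eqFn h, this]
  simp [uf, h.sum]

theorem abs_Rf_le (h : Cls w lam top) {C : ℝ} (hC : ∀ j, |lam j| ≤ C) (y : ℝ) :
    |Rf w lam (lam top) y| ≤ C := by
  have h0 := xi_nonneg w (fun j => lam top - lam j) y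
  have h1 := uf_posFn h.pvFn h.gapFn h0
  rw [Rf_eqFn h, abs_div, abs_of_pos h1, div_le_iff₀ h1, uf, mul_sum]
  refine (abs_sum_le_sum_abs _ _).trans (sum_le_sum fun j _ => ?_)
  have := denFn (h.gapFn j) h0
  have := h.pos j
  rw [abs_div, abs_mul, abs_of_pos (h.pos j), abs_of_pos (denFn (h.gapFn j) h0), ← mul_div_assoc,
    mul_comm C]
  gcongr
  exact hC j

end Vale.Agent.P166
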