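import Vale.Agent.P166.Base

/-!
# P166: changing the features of a hierarchical field
-/

namespace Vale.Agent.P166

open MeasureTheory Finset Vale.Agent.P168 Vale.Agent.P168.PW Vale.Agent.P157 Function Filter Topology
open scoped BigOperators

variable {n : ℕ} {Ω I : Type} [Fintype Ω] [Fintype I] {P : Ch Ω} {ρ : PW Ω}
  {s : Fam (Fin (n + 1) × I) Ω} {u d : I → Ω → ℝ} {cu : ℝ}

theorem ibp_oneG {l : ℕ} {τ : Ω → Bool} {π : Ω → Ω} (h : Sy l τ π P ρ) {u v : Ω → ℝ} {cu b : ℝ}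
    (hu : ∀ ω, u (π ω) = u ω) (hv : ∀ ω, v (π ω) = v ω) (hc : ∀ ω, |u ω| ≤ cu)
    (hd : ∀ ω, |v ω| ≤ cu) (hb : |b| * cu ≤ 1 / 2) {p : ℕ}
    (hp : l < p) (hp' : p ≤ n + 1) (ω : Ω) :
    |A (Tn n P fun x => b * (sp (τ x) * u x)) 0 p (fun x => sp (τ x) * v x) ω -
      b * (A (Tn n P fun x => b * (sp (τ x) * u x)) 0 p (fun x => u x * v x) ω -
        wt n * ∑ j ∈ Icc 1 l, A (Tn n P fun x => b * (sp (τ x) * u x)) j p
          (fun x => A (Tn n P fun x => b * (sp (τ x) * u x)) 0 j u x *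
            A (Tn n P fun x => b * (sp (τ x) * u x)) 0 j v x) ω)| ≤
      100 * b ^ 2 * cu ^ 3 := by
  have hc0 : 0 ≤ cu := (abs_nonneg _).trans (hc ω)
  set g : Ω → ℝ := fun x => sp (τ x) * u x with hg
  set k : Ω → ℝ := fun x => sp (τ x) * v x with hk
  have hgπ : ∀ x, g (π x) = -g x := fun x => by simp only [hg, h.self, sp_not, hu]; ring
  have hkπ : ∀ x, k (π x) = -k x := fun x => by simp only [hk, h.self, sp_not, hv]; ring
  have hgc : ∀ x, |g x| ≤ cu := fun x => by simpa only [hg, abs_mul, abs_sp, one_mul] using hc x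
  have hkc : ∀ x, |k x| ≤ cu := fun x => by simpa only [hk, abs_mul, abs_sp, one_mul] using hd x
  have hbg : ∀ x, |b * g x| ≤ |b| * cu := fun x => abs_mul_le' le_rfl (hgc x)
  have near : ∀ s : ℝ, |s| ≤ 1 → Near 0 (8 * (|b| * cu)) (Tn n P fun x => s * (b * g x)) P :=
    fun s hs => near_T (al_pos n) (al_anti n) (al_le_one n)
      (fun x => by simpa using abs_mul_le' hs (hbg x)) hb
  obtain ⟨s, hs, e⟩ := exists_deriv_of_odd
    (Θ := fun s => A (Tn n P fun x => s * (b * g x)) 0 p k ω)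
    (Θ' := fun s => Rs (al n) (Tn n P fun x => s * (b * g x)) 0 k (fun x => b * g x) p ω)
    (fun s => by
      have := hasDerivAt_A_T (P := P) (j := 0) (al_pos n) (ψ := fun s x => s * (b * g x))
        (G := fun _ => k) (ψ' := fun x => b * g x) (G' := fun _ => 0) (s := s)
        (fun x => by simpa using (hasDerivAt_id s).mul_const (b * g x))
        (fun x => hasDerivAt_const _ _) le_rfl p (Nat.zero_le p) ω
      rwa [A_const', zero_add, A_of_le le_rfl] at this)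
    (by
      have := congrFun (A_T_resample (a := al n) (j := 0) h.emb.mor h.res le_rfl (Nat.zero_le l)
        (fun x => 1 * (b * g x)) k p hp) ω
      simp only [hgπ, hkπ, A_neg] at this
      simp only [Tn]
      rw [← this, neg_neg]
      congr 2
      funext x; ring)
  have h1 := (near s hs).Rs (al_pos n) (al_anti n) (al_le_one n) (by positivity) (Nat.zero_le p)
    (G := k) (G' := k) (d := 0) (d' := 0) hkc hbg hbg (by simp) (by simp) ω
  rw [← e, Rs_const_mul_right, Rs_sign h hv hp hp'] at h1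
  have n1 := near 1 (by simp)
  simp only [one_mul] at h1 n1
  set P1 := Tn n P fun x => b * g x
  have h2 := n1.A le_rfl p (F' := fun x => u x * v x) (F := fun x => v x * u x) (d := 0)
    (fun x => abs_mul_le' (hd x) (hc x)) (fun x => by simp [mul_comm]) ω
  have h3 := wt_sum_le (n := n) (l := l) (by omega)
    (z := fun j => A P1 j p (fun x => A P1 0 j u x * A P1 0 j v x) ω -
      A P j p (fun x => A P 0 j v x * A P 0 j u x) ω)
    (c := 8 * (|b| * cu) * (cu * cu) + (8 * (|b| * cu) * cu * cu + cu * (8 * (|b| * cu) * cu)))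
    (by positivity) fun j _ => n1.A (Nat.zero_le j) p
      (fun x => abs_mul_le' (abs_A_le hd x) (abs_A_le hc x))
      (fun x => by
        rw [mul_comm (A P 0 j v x)]
        exact abs_mul_sub_mul_le (abs_A_le hd x) (abs_A_le hc x) (n1 0 le_rfl j u cu hc x)
          (n1 0 le_rfl j v cu hd x)) ω
  rw [sum_sub_distrib, mul_sub] at h3
  have h4 := abs_mul_le' (le_refl |b|) ((abs_sub _ _).trans (add_le_add h2 h3))
  have e2 : b ^ 2 = |b| * |b| := by rw [← sq, sq_abs]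
  have h5 : 0 ≤ |b| * |b| * cu ^ 3 := by positivity
  rw [e2]
  rw [abs_le] at h1 h4 ⊢
  constructor <;> nlinarith [h1.1, h1.2, h4.1, h4.2]

theorem ibp_uv (h : FS s u cu P ρ) (hd : ∀ i, s.Inv (d i)) (hb : ∀ i ω, |d i ω| ≤ cu)
    (β : Fin (n + 1) → ℝ) (l : Fin (n + 1)) (hβ : |β l| * cu ≤ 1 / 2) :
    |Eh n (Tn n P (tot (fld s u) β)) ρ 0 (fld s d l) -
      β l * (Eh n (Tn n P (tot (fld s u) β)) ρ 0 (fun x => ∑ i, u i x * d i x) -
        wt n * ∑ j ∈ Icc 1 (l : ℕ), E2 n (Tn n P (tot (fld s u) β)) ρ j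
          fun x y => ∑ i, u i x * d i y)| ≤ 100 * β l ^ 2 * cu ^ 3 * Fintype.card I := by
  have key := fun i => abs_E_le_const ρ (ibp_oneG (n := n) (h.sy_cav β (l, i)) (h.inv i (l, i))
    (hd i (l, i)) (h.bd i) (hb i) hβ l.2 le_rfl)
  simp only [← Tn_tot β (l, _), E_sub, E_const_mul, E_sum] at key
  have := (abs_sum_le_sum_abs _ _).trans (sum_le_sum fun i (_ : i ∈ univ) => key i)
  rw [sum_const, card_univ, nsmul_eq_mul, mul_comm] at this
  refine le_trans (le_of_eq (congrArg _ ?_)) this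
  simp only [show fld s d l = fun ω => ∑ i, sp (s.τ (l, i) ω) * d i ω from rfl, Eh_sum, E2_sum,
    E2_mul, sum_sub_distrib, ← mul_sum]
  rw [sum_comm]
  rfl

theorem gram_core (h : FS s u cu P ρ) (hd : ∀ i, s.Inv (d i)) (hb : ∀ i ω, |d i ω| ≤ cu)
    (hc : cu ≤ 1 / 4) {γ : Fin (n + 1) → ℝ} (hγ : ∑ l, γ l ^ 2 ≤ 1) {G : Ω → ℝ} (hG : s.Inv G)
    {σ : ℝ} (hσ : |σ| ≤ 1) (H : ∀ a : ℝ, 0 ≤ a → a ≤ 1 → ∀ Q : Ch Ω,
      σ * (Eh n Q ρ 0 G + ∑ l, γ l ^ 2 * (Eh n Q ρ 0 (fun x => ∑ i, (u i x + a * d i x) * d i x) -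
        wt n * ∑ j ∈ Icc 1 (l : ℕ), E2 n Q ρ j fun x y => ∑ i, (u i x + a * d i x) * d i y)) ≤ 0) :
    σ * (Fr n P ρ (fun ω => G ω + tot (fld s fun i ω => u i ω + d i ω) γ ω) -
      Fr n P ρ (tot (fld s u) γ)) ≤ 800 * cu ^ 3 * Fintype.card I := by
  set ψ : ℝ → Ω → ℝ := fun a ω => a * G ω + tot (fld s fun i ω => u i ω + a * d i ω) γ ω with hψ
  have hD : ∀ a, HasDerivAt (fun a => Fr n P ρ (ψ a))
      (Eh n (Tn n P (ψ a)) ρ 0 fun ω => G ω + tot (fld s d) γ ω) a := fun a =>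
    hasDerivAt_E ρ (hasDerivAt_X (al_pos n) (fun x => by
      refine HasDerivAt.add (by simpa using (hasDerivAt_id a).mul_const (G x)) ?_
      refine HasDerivAt.fun_sum fun l _ => HasDerivAt.const_mul _ ?_
      refine HasDerivAt.fun_sum fun i _ => HasDerivAt.const_mul _ ?_
      simpa using ((hasDerivAt_id a).mul_const (d i x)).const_add (u i x)) _)
  obtain ⟨a, ha, e⟩ := exists_hasDerivAt_eq_slope _ _ zero_lt_one
    (fun a _ => (hD a).continuousAt.continuousWithinAt) fun a _ => hD a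
  have e0 : ψ 0 = tot (fld s u) γ := by funext ω; simp [hψ]
  have e1 : ψ 1 = fun ω => G ω + tot (fld s fun i ω => u i ω + d i ω) γ ω := by
    funext ω; simp [hψ]
  rw [e0, e1, sub_zero, div_one] at e
  rw [← e]
  rcases isEmpty_or_nonempty I with hI | ⟨⟨i0⟩⟩
  · simpa [tot, fld, Eh_const, E2_const] using H a ha.1.le ha.2.le (Tn n P (ψ a))
  obtain ⟨ω0⟩ := ρ.nonempty
  have hc0 : 0 ≤ cu := (abs_nonneg _).trans (hb i0 ω0)
  have h' : FS s (fun i ω => u i ω + a * d i ω) (2 * cu) (Tn n P fun ω => a * G ω) ρ :=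
    ⟨h.ok.Tn fun l ω => by rw [hG], h.lv, fun i l ω => by rw [h.inv, hd], fun i ω => by
      have := abs_mul_le' (abs_le.mpr ⟨by linarith [ha.1], ha.2.le⟩ : |a| ≤ 1) (hb i ω)
      linarith [abs_add_le (u i ω) (a * d i ω), h.bd i ω]⟩
  have hγ1 : ∀ l, |γ l| ≤ 1 := fun l => sq_le_one_iff_abs_le_one _ |>.mp
    ((single_le_sum (f := fun l => γ l ^ 2) (fun _ _ => sq_nonneg _) (mem_univ l)).trans hγ)
  have k := fun l => abs_mul_le' (hγ1 l) (ibp_uv h' hd (fun i ω => by linarith [hb i ω]) γ l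
    (by nlinarith [hγ1 l, abs_nonneg (γ l)]))
  rw [Tn_Tn, show (fun ω => a * G ω + tot (fld s fun i ω => u i ω + a * d i ω) γ ω) = ψ a
    from rfl] at k
  have k2 := abs_mul_le' hσ
    ((abs_sum_le_sum_abs _ _).trans (sum_le_sum fun l (_ : l ∈ univ) => k l))
  have k3 := H a ha.1.le ha.2.le (Tn n P (ψ a))
  have k4 : ∑ l, 1 * (100 * γ l ^ 2 * (2 * cu) ^ 3 * (Fintype.card I : ℝ)) ≤
      800 * cu ^ 3 * Fintype.card I := by
    rw [sum_congr rfl (g := fun l => γ l ^ 2 * (800 * cu ^ 3 * Fintype.card I))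
      fun l _ => by ring, ← sum_mul]
    exact mul_le_of_le_one_left (by positivity) hγ
  rw [Eh_add, show Eh n (Tn n P (ψ a)) ρ 0 (tot (fld s d) γ) =
    ∑ l, γ l * Eh n (Tn n P (ψ a)) ρ 0 (fld s d l) by
      simp only [← Eh_const_mul, ← Eh_sum]; rfl]
  have e3 : ∀ x y z : ℝ, x * (y - x * z) = x * y - x ^ 2 * z := fun x y z => by ring
  simp only [e3, sum_sub_distrib] at k2
  have := (abs_le.mp k2).2
  linarith

theorem gramA (h : FS s u cu P ρ) (hd : ∀ i, s.Inv (d i)) (hb : ∀ i ω, |d i ω| ≤ cu)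
    (hc : cu ≤ 1 / 4) {γ : Fin (n + 1) → ℝ} (hγ : ∑ l, γ l ^ 2 ≤ 1)
    (ho : ∀ x y, ∑ i, u i x * d i y = 0) :
    Fr n P ρ (tot (fld s u) γ) ≤
      Fr n P ρ (tot (fld s fun i ω => u i ω + d i ω) γ) + 800 * cu ^ 3 * Fintype.card I := by
  have := gram_core h hd hb hc hγ (G := fun _ => 0) (fun _ _ => rfl) (σ := -1) (by simp)
    fun a ha _ Q => by
      simp only [add_mul, sum_add_distrib, ho, zero_add, mul_assoc, ← mul_sum, Eh_const,
        Eh_const_mul, E2_const_mul, neg_mul, one_mul, neg_nonpos]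
      refine sum_nonneg fun l _ => mul_nonneg (sq_nonneg _) ?_
      rw [mul_left_comm, ← mul_sub]
      refine mul_nonneg ha (sub_nonneg.mpr ((le_abs_self _).trans (wt_sum_le (by omega)
        (Eh_nonneg fun _ => sum_nonneg fun _ _ => mul_self_nonneg _) fun j hj => ?_)))
      have hj' : j ≤ n + 1 := by have := (mem_Icc.mp hj).2; omega
      rw [E2_sum, Eh_sum]
      refine (abs_sum_le_sum_abs _ _).trans (sum_le_sum fun i _ => ?_)
      rw [abs_of_nonneg (E2_sq_nonneg _)]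
      refine (E2_sq_anti (Nat.zero_le j) hj' _).trans (le_of_eq ?_)
      simp only [E2_mul, A_of_le le_rfl]
  simp only [zero_add] at this
  linarith

theorem gramH (h : FS s u cu P ρ) (hd : ∀ i, s.Inv (d i)) (hb : ∀ i ω, |d i ω| ≤ cu)
    (hc : cu ≤ 1 / 4) {γ : Fin (n + 1) → ℝ} (hγ : ∑ l, γ l ^ 2 ≤ 1) {c : Ω → ℝ} (hci : s.Inv c)
    (ho : ∀ a : ℝ, 0 ≤ a → a ≤ 1 → ∀ x y,
      |∑ i, (u i x + a * d i x) * d i y| ≤ (c x + c y) / 2) :
    Fr n P ρ (fun ω => -(2 * (∑ l, γ l ^ 2) * c ω) + tot (fld s fun i ω => u i ω + d i ω) γ ω) ≤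
      Fr n P ρ (tot (fld s u) γ) + 800 * cu ^ 3 * Fintype.card I := by
  have := gram_core h hd hb hc hγ (G := fun ω => -(2 * (∑ l, γ l ^ 2) * c ω))
    (fun l ω => by simp only [hci l ω]) (σ := 1) (by simp) fun a ha ha' Q => by
      have c0 : 0 ≤ Eh n Q ρ 0 c := Eh_nonneg fun x => by
        linarith [abs_nonneg _ |>.trans (ho a ha ha' x x)]
      rw [one_mul, Eh_neg, Eh_const_mul, neg_add_le_iff_le_add, add_zero, mul_comm 2, mul_assoc,
        sum_mul]
      refine sum_le_sum fun l _ => mul_le_mul_of_nonneg_left ?_ (sq_nonneg _)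
      have a1 : Eh n Q ρ 0 (fun x => ∑ i, (u i x + a * d i x) * d i x) ≤ Eh n Q ρ 0 c :=
        Eh_mono fun x => by linarith [(abs_le.mp (ho a ha ha' x x)).2]
      have a2 := wt_sum_le (n := n) (l := l) (by omega) c0
        (z := fun j => E2 n Q ρ j fun x y => ∑ i, (u i x + a * d i x) * d i y) fun j hj => by
          have hj' : j ≤ n + 1 := by have := (mem_Icc.mp hj).2; omega
          refine (abs_E2_le _).trans ((E2_mono (ho a ha ha')).trans (le_of_eq ?_))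
          simp only [div_eq_inv_mul, E2_const_mul, E2_add, E2_fst hj', E2_snd hj']
          ring
      linarith [(abs_le.mp a2).1]
  linarith

theorem gramG (h : FS s u cu P ρ) (hd : ∀ i, s.Inv (d i)) (hb : ∀ i ω, |d i ω| ≤ cu)
    (hc : cu ≤ 1 / 4) {γ : Fin (n + 1) → ℝ} (hγ : ∑ l, γ l ^ 2 ≤ 1) {c : Ω → ℝ} (hci : s.Inv c)
    (ho : ∀ a : ℝ, 0 ≤ a → a ≤ 1 → ∀ x y,
      |∑ i, (u i x + a * d i x) * d i y| ≤ (c x + c y) / 2) :
    Fr n P ρ (tot (fld s fun i ω => u i ω + d i ω) γ) ≤ Fr n P ρ (tot (fld s u) γ) +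
      2 * (∑ l, γ l ^ 2) * Eh n (Tn n P (tot (fld s fun i ω => u i ω + d i ω) γ)) ρ 0 c +
      800 * cu ^ 3 * Fintype.card I := by
  have h1 := gramH h hd hb hc hγ hci ho
  have h2 := Fr_cvx (n := n) (P := P) (ρ := ρ) (tot (fld s fun i ω => u i ω + d i ω) γ)
    fun ω => -(2 * (∑ l, γ l ^ 2) * c ω) + tot (fld s fun i ω => u i ω + d i ω) γ ω
  simp only [add_sub_cancel_right, Eh_neg, Eh_const_mul] at h2
  linarith

end Vale.Agent.P166
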