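import Vale.Agent.P166.Alg

/-!
# P166: the greedy path
-/

namespace Vale.Agent.P166

open MeasureTheory Finset Vale.Agent.P168 Vale.Agent.P168.PW Vale.Agent.P157 Function Filter Topology
open scoped BigOperators

/-- Removing row `i`. -/
def rm {N : ℕ} {𝒞 : Type} (cl : Fin (N + 1) → 𝒞) (i : Fin (N + 1)) (a : Fin N) : 𝒞 :=
  cl (Equiv.swap 0 i a.succ)

section
variable {𝒞 : Type} [Fintype 𝒞] [DecidableEq 𝒞]

noncomputable def cntG {s : ℕ} (c : Fin s → 𝒞) (j : 𝒞) : ℝ := ∑ i, if c i = j then 1 else 0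

noncomputable def VG (a : 𝒞 → ℝ) {s : ℕ} (c : Fin s → 𝒞) : ℝ := ∑ j, (cntG c j - s * a j) ^ 2

omit [Fintype 𝒞] in
theorem fq_cntG {s : ℕ} (c : Fin s → 𝒞) (j : 𝒞) : fq c j = cntG c j / s := by
  simp [fq, cntG]

omit [Fintype 𝒞] in
theorem cntG_rm {s : ℕ} (c : Fin (s + 1) → 𝒞) (i : Fin (s + 1)) (j : 𝒞) :
    cntG (rm c i) j = cntG c j - if c i = j then 1 else 0 := by
  unfold cntG
  rw [← Equiv.sum_comp (Equiv.swap 0 i) fun a => if c a = j then (1 : ℝ) else 0,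
    Fin.sum_univ_succ, Equiv.swap_apply_left]
  simp only [rm]
  rw [add_sub_cancel_left]; rfl

theorem sum_cntG {s : ℕ} (c : Fin s → 𝒞) (x : 𝒞 → ℝ) : ∑ j, cntG c j * x j = ∑ i, x (c i) := by
  simp only [cntG, sum_mul]
  rw [sum_comm]
  simp

theorem VG_avg (a : 𝒞 → ℝ) (ha : Pv a) {s : ℕ} (c : Fin (s + 1) → 𝒞) :
    ∑ i, VG a (rm c i) ≤ (s + 1) * (VG a c + 2) := by
  set x : 𝒞 → ℝ := fun j => cntG c j - ((s + 1 : ℕ) : ℝ) * a j with hx
  have h1 : ∀ j, a j ≤ 1 := fun j => ha.2 ▸ single_le_sum (fun j _ => ha.1 j) (mem_univ j)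
  have h2 : ∑ j, a j ^ 2 ≤ 1 := ha.2 ▸ sum_le_sum fun j _ => by nlinarith [ha.1 j, h1 j]
  have h3 : ∀ i, VG a (rm c i) ≤ VG a c + 2 * ∑ j, x j * a j - 2 * x (c i) + 2 := by
    intro i
    have e : VG a (rm c i) = ∑ j, (x j ^ 2 + 2 * (x j * a j) + a j ^ 2 +
        if c i = j then 1 - 2 * x j - 2 * a j else 0) := by
      refine sum_congr rfl fun j _ => ?_
      rw [cntG_rm, hx]; push_cast
      split_ifs <;> ring
    rw [e]
    simp only [sum_add_distrib, sum_ite_eq, mem_univ, if_true, ← mul_sum]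
    have : VG a c = ∑ j, x j ^ 2 := rfl
    linarith [ha.1 (c i)]
  have h4 : ∑ i, x (c i) = VG a c + (s + 1) * ∑ j, x j * a j := by
    rw [← sum_cntG, VG, mul_sum, ← sum_add_distrib]
    refine sum_congr rfl fun j _ => ?_
    rw [hx]; push_cast; ring
  have h5 : 0 ≤ VG a c := sum_nonneg fun _ _ => sq_nonneg _
  refine (sum_le_sum fun i _ => h3 i).trans ?_
  simp only [sum_add_distrib, sum_sub_distrib, ← mul_sum, h4, sum_const, card_univ,
    Fintype.card_fin, nsmul_eq_mul]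
  push_cast
  linarith

theorem fq_pv {s : ℕ} (hs : 0 < s) (c : Fin s → 𝒞) : Pv (fq c) := by
  have h : (0 : ℝ) < s := by exact_mod_cast hs
  refine ⟨fun j => by unfold fq; positivity, ?_⟩
  have := sum_cntG c fun _ => 1
  simp only [mul_one, sum_const, card_univ, Fintype.card_fin, nsmul_eq_mul] at this
  simp only [fq_cntG, ← sum_div, this, div_self h.ne']

end

theorem greedy {𝒞 : Type} [Fintype 𝒞] [DecidableEq 𝒞] (w : 𝒞 → ℝ) {δ θ ε C : ℝ} (L : ℝ)
    (hδ : 0 < δ) (hθ : 0 < θ) (hε : 0 < ε) (hC : 0 ≤ C) : ∃ N0 : ℕ, ∀ N, N0 ≤ N →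
    ∀ (G : ∀ s : ℕ, (Fin s → 𝒞) → ℝ) (cl : Fin N → 𝒞), (∀ j, |fq cl j - w j| ≤ δ / 2) →
      (∀ s (c : Fin s → 𝒞), -(C * s) ≤ G s c) →
      (∀ s : ℕ, θ * N ≤ s → s < N → ∀ c : Fin (s + 1) → 𝒞, (∀ j, |fq c j - w j| ≤ δ) →
        (∑ i, G s (rm c i)) / (s + 1) + L ≤ G (s + 1) c ∧
          ∀ i, G (s + 1) c ≤ G s (rm c i) + C * Real.sqrt N) →
      N * (L - ε - θ * (|L| + C)) ≤ G N cl := by
  obtain ⟨K, hK⟩ : ∃ K : ℝ, K = δ ^ 2 * θ ^ 2 / 4 := ⟨_, rfl⟩
  have hK0 : 0 < K := by rw [hK]; positivity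
  obtain ⟨T, hT⟩ : ∃ T : ℝ, T = (2 + 4 * (C + |L|) / ε) / K + 2 * (|L| + C) / ε + 1 := ⟨_, rfl⟩
  have hT1 : 1 ≤ T := by
    have : 0 ≤ (2 + 4 * (C + |L|) / ε) / K + 2 * (|L| + C) / ε := by positivity
    linarith
  refine ⟨⌈T ^ 2⌉₊, fun N hN G cl hcl hG hstep => ?_⟩
  have hNT : T ^ 2 ≤ N := (Nat.le_ceil _).trans (by exact_mod_cast hN)
  have hN1 : (1 : ℝ) ≤ N := le_trans (one_le_pow₀ hT1) hNT
  have hN0 : 0 < N := by exact_mod_cast lt_of_lt_of_le one_pos hN1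
  have hsq : T ≤ Real.sqrt N := Real.le_sqrt_of_sq_le hNT
  have hsq2 : Real.sqrt N * Real.sqrt N = N := Real.mul_self_sqrt (by linarith)
  obtain ⟨B, hB⟩ : ∃ B : ℝ, B = 2 + 4 * (C * Real.sqrt N + |L|) / ε := ⟨_, rfl⟩
  have hB0 : 0 ≤ B := by rw [hB]; positivity
  have hBK : B ≤ K * N := by
    have h1 : (2 + 4 * (C + |L|) / ε) / K ≤ Real.sqrt N := by
      have : 0 ≤ 2 * (|L| + C) / ε := by positivity
      linarith
    rw [div_le_iff₀ hK0] at h1
    have h2 : B ≤ (2 + 4 * (C + |L|) / ε) * Real.sqrt N := by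
      have h3 : |L| ≤ |L| * Real.sqrt N := le_mul_of_one_le_right (abs_nonneg _) (by linarith)
      have h4 : 4 * (C * Real.sqrt N + |L|) / ε ≤ 4 * (C * Real.sqrt N + |L| * Real.sqrt N) / ε := by
        gcongr
      rw [hB]
      have e : (2 + 4 * (C + |L|) / ε) * Real.sqrt N =
        2 * Real.sqrt N + 4 * (C * Real.sqrt N + |L| * Real.sqrt N) / ε := by ring
      linarith
    calc B ≤ _ := h2
      _ ≤ Real.sqrt N * K * Real.sqrt N := by gcongr
      _ = K * N := by rw [mul_comm _ K, mul_assoc, hsq2]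
  have ha := fq_pv hN0 cl
  have key : ∀ m s : ℕ, s + m = N → min ⌈θ * N⌉₊ N ≤ s → ∃ c : Fin s → 𝒞,
      VG (fq cl) c ≤ m * B ∧ G s c + ε / 4 * VG (fq cl) c + m * (L - ε / 2) ≤ G N cl := by
    intro m
    induction m with
    | zero =>
      rintro s rfl -
      have : VG (fq cl) cl = 0 := sum_eq_zero fun j _ => by
        rw [fq_cntG, mul_div_cancel₀ _ (by positivity)]; simp
      exact ⟨cl, by simp [this], by simp [this]⟩
    | succ m ih =>
      intro s hs hs0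
      obtain ⟨c, hV, hP⟩ := ih (s + 1) (by omega) (by omega)
      have hθs : θ * N ≤ s := (Nat.le_ceil _).trans (by exact_mod_cast (by omega))
      have hs1 : (0 : ℝ) < s + 1 := by positivity
      have hgood : ∀ j, |fq c j - w j| ≤ δ := by
        intro j
        have h1 : (cntG c j - ((s + 1 : ℕ) : ℝ) * fq cl j) ^ 2 ≤ VG (fq cl) c :=
          single_le_sum (f := fun j => (cntG c j - ((s + 1 : ℕ) : ℝ) * fq cl j) ^ 2)
            (fun _ _ => sq_nonneg _) (mem_univ j)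
        have h2 : (m : ℝ) * B ≤ N * (K * N) :=
          mul_le_mul (by exact_mod_cast (by omega)) hBK hB0 (by positivity)
        have h3 : (N : ℝ) * (K * N) ≤ (δ / 2 * (s + 1)) ^ 2 := by
          rw [show (N : ℝ) * (K * N) = (δ / 2 * (θ * N)) ^ 2 by rw [hK]; ring]
          gcongr; linarith
        have h4 := abs_le_of_sq_le_sq' (h1.trans (hV.trans (h2.trans h3))) (by positivity)
        have h5 : |fq c j - fq cl j| ≤ δ / 2 := by
          rw [fq_cntG c, abs_le]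
          push_cast at h4 ⊢
          constructor
          · rw [le_sub_iff_add_le, le_div_iff₀ hs1]; linarith [h4.1]
          · rw [sub_le_iff_le_add, div_le_iff₀ hs1]; linarith [h4.2]
        have := abs_sub_le (fq c j) (fq cl j) (w j)
        linarith [hcl j]
      obtain ⟨h1, h2⟩ := hstep s hθs (by omega) c hgood
      obtain ⟨i, -, hi⟩ := exists_le_of_sum_le (s := univ) univ_nonempty
        (f := fun i => G s (rm c i) + ε / 4 * VG (fq cl) (rm c i))
        (g := fun _ => G (s + 1) c - L + ε / 4 * (VG (fq cl) c + 2)) (by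
          rw [sum_add_distrib, ← mul_sum, sum_const, card_univ, Fintype.card_fin, nsmul_eq_mul]
          have h3 := mul_le_mul_of_nonneg_left (VG_avg _ ha c) (show 0 ≤ ε / 4 by positivity)
          rw [← le_sub_iff_add_le, div_le_iff₀ hs1] at h1
          push_cast
          linarith)
      refine ⟨rm c i, ?_, by push_cast; linarith⟩
      have h3 : VG (fq cl) (rm c i) ≤ VG (fq cl) c + B := by
        have h4 : ε / 4 * B = ε / 2 + C * Real.sqrt N + |L| := by rw [hB]; field_simp; ring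
        have h5 := neg_abs_le L
        refine le_of_mul_le_mul_left (a := ε / 4) ?_ (by positivity)
        linarith [h2 i]
      push_cast; linarith
  obtain ⟨c, -, hP⟩ := key (N - min ⌈θ * N⌉₊ N) (min ⌈θ * N⌉₊ N) (by omega) le_rfl
  have h0 : 0 ≤ ε / 4 * VG (fq cl) c :=
    mul_nonneg (by positivity) (sum_nonneg fun _ _ => sq_nonneg _)
  have h1 := hG _ c
  have h2 : ((min ⌈θ * N⌉₊ N : ℕ) : ℝ) ≤ θ * N + 1 :=
    le_trans (by exact_mod_cast min_le_left _ _) (Nat.ceil_lt_add_one (by positivity)).le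
  rw [Nat.cast_sub (min_le_right _ _)] at hP
  have h3 : (0 : ℝ) ≤ ((min ⌈θ * N⌉₊ N : ℕ) : ℝ) := Nat.cast_nonneg _
  generalize ((min ⌈θ * N⌉₊ N : ℕ) : ℝ) = t at h1 h2 h3 hP
  have h4 : 2 * (|L| + C) / ε ≤ N := by
    have : 0 ≤ (2 + 4 * (C + |L|) / ε) / K := by positivity
    have : Real.sqrt N ≤ N := by nlinarith
    linarith
  rw [div_le_iff₀ hε] at h4
  have h5 : t * (|L| + C) ≤ (θ * N + 1) * (|L| + C) :=
    mul_le_mul_of_nonneg_right h2 (by positivity)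
  have h6 : t * L ≤ t * |L| := mul_le_mul_of_nonneg_left (le_abs_self L) h3
  have h7 : 0 ≤ t * ε := mul_nonneg h3 hε.le
  linarith

end Vale.Agent.P166
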