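import Vale.Agent.P166.Ward
import Vale.Agent.P166.Gram

/-!
# P166: concentration of the free energy
-/

namespace Vale.Agent.P166

open MeasureTheory Finset Vale.Agent.P168 Vale.Agent.P168.PW Vale.Agent.P157 Function Filter Topology
open scoped BigOperators

theorem num_HC {c x y : ℝ} (h : |c| ≤ 6) : |c * (x * y)| ≤ 3 * (x ^ 2 + y ^ 2) := by
  have h1 : |x * y| ≤ (x ^ 2 + y ^ 2) / 2 :=
    abs_le.mpr ⟨by nlinarith [sq_nonneg (x + y)], by nlinarith [sq_nonneg (x - y)]⟩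
  exact (abs_mul_le' h h1).trans_eq (by ring)

section geo
variable {I : Type} [Fintype I] [DecidableEq I]

/-- Coordinate projection. -/
def prjHC (S : Finset I) (x : I → ℝ) : I → ℝ := fun i => if i ∈ S then x i else 0

theorem gram_reflHC (S : Finset I) (w x y : I → ℝ) {a : ℝ} (h0 : 0 ≤ a) (h1 : a ≤ 1) :
    |(act (refl w) (prjHC S (act (refl w) x)) +
      a • (prjHC S x - act (refl w) (prjHC S (act (refl w) x)))) ⬝ᵥ
      (prjHC S y - act (refl w) (prjHC S (act (refl w) y)))| ≤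
    (12 * (((w ⬝ᵥ x) ^ 2 + (w ⬝ᵥ prjHC S x) ^ 2) / (w ⬝ᵥ w)) +
      12 * (((w ⬝ᵥ y) ^ 2 + (w ⬝ᵥ prjHC S y) ^ 2) / (w ⬝ᵥ w))) / 2 := by
  have hq : 0 ≤ w ⬝ᵥ w := sum_nonneg fun _ _ => mul_self_nonneg _
  rcases hq.eq_or_lt with hq | hq
  · simp [act_refl, ← hq]
  have l1 : ∀ (z : I → ℝ) (c : ℝ), prjHC S (z - c • w) = prjHC S z - c • prjHC S w :=
    fun z c => funext fun i => by by_cases hi : i ∈ S <;> simp [prjHC, hi]
  have l2 : ∀ z : I → ℝ, prjHC S z ⬝ᵥ prjHC S w = w ⬝ᵥ prjHC S z := fun z =>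
    sum_congr rfl fun i _ => by by_cases hi : i ∈ S <;> simp [prjHC, hi, mul_comm]
  have l3 : ∀ z : I → ℝ, prjHC S z ⬝ᵥ w = w ⬝ᵥ prjHC S z := fun z => dotProduct_comm _ _
  have l4 : ∀ z : I → ℝ, prjHC S z - act (refl w) (prjHC S (act (refl w) z)) =
      (2 * (w ⬝ᵥ z) / (w ⬝ᵥ w)) • prjHC S w + (2 * (w ⬝ᵥ prjHC S z -
        2 * (w ⬝ᵥ z) / (w ⬝ᵥ w) * (w ⬝ᵥ prjHC S w)) / (w ⬝ᵥ w)) • w := fun z => by
    rw [act_refl, act_refl, l1, dotProduct_sub, dotProduct_smul, smul_eq_mul]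
    abel
  have p0 : 0 ≤ w ⬝ᵥ prjHC S w / (w ⬝ᵥ w) := div_nonneg (sum_nonneg fun i _ => by
    by_cases hi : i ∈ S <;> simp [prjHC, hi, mul_self_nonneg]) hq.le
  have p1 : w ⬝ᵥ prjHC S w / (w ⬝ᵥ w) ≤ 1 := (div_le_one hq).mpr (sum_le_sum fun i _ => by
    by_cases hi : i ∈ S <;> simp [prjHC, hi, mul_self_nonneg])
  have l5 : act (refl w) (prjHC S (act (refl w) x)) =
      prjHC S x - (prjHC S x - act (refl w) (prjHC S (act (refl w) x))) := by abel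
  rw [l5, sub_sub_cancel (prjHC S x) (prjHC S x - _), l4, l4]
  simp only [add_dotProduct, sub_dotProduct, smul_dotProduct, dotProduct_add, dotProduct_smul,
    smul_eq_mul, l2, l3]
  generalize w ⬝ᵥ prjHC S w = r at p0 p1 ⊢
  generalize w ⬝ᵥ prjHC S x = bx
  generalize w ⬝ᵥ prjHC S y = b
  generalize w ⬝ᵥ x = ax
  generalize w ⬝ᵥ y = ay
  generalize w ⬝ᵥ w = q at hq p0 p1 ⊢
  obtain ⟨p, rfl⟩ : ∃ p, r = p * q := ⟨r / q, by field_simp⟩
  rw [mul_div_cancel_right₀ _ hq.ne'] at p0 p1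
  have m0 : 0 ≤ (1 - a) * p := mul_nonneg (by linarith) p0
  have m1 : (1 - a) * p ≤ 1 := mul_le_one₀ (by linarith) p0 p1
  have k1 := num_HC (c := 2 - 4 * (1 - a)) (x := bx) (y := b) (abs_le.mpr ⟨by linarith, by linarith⟩)
  have k2 := num_HC (c := 2 * (1 - 2 * p) + 4 * ((1 - a) * p)) (x := bx) (y := ay)
    (abs_le.mpr ⟨by linarith, by linarith⟩)
  have k3 := num_HC (c := 4 * ((1 - a) * p)) (x := ax) (y := b)
    (abs_le.mpr ⟨by linarith, by linarith⟩)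
  have k4 := num_HC (c := -(4 * ((1 - a) * p))) (x := ax) (y := ay)
    (abs_le.mpr ⟨by linarith, by linarith⟩)
  refine le_trans (le_of_eq (congrArg _ (?_ : _ = ((2 - 4 * (1 - a)) * (bx * b) +
    (2 * (1 - 2 * p) + 4 * ((1 - a) * p)) * (bx * ay) + 4 * ((1 - a) * p) * (ax * b) +
    -(4 * ((1 - a) * p)) * (ax * ay)) / q))) ?_
  · field_simp; ring
  rw [abs_div, abs_of_pos hq, div_le_iff₀ hq]
  refine le_trans ?_ (le_of_eq (?_ : 6 * (ax ^ 2 + bx ^ 2) + 6 * (ay ^ 2 + b ^ 2) = _))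
  · rw [abs_le] at *
    constructor <;> linarith [k1.1, k1.2, k2.1, k2.2, k3.1, k3.2, k4.1, k4.2]
  · field_simp; ring

theorem en_reflHC (κ b w x : I → ℝ) {C : ℝ} (hκ : ∀ i, |κ i| ≤ C) (hb : ∑ i, b i ^ 2 ≤ C) :
    (∑ i, κ i * x i ^ 2) / 2 + ∑ i, b i * x i ≤
      (∑ i, κ i * act (refl w) x i ^ 2) / 2 + ∑ i, b i * act (refl w) x i +
        (C + ((2 + 2 * C) * (w ⬝ᵥ x) ^ 2 + (w ⬝ᵥ fun i => κ i * x i) ^ 2) / (w ⬝ᵥ w)) := by
  have hC : 0 ≤ C := (sum_nonneg fun _ _ => sq_nonneg _).trans hb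
  have hq : 0 ≤ w ⬝ᵥ w := sum_nonneg fun _ _ => mul_self_nonneg _
  rcases hq.eq_or_lt with hq | hq
  · simp [act_refl, ← hq, hC]
  have e1 : ∀ c : ℝ, ∑ i, κ i * (x - c • w) i ^ 2 = ∑ i, κ i * x i ^ 2 -
      2 * c * (w ⬝ᵥ fun i => κ i * x i) + c ^ 2 * ∑ i, κ i * w i ^ 2 := fun c => by
    simp only [dotProduct, mul_sum, ← sum_sub_distrib, ← sum_add_distrib]
    exact sum_congr rfl fun i _ => by simp; ring
  have e2 : ∀ c : ℝ, ∑ i, b i * (x - c • w) i = ∑ i, b i * x i - c * (w ⬝ᵥ b) := fun c => by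
    simp only [dotProduct, mul_sum, ← sum_sub_distrib]
    exact sum_congr rfl fun i _ => by simp; ring
  have a1 : -(C * (w ⬝ᵥ w)) ≤ ∑ i, κ i * w i ^ 2 := by
    rw [dotProduct, mul_sum, ← sum_neg_distrib]
    exact sum_le_sum fun i _ => by nlinarith [(abs_le.mp (hκ i)).1, sq_nonneg (w i)]
  have a2 : (w ⬝ᵥ b) ^ 2 ≤ (w ⬝ᵥ w) * C := by
    refine (sum_mul_sq_le_sq_mul_sq _ _ _).trans (mul_le_mul ?_ hb
      (sum_nonneg fun _ _ => sq_nonneg _) hq.le)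
    simp only [dotProduct, sq, le_refl]
  rw [act_refl, e1, e2]
  generalize (w ⬝ᵥ fun i => κ i * x i) = δ
  generalize ∑ i, κ i * w i ^ 2 = z at a1 ⊢
  generalize w ⬝ᵥ b = β at a2 ⊢
  generalize w ⬝ᵥ x = α
  generalize w ⬝ᵥ w = q at hq a1 a2 ⊢
  have : C + ((2 + 2 * C) * α ^ 2 + δ ^ 2) / q - 2 * α / q * δ + (2 * α / q) ^ 2 * z / 2 -
      2 * α / q * β = ((α - δ) ^ 2 + (α - β) ^ 2 + (q * C - β ^ 2)) / q +
        2 * (α / q) ^ 2 * (z + C * q) := by field_simp; ring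
  have h1 : 0 ≤ ((α - δ) ^ 2 + (α - β) ^ 2 + (q * C - β ^ 2)) / q :=
    div_nonneg (add_nonneg (by positivity) (sub_nonneg.mpr a2)) hq.le
  have h2 : 0 ≤ 2 * (α / q) ^ 2 * (z + C * q) := mul_nonneg (by positivity) (by linarith)
  linarith

end geo

namespace Sys
variable {n K : ℕ} {Ω I : Type} [Fintype Ω] [Fintype I] [DecidableEq I] {Y : Sys n K Ω I}
  {T : Finset I} {κT X C : ℝ}

theorem u_eqHC (U : OG I) (q : I × Fin K) (ω : Ω) :
    Y.u U q ω = act U⁻¹ (prjHC Y.S (Y.t U ω)) q.1 / Real.sqrt K := by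
  simp [u, act_apply, prjHC]

theorem sum_featHC (hK : 0 < K) (U : OG I) (x y : I → ℝ) :
    ∑ q : I × Fin K, act U x q.1 / Real.sqrt K * (act U y q.1 / Real.sqrt K) = x ⬝ᵥ y := by
  have h : (0 : ℝ) < K := by exact_mod_cast hK
  simp only [Fintype.sum_prod_type, div_mul_div_comm, Real.mul_self_sqrt h.le, sum_const,
    card_univ, Fintype.card_fin, nsmul_eq_mul, mul_div_cancel₀ _ h.ne']
  exact act_dot U x y

/-- The multipliers of the three test vectors. -/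
def mulHC (Y : Sys n K Ω I) (C : ℝ) : Fin 3 → I → ℝ :=
  ![fun _ => 6 + C, Y.κ, fun i => if i ∈ Y.S then 6 + C else 0]

theorem stepHC (h : Y.Ok T κT X C) (hK : 64 * (Fintype.card I : ℝ) ^ 3 ≤ Real.sqrt K) (U : OG I)
    (w : I → ℝ) : Y.F0 U - Y.F0 (refl w * U) ≤ (100 + C) + Eh n (Y.Q U) Y.ρ 0
      fun ω => ∑ k, (w ⬝ᵥ fun i => Y.mulHC C k i * Y.t U ω i) ^ 2 / (w ⬝ᵥ w) := by
  have hC : 0 ≤ C := (Nat.cast_nonneg _).trans h.cS
  have hq : 0 ≤ w ⬝ᵥ w := sum_nonneg fun _ _ => mul_self_nonneg _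
  have hN : (1 : ℝ) ≤ Fintype.card I := by exact_mod_cast h.hI
  have hK0 : (0 : ℝ) < K := by exact_mod_cast h.hK
  have hs : 0 < Real.sqrt K := Real.sqrt_pos.mpr hK0
  have n1 : 1 ≤ Real.sqrt (Fintype.card I) := Real.one_le_sqrt.mpr hN
  have n2 : Real.sqrt (Fintype.card I) ≤ Fintype.card I := by
    nlinarith [Real.mul_self_sqrt (zero_le_one.trans hN)]
  have n3 : (Fintype.card I : ℝ) ≤ Fintype.card I ^ 3 := le_self_pow₀ hN (by norm_num)
  have c0 : 0 ≤ Real.sqrt (Fintype.card I) / Real.sqrt K := by positivity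
  have f := fs h.toSt (refl w * U)
  have ht : ∀ ω, Y.t (refl w * U) ω = act (refl w) (Y.t U ω) := fun ω => act_mul _ _ _
  have g := gramH (d := fun q ω => Y.u U q ω - Y.u (refl w * U) q ω)
    (cu := 2 * (Real.sqrt (Fintype.card I) / Real.sqrt K))
    ⟨f.ok, f.lv, f.inv, fun q ω => by linarith [f.bd q ω]⟩
    (fun q l ω => by simp only [f.inv q l ω, (fs h.toSt U).inv q l ω])
    (fun q ω => (abs_sub _ _).trans (by linarith [f.bd q ω, abs_u_le h.toSt U q ω]))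
    (by rw [← mul_div_assoc, div_le_iff₀ hs]; linarith) h.hγ
    (c := fun ω => 12 * (((w ⬝ᵥ Y.t U ω) ^ 2 + (w ⬝ᵥ prjHC Y.S (Y.t U ω)) ^ 2) / (w ⬝ᵥ w)))
    (fun l ω => by simp only [inv_t h.toSt U l ω]) fun a h0 h1 x y => by
      refine le_trans (le_of_eq (congrArg _ ?_)) (gram_reflHC Y.S w (Y.t U x) (Y.t U y) h0 h1)
      rw [← sum_featHC h.hK U⁻¹]
      refine sum_congr rfl fun q _ => ?_
      simp only [u_eqHC, ht, _root_.mul_inv_rev, refl_inv, act_mul, act_add, act_sub, act_smul,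
        Pi.add_apply, Pi.sub_apply, Pi.smul_apply, smul_eq_mul]
      ring
  simp only [add_sub_cancel] at g
  have er : 800 * (2 * (Real.sqrt (Fintype.card I) / Real.sqrt K)) ^ 3 *
      Fintype.card (I × Fin K) ≤ 100 := by
    have e : (2 * (Real.sqrt (Fintype.card I) / Real.sqrt K)) ^ 3 =
        8 * (Fintype.card I * Real.sqrt (Fintype.card I)) / (K * Real.sqrt K) := by
      rw [mul_pow, div_pow, pow_succ (Real.sqrt _), pow_succ (Real.sqrt K), Real.sq_sqrt hK0.le,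
        Real.sq_sqrt (Nat.cast_nonneg _)]
      ring
    rw [e, Fintype.card_prod, Fintype.card_fin]
    push_cast
    rw [show 800 * (8 * (Fintype.card I * Real.sqrt (Fintype.card I)) / (K * Real.sqrt K)) *
      ((Fintype.card I : ℝ) * K) = 6400 * (Fintype.card I ^ 2 * Real.sqrt (Fintype.card I)) /
        Real.sqrt K by field_simp; ring, div_le_iff₀ hs]
    nlinarith [mul_le_mul_of_nonneg_left n2 (sq_nonneg (Fintype.card I : ℝ))]
  have g2 := Fr_cvx (n := n) (P := Y.P) (ρ := Y.ρ) (Y.En U) fun ω => Y.H (refl w * U) ω +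
    (-(2 * (∑ l, Y.γ l ^ 2) * (12 * (((w ⬝ᵥ Y.t U ω) ^ 2 +
      (w ⬝ᵥ prjHC Y.S (Y.t U ω)) ^ 2) / (w ⬝ᵥ w)))) + tot (fld Y.s (Y.u U)) Y.γ ω)
  rw [Fr_add (Y.H (refl w * U))] at g2
  have g3 : Y.F0 (refl w * U) = _ := Fr_add (Y.H (refl w * U)) _
  have g4 : Eh n (Y.Q U) Y.ρ 0 (fun ω => -C -
      ∑ k, (w ⬝ᵥ fun i => Y.mulHC C k i * Y.t U ω i) ^ 2 / (w ⬝ᵥ w)) ≤
      Eh n (Tn n Y.P (Y.En U)) Y.ρ 0 fun ω => Y.H (refl w * U) ω +
        (-(2 * (∑ l, Y.γ l ^ 2) * (12 * (((w ⬝ᵥ Y.t U ω) ^ 2 +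
        (w ⬝ᵥ prjHC Y.S (Y.t U ω)) ^ 2) / (w ⬝ᵥ w)))) + tot (fld Y.s (Y.u U)) Y.γ ω) -
        Y.En U ω := Eh_mono fun ω => by
    have a1 := en_reflHC Y.κ (Y.b ω) w (Y.t U ω) h.κ_bd (h.b_bd ω)
    have a2 : (w ⬝ᵥ fun i => (6 + C) * Y.t U ω i) = (6 + C) * (w ⬝ᵥ Y.t U ω) :=
      dotProduct_smul (6 + C) w (Y.t U ω)
    have a3 : (w ⬝ᵥ fun i => (if i ∈ Y.S then 6 + C else 0) * Y.t U ω i) =
        (6 + C) * (w ⬝ᵥ prjHC Y.S (Y.t U ω)) := by
      simp [dotProduct, prjHC, mul_sum, mul_left_comm]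
    simp only [En, H, ht, Fin.sum_univ_three, mulHC, Matrix.cons_val_zero, Matrix.cons_val_one,
      Matrix.cons_val, a2, a3]
    have a4 := mul_le_of_le_one_left (show 0 ≤ ((w ⬝ᵥ Y.t U ω) ^ 2 +
      (w ⬝ᵥ prjHC Y.S (Y.t U ω)) ^ 2) / (w ⬝ᵥ w) by positivity) h.hγ
    have a5 : 0 ≤ (10 + 10 * C + C ^ 2) * ((w ⬝ᵥ Y.t U ω) ^ 2 / (w ⬝ᵥ w)) := by positivity
    have a6 : 0 ≤ (12 + 12 * C + C ^ 2) * ((w ⬝ᵥ prjHC Y.S (Y.t U ω)) ^ 2 / (w ⬝ᵥ w)) := by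
      positivity
    simp only [div_eq_mul_inv] at a1 a4 a5 a6 ⊢
    linarith
  rw [Eh_sub, Eh_const] at g4
  rw [F0]
  linarith

theorem smallHC (h : Y.Ok T κT X C) (hT : T.card = 0) (U V : OG I) :
    |Y.F0 U - Y.F0 V| ≤ |C| * |X| + |C| + |X| := by
  have hI : (0 : ℝ) < Fintype.card I := by exact_mod_cast h.hI
  have hX : (Fintype.card I : ℝ) ≤ -X := by simpa [hT] using h.cT
  have hS : Y.S = univ := eq_univ_of_forall fun i => by_contra fun hi => by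
    obtain ⟨B, hiB, -, -, hB⟩ := h.blk i hi
    linarith [(two_leW h.hI hB (Or.inl (card_pos.mpr ⟨i, hiB⟩))).2.1]
  have k : ∀ U ω, |Y.En U ω - (Y.G ω + Y.g ω ⬝ᵥ Y.σ ω)| ≤ (|C| * |X| + |C| + |X|) / 2 :=
    fun U ω => by
      have a1 := (sum_t_sq h.toSt U ω).trans (hX.trans (neg_le_abs X))
      have a2 : |∑ i, Y.κ i * Y.t U ω i ^ 2| ≤ |C| * |X| :=
        (abs_sum_le_sum_abs _ _).trans ((sum_le_sum fun i _ => abs_mul_le'
          ((h.κ_bd i).trans (le_abs_self C)) (abs_of_nonneg (sq_nonneg _)).le).trans (by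
            rw [← mul_sum]; exact mul_le_mul_of_nonneg_left a1 (abs_nonneg _)))
      have a3 : |∑ i, Y.b ω i * Y.t U ω i| ≤ (∑ i, Y.b ω i ^ 2 + ∑ i, Y.t U ω i ^ 2) / 2 := by
        rw [← sum_add_distrib, sum_div]
        exact (abs_sum_le_sum_abs _ _).trans (sum_le_sum fun i _ => abs_le.mpr
          ⟨by nlinarith [sq_nonneg (Y.b ω i + Y.t U ω i)],
            by nlinarith [sq_nonneg (Y.b ω i - Y.t U ω i)]⟩)
      rw [En, tot_eq, hS, H, ← act_dot U]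
      change |_ + act U (Y.g ω) ⬝ᵥ act U (Y.σ ω) - _| ≤ _
      rw [abs_le] at *
      constructor <;> linarith [a2.1, a2.2, a3.1, a3.2, h.b_bd ω, le_abs_self C]
  refine abs_Fr_sub_le fun ω => ?_
  have a := k U ω
  have b := k V ω
  rw [abs_le] at *
  constructor <;> linarith [a.1, a.2, b.1, b.2]

end Sys

theorem hc (X C : ℝ) : ∃ M : ℝ, 0 ≤ M ∧ ∀ (n K : ℕ) (Ω I : Type) [Fintype Ω] [Fintype I]
    [DecidableEq I] (Y : Sys n K Ω I) (T : Finset I) (κT : ℝ), Y.Ok T κT X C →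
    64 * (Fintype.card I : ℝ) ^ 3 ≤ Real.sqrt K →
    ∫ U, |Y.F0 U - Y.F| ∂(hr I) ≤ M * Real.sqrt (Fintype.card I) := by
  obtain ⟨M, hM, H⟩ := m4 X C
  refine ⟨Real.sqrt (4 * (100 + C) ^ 2 + 4 * 3 ^ 2 * (12 * ((6 + C) ^ 4 * M) +
    180 * ((6 + C) ^ 2 * X) ^ 2)) + (|C| * |X| + |C| + |X|), by positivity,
    fun n K Ω I _ _ _ Y T κT h hK => ?_⟩
  have hC : 0 ≤ C := (Nat.cast_nonneg _).trans h.cS
  have hN : (1 : ℝ) ≤ Fintype.card I := by exact_mod_cast h.hI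
  have cF := Y.cont_F0
  rw [add_mul]
  rcases Nat.eq_zero_or_pos T.card with h0 | h0
  · refine le_add_of_nonneg_of_le (by positivity) (le_trans ?_
      (le_mul_of_one_le_right (by positivity) (Real.one_le_sqrt.mpr hN)))
    refine int_le_const _ (by fun_prop) fun U => ?_
    have : Y.F0 U - Y.F = ∫ V, (Y.F0 U - Y.F0 V) ∂(hr I) := by
      rw [integral_sub (intg _ (by fun_prop)) (intg _ cF)]; simp [Sys.F]
    rw [this]
    exact abs_integral_le_integral_abs.trans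
      (int_le_const _ (by fun_prop) fun V => Sys.smallHC h h0 U V)
  obtain ⟨-, hX, hT⟩ := two_leW h.hI h.cT (Or.inl h0)
  have hm : ∀ k i, Y.mulHC C k i ^ 2 ≤ (6 + C) ^ 2 := fun k i => by
    fin_cases k
    · exact le_rfl
    · change Y.κ i ^ 2 ≤ _
      exact sq_le_sq' (by linarith [(abs_le.mp (h.κ_bd i)).1])
        (by linarith [(abs_le.mp (h.κ_bd i)).2])
    · change (if i ∈ Y.S then 6 + C else 0) ^ 2 ≤ _
      split_ifs
      · exact le_rfl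
      · simpa using sq_nonneg _
  have key := hconc (hr I) T h0 cF (fun V hV U => by
      rw [Sys.F0, Sys.F0, ← Sys.toW_En, ← Sys.toW_En,
        Y.toW.En_fix hV h.κ_T h.b_T (Or.inl h.TS)])
    (fun U => W.law n (Y.Q U) Y.ρ) (W.CC.law Y.cch)
    (fun k U ω i => Y.mulHC C k i * Y.t U ω i) (fun k ω => by fun_prop)
    (B := (6 + C) ^ 2 * Fintype.card I) (c := 100 + C) (M := (6 + C) ^ 4 * M)
    (fun k U ω => by
      refine le_trans (sum_le_sum fun i _ => ?_) ((mul_sum _ _ _).ge.trans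
        (mul_le_mul_of_nonneg_left (Sys.sum_t_sq h.toSt U ω) (sq_nonneg (6 + C))))
      rw [mul_pow]; exact mul_le_mul_of_nonneg_right (hm k i) (sq_nonneg _))
    (by positivity) (fun U w => by rw [W.law_E]; exact Sys.stepHC h hK U w) fun e _ k => by
      simp only [W.law_E, mul_pow, Eh_const_mul, integral_const_mul]
      refine mul_le_mul ?_ (H n K Ω I Y T κT h e)
        (integral_nonneg fun U => Eh_nonneg fun _ => by positivity) (by positivity)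
      nlinarith [hm k e, sq_nonneg (Y.mulHC C k e), sq_nonneg (6 + C)]
  refine le_add_of_le_of_nonneg (key.trans ?_) (by positivity)
  rw [Real.sqrt_mul (Nat.cast_nonneg _), mul_comm, Fintype.card_fin]
  have hT0 : (0 : ℝ) < T.card := by exact_mod_cast h0
  have : ((6 + C) ^ 2 * Fintype.card I) ^ 2 / (T.card : ℝ) ^ 2 ≤ ((6 + C) ^ 2 * X) ^ 2 := by
    rw [← div_pow, mul_div_assoc]
    exact pow_le_pow_left₀ (by positivity)
      (mul_le_mul_of_nonneg_left ((div_le_iff₀ hT0).mpr hT) (by positivity)) 2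
  refine mul_le_mul_of_nonneg_right (Real.sqrt_le_sqrt ?_) (Real.sqrt_nonneg _)
  rw [mul_div_assoc]
  push_cast
  linarith

end Vale.Agent.P166
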