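import Vale.Agent.P166.Step
import Vale.Agent.P157.LB

/-!
# P166: the lower bound
-/

namespace Vale.Agent.P166

open MeasureTheory Finset Vale.Agent.P168 Vale.Agent.P168.PW Vale.Agent.P157 Function Filter Topology
open scoped BigOperators

set_option synthInstance.maxSize 4096

theorem tot_twoLB {n : ℕ} {Ω J : Type} [Fintype Ω] [Fintype J] {P : Ch Ω} {ρ : PW Ω}
    {s : Fam (Fin (n + 1) × J) Ω} {u : J → Ω → ℝ} {H : Ω → ℝ} (h : s.Ok (Tn n P H) ρ)
    (hu : ∀ q, s.Inv (u q)) {W : ℝ} (hW : ∀ ω, ∑ q, u q ω ^ 2 ≤ W) (γ : Fin (n + 1) → ℝ) :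
    Fr n P ρ H ≤ Fr n P ρ (fun ω => H ω + tot (fld s u) γ ω) ∧
      Fr n P ρ (fun ω => H ω + tot (fld s u) γ ω) ≤ Fr n P ρ H + W * (∑ l, γ l ^ 2) / 2 := by
  have := lin_two h (v := fun m ω => γ m.1 * u m.2 ω) (fun m l ω => by simp only [hu m.2 l ω])
    (W := W * ∑ l, γ l ^ 2) fun ω => by
      simp only [Fintype.sum_prod_type, mul_pow, ← mul_sum, ← sum_mul]
      rw [mul_comm W]
      exact mul_le_mul_of_nonneg_left (hW ω) (sum_nonneg fun _ _ => sq_nonneg _)
  simpa only [tot, fld, Fintype.sum_prod_type, mul_sum, mul_left_comm (γ _)] using this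

section
variable {n K : ℕ} {I 𝒞 : Type} [Fintype I] [DecidableEq I] [DecidableEq 𝒞]

variable (n K) in
/-- The free energy without fields. -/
noncomputable def bareLB (κ : I → ℝ) (U : OG I) : ℝ :=
  Fr n (Pa n K I) (ρa n K I) fun ω => (∑ i, κ i * act U (fun a => sp (ω.1 a)) i ^ 2) / 2

theorem cont_bareLB (κ : I → ℝ) : Continuous (bareLB n K κ) :=
  cont_Fr n _ _ fun ω => by fun_prop

omit [DecidableEq 𝒞] in
theorem sum_spinLB (U : OG I) (σ : I → Bool) :
    ∑ i, act U (fun a => sp (σ a)) i ^ 2 = Fintype.card I := by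
  rw [sum_act_sq]; simp [sq, sp_sq]

theorem sy_twoLB (hK : 0 < K) (cl : I → 𝒞) (κ : 𝒞 → ℝ) (top : 𝒞) (b : Fin (n + 1) → ℝ)
    {π : Option (Fin (n + 1)) → ℝ} (h0 : 0 ≤ π none) (h : ∑ l, π (some l) ^ 2 ≤ 1) (U : OG I) :
    bareLB n K (fun i => κ (cl i)) U ≤ (sy K cl κ top (fun _ => b) π).F0 U ∧
      (sy K cl κ top (fun _ => b) π).F0 U ≤ bareLB n K (fun i => κ (cl i)) U +
        Fintype.card I * (π none + ∑ l, b l ^ 2 + ∑ l, π (some l) ^ 2) / 2 := by
  have st := sy_st hK cl κ top (fun _ => b) h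
  have a3 := tot_twoLB (Sys.fs st U).ok (Sys.fs st U).inv (Sys.sum_u_sq st U) fun l => π (some l)
  have a2 := tot_twoLB (n := n) (P := Pa n K I) (ρ := ρa n K I) (s := fam n K 0 id)
    (H := fun ω => (∑ i, ka κ top (π none) (cl i) * act U (fun a => sp (ω.1 a)) i ^ 2) / 2)
    (u := fun q ω => sp (ω.1 q.1) / Real.sqrt K) ((fam_ok 0 injective_id).Tn fun _ _ => rfl)
    (fun _ _ _ => rfl) (W := Fintype.card I) (fun ω => le_of_eq (by
      simp only [sq]
      rw [sum_vec hK (fun a => sp (ω.1 a)) fun a => sp (ω.1 a)]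
      simp [sp_sq])) b
  have e : (sy K cl κ top (fun _ => b) π).H U = fun ω =>
      (∑ i, ka κ top (π none) (cl i) * act U (fun a => sp (ω.1 a)) i ^ 2) / 2 +
        tot (fld (fam n K 0 id) fun q ω => sp (ω.1 q.1) / Real.sqrt K) b ω := funext fun ω => by
    simp only [tot_Gx, Sys.H, sy, gen, zero_mul, sum_const_zero, add_zero]
    rfl
  have a1 : bareLB n K (fun i => κ (cl i)) U ≤ Fr n (Pa n K I) (ρa n K I) fun ω =>
      (∑ i, ka κ top (π none) (cl i) * act U (fun a => sp (ω.1 a)) i ^ 2) / 2 :=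
    Fr_mono fun ω => div_le_div_of_nonneg_right (sum_le_sum fun i _ =>
      mul_le_mul_of_nonneg_right (by unfold ka; split_ifs <;> linarith) (sq_nonneg _)) zero_le_two
  have a0 : (Fr n (Pa n K I) (ρa n K I) fun ω =>
      (∑ i, ka κ top (π none) (cl i) * act U (fun a => sp (ω.1 a)) i ^ 2) / 2) ≤
      bareLB n K (fun i => κ (cl i)) U + Fintype.card I * π none / 2 := by
    rw [bareLB, ← Fr_add_const]
    refine Fr_mono fun ω => ?_
    rw [← sum_spinLB U ω.1, sum_mul, ← add_div, ← sum_add_distrib]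
    refine div_le_div_of_nonneg_right (sum_le_sum fun i _ => ?_) zero_le_two
    rw [mul_comm _ (π none), ← add_mul]
    exact mul_le_mul_of_nonneg_right (by unfold ka; split_ifs <;> linarith) (sq_nonneg _)
  rw [← e] at a2
  exact ⟨a1.trans (a2.1.trans a3.1), a3.2.trans (by
    have := a2.2
    change Fr n (Pa n K I) (ρa n K I) _ + _ ≤ _
    linarith)⟩

theorem bare_geLB {κ : I → ℝ} {C : ℝ} (h : ∀ i, |κ i| ≤ C) (U : OG I) :
    -(C / 2 * Fintype.card I) ≤ bareLB n K κ U := by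
  rw [← Fr_const (n := n) (P := Pa n K I) (ρ := ρa n K I) (-(C / 2 * Fintype.card I))]
  refine Fr_mono fun ω => ?_
  rw [← sum_spinLB U ω.1, mul_sum, ← sum_neg_distrib, sum_div]
  exact sum_le_sum fun i _ => by
    nlinarith [(abs_le.mp (h i)).1, sq_nonneg (act U (fun a => sp (ω.1 a)) i)]

theorem press_bareLB {N : ℕ} (hN : 0 < N) (β : ℝ) (lam : Fin N → ℝ) :
    N * ∫ U, press β lam U ∂(hr (Fin N)) =
      ∫ U, bareLB n K (fun i => β * lam i) U ∂(hr (Fin N)) := by
  rw [← integral_const_mul]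
  refine integral_congr_ae (.of_forall fun U => (press_eq (n := n) (K := K) hN β lam ∅ U).trans ?_)
  refine congrArg (Fr n (Pa n K _) (ρa n K _)) (funext fun ω => ?_)
  simp [En_gen, Gx]

end

theorem lbF {𝒞 : Type} [Fintype 𝒞] [DecidableEq 𝒞] {w lam : 𝒞 → ℝ} {top : 𝒞}
    (h : Cls w lam top) {β : ℝ} (hβ : 0 ≤ β) {ε : ℝ} (hε : 0 < ε) : ∃ n0 : ℕ, ∀ n, n0 ≤ n →
    ∀ L ∈ lowerBounds (trial (Rf w lam (lam top)) β n), ∀ cl : ∀ N : ℕ, Fin N → 𝒞,
      (∀ j, Tendsto (fun N => fq (cl N) j) atTop (𝓝 (w j))) →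
      ∀ᶠ N in atTop, L - ε ≤ ∫ U, press β (fun i => lam (cl N i)) U ∂(hr (Fin N)) := by
  have h8 : 0 < ε / 8 := by positivity
  obtain ⟨ω, hω, hs⟩ := step h hβ h8
  obtain ⟨Q, n1, hQ⟩ := coarse hω
  obtain ⟨η1, ⟨⟨a1, a2⟩, a3⟩, hη1⟩ := ((((ev_small (Q : ℝ) h8).and
    (ev_small (Q : ℝ) (show 0 < 1 / 4 by norm_num))).and (ev_small 1 one_pos)).and
    self_mem_nhdsWithin).exists
  replace hη1 : 0 < η1 := hη1
  obtain ⟨δ, hδ, n0, hs⟩ := hs η1 hη1
  refine ⟨max n0 n1, fun n hn L hL cl hcl => ?_⟩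
  obtain ⟨T, hT, hQ⟩ := hQ n (le_of_max_le_right hn)
  obtain ⟨η0, hη0, hs⟩ := hs n (le_of_max_le_left hn)
  obtain ⟨η, ⟨⟨⟨⟨b1, b2⟩, b3⟩, b4⟩, b5⟩, hη⟩ := ((((((ev_small 1 hη0).and (ev_small 2 h8)).and
    (ev_small 2 one_pos)).and (ev_small ((n + 1 : ℝ) * 2) h8)).and
    (ev_small ((n + 1 : ℝ) * 2) one_pos)).and self_mem_nhdsWithin).exists
  replace hη : 0 < η := hη
  have b6 : (n + 1 : ℝ) * (2 * η) ^ 2 ≤ (n + 1) * 2 * η := by
    rw [sq, ← mul_assoc, mul_assoc _ 2 η]
    exact mul_le_of_le_one_right (by positivity) b3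
  obtain ⟨M, hM, hs⟩ := hs η hη (by linarith)
  obtain ⟨R, hR1, hR⟩ := (((tendsto_const_div_atTop_nhds_zero_nat (M * (12 * (n + 2)))
    ).eventually_le_const h8).and (eventually_gt_atTop 0)).exists
  have : NeZero R := ⟨hR.ne'⟩
  have hR' : (1 : ℝ) ≤ R := by exact_mod_cast hR
  have hs0 : 0 < η / R := by positivity
  obtain ⟨C, hC, N0, hs⟩ := hs (η / R) hs0 (div_le_self hη.le hR')
  choose! K0 hs using hs
  obtain ⟨b, hb⟩ : ∃ b : ℕ → ℝ, b = fun l => if l ∈ T then η1 else 0 := ⟨_, rfl⟩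
  have sb : ∑ l : Fin (n + 1), b l ^ 2 ≤ Q * η1 := by
    have : ∑ l : Fin (n + 1), (if (l : ℕ) ∈ T then η1 else 0) ≤ Q * η1 := by
      rw [← sum_filter, sum_const, nsmul_eq_mul]
      gcongr
      exact (card_le_card_of_injOn (fun l : Fin (n + 1) => (l : ℕ)) (fun l hl => by simpa using hl)
        fun a _ b _ h => Fin.ext h).trans hT
    refine (sum_le_sum fun l _ => ?_).trans this
    simp only [hb]
    split_ifs
    · nlinarith
    · simp
  obtain ⟨C', hC', c1, c2⟩ : ∃ C' : ℝ, 0 ≤ C' ∧ C ≤ C' ∧ ∀ j, |β * lam j| ≤ 2 * C' := by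
    have k := fun j => single_le_sum (f := fun j => |β * lam j|) (fun _ _ => abs_nonneg _)
      (mem_univ j)
    have k0 : 0 ≤ ∑ j, |β * lam j| := sum_nonneg fun _ _ => abs_nonneg _
    exact ⟨C + ∑ j, |β * lam j|, by positivity, by linarith, fun j => by linarith [k j]⟩
  obtain ⟨θ, c3, hθ⟩ := ((ev_small (|L - ε / 4| + C') h8).and self_mem_nhdsWithin).exists
  replace hθ : 0 < θ := hθ
  obtain ⟨N1, hg⟩ := greedy w (L - ε / 4) hδ hθ h8 hC'
  have hπ : ∀ z : Option (Fin (n + 1)) → Fin R,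
      ∑ l, wz η z (some l) ^ 2 ≤ (n + 1) * (2 * η) ^ 2 := fun z =>
    sum_sq_le_of_mem fun j => by constructor <;> linarith [wz_mem hη.le z j]
  filter_upwards [eventually_ge_atTop N1, eventually_gt_atTop 0,
    (tendsto_natCast_atTop_atTop.const_mul_atTop hθ).eventually_ge_atTop ((N0 : ℝ) + 1),
    eventually_all.2 fun j => (Metric.tendsto_nhds.1 (hcl j)) (δ / 2) (by positivity)]
    with N hN1 hN hθN hf
  obtain ⟨K, hK, hK'⟩ : ∃ K, 0 < K ∧ ∀ s, s < N → K0 s ≤ K :=
    ⟨∑ s ∈ range N, K0 s + 1, Nat.succ_pos _, fun s hs => Nat.le_succ_of_le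
      (single_le_sum (f := K0) (fun _ _ => Nat.zero_le _) (mem_range.2 hs))⟩
  have two := fun s (c : Fin s → 𝒞) (z : Option (Fin (n + 1)) → Fin R) =>
    sy_twoLB hK c (fun j => β * lam j) top (fun l => b l) (π := wz η z)
      (hη.le.trans (wz_mem hη.le z none).1) ((hπ z).trans (b6.trans b5))
  have key := hg N hN1 (fun s c => (unif (Option (Fin (n + 1)) → Fin R)).E fun z =>
    (sy K c (fun j => β * lam j) top (fun _ l => b l) (wz η z)).F) (cl N)
    (fun j => (hf j).le) (fun s c => by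
      rw [← E_const (unif (Option (Fin (n + 1)) → Fin R)) (-(C' * s))]
      refine E_mono _ fun z => ?_
      have := int_mono (hr (Fin s)) continuous_const (Sys.cont_F0 _) fun U =>
        (bare_geLB (fun i => c2 (c i)) U).trans (two s c z U).1
      simpa [Sys.F] using this) fun s h1 h2 c hc => by
      have s1 : (N0 : ℝ) + 1 ≤ s := hθN.trans h1
      have s2 : N0 ≤ s := by exact_mod_cast (by linarith : (N0 : ℝ) ≤ s)
      have s3 : (1 : ℝ) ≤ s := by linarith [Nat.cast_nonneg (α := ℝ) N0]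
      have k := fun z : Option (Fin (n + 1)) → Fin R => hs s s2 K (hK' s h2) c b (wz η z) hc
        (sb.trans a2) (fun l hl => by
          obtain ⟨l0, d1, d2, d3, d4⟩ := hQ l hl
          exact ⟨l0, d2, d3, by simp [hb, d1], d4⟩) (wz_mem hη.le z)
      constructor
      · have k1 := E_mono (unif (Option (Fin (n + 1)) → Fin R)) fun z => (k z).1 L hL
        simp only [E_sub, E_add, E_const, E_const_mul, E_div_const, E_sum] at k1
        have k2 := avsd (R := R) hK c (fun j => β * lam j) top (fun _ l => b l) hη.le (b6.trans b5)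
        have k3 : (n + 2 : ℝ) * (6 * Fintype.card (Fin (s + 1)) * (η / R) / R) / (η / R * s) ≤
            12 * (n + 2) / R := by
          rw [Fintype.card_fin, div_le_iff₀ (by positivity)]
          push_cast
          have : 0 ≤ (n + 2 : ℝ) * (η / R) / R * (6 * (s - 1)) :=
            mul_nonneg (by positivity) (by linarith)
          calc _ = 12 * (n + 2) / R * (η / R * s) - (n + 2 : ℝ) * (η / R) / R * (6 * (s - 1)) := by
                ring
            _ ≤ _ := by linarith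
        have k4 := mul_le_mul_of_nonneg_left
          ((div_le_div_of_nonneg_right k2 (by positivity)).trans k3) hM
        rw [← mul_div_assoc M (12 * _)] at k4
        linarith
      · intro i
        rw [← E_add_const]
        refine E_mono _ fun z => ((k z).2 i).trans (add_le_add le_rfl ?_)
        exact mul_le_mul c1 (Real.sqrt_le_sqrt (by exact_mod_cast h2.le)) (Real.sqrt_nonneg _) hC'
  have up : (unif (Option (Fin (n + 1)) → Fin R)).E (fun z =>
      (sy K (cl N) (fun j => β * lam j) top (fun _ l => b l) (wz η z)).F) ≤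
      N * (∫ U, press β (fun i => lam (cl N i)) U ∂(hr (Fin N)) + ε / 4) := by
    refine E_le_const _ fun z => ?_
    rw [mul_add, press_bareLB (n := n) (K := K) hN]
    have c0 := cont_bareLB (n := n) (K := K) fun i => β * lam (cl N i)
    refine (int_mono _ (Sys.cont_F0 _) (g := fun U =>
      bareLB n K (fun i => β * lam (cl N i)) U + N * (ε / 4)) (by fun_prop) fun U =>
        (two N (cl N) z U).2.trans (add_le_add le_rfl ?_)).trans_eq ?_
    · rw [Fintype.card_fin, mul_div_assoc]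
      exact mul_le_mul_of_nonneg_left (by linarith [wz_mem hη.le z none, hπ z]) (Nat.cast_nonneg _)
    · rw [integral_add (intg _ c0) (integrable_const _)]; simp
  have := le_of_mul_le_mul_left (key.trans up) (by exact_mod_cast hN)
  linarith

end Vale.Agent.P166
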