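import Vale.Agent.P166.UB1

/-!
# P166: the scalar inequality of the lower bound
-/

namespace Vale.Agent.P166

open MeasureTheory Finset Vale.Agent.P168 Vale.Agent.P168.PW Vale.Agent.P157 Function Filter Topology
open scoped BigOperators

section
variable {𝒞 : Type} [Fintype 𝒞] {w lam : 𝒞 → ℝ} {top : 𝒞}

theorem Rf_scaleLB1 (h : Cls w lam top) {β x : ℝ} (hβ : 0 ≤ β) (hx : 0 ≤ x) :
    β * Rf w lam (lam top) (max (β * (x * uf w (fun j => β * (lam top - lam j)) x)) 0) =
      β * lam top - vf w (fun j => β * (lam top - lam j)) x /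
        uf w (fun j => β * (lam top - lam j)) x := by
  have h1 := mul_nonneg hβ hx
  rw [scaleUB1, max_eq_left (mul_nonneg h1 (uf_posFn h.pvFn h.gapFn h1).le), Rf, xi_yf h h1,
    mul_sub, ← mul_div_assoc]
  simp only [uf, vf, mul_sum]
  congr 2 <;> exact sum_congr rfl fun j _ => by ring

theorem Rf_contLB1 (h : Cls w lam top) {β : ℝ} :
    Continuous fun t => β * Rf w lam (lam top) (max (β * t) 0) :=
  continuous_const.mul ((Rf_cont h).comp_continuous (by fun_prop) fun t => le_max_right (β * t) 0)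

theorem primLB1 (h : Cls w lam top) {β x : ℝ} (hβ : 0 ≤ β) (hx : 0 ≤ x) :
    ∫ t in (0 : ℝ)..x * uf w (fun j => β * (lam top - lam j)) x,
      β * Rf w lam (lam top) (max (β * t) 0) =
      β * lam top * (x * uf w (fun j => β * (lam top - lam j)) x) +
        uf w (fun j => β * (lam top - lam j)) x - 1 -
        (Real.log (uf w (fun j => β * (lam top - lam j)) x) +
          ∑ j, w j * Real.log (1 + β * (lam top - lam j) * x)) := by
  have hc : ∀ j, 0 ≤ β * (lam top - lam j) := fun j => mul_nonneg hβ (h.gapFn j)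
  have hR := fun x => Rf_scaleLB1 h hβ (x := x)
  set c : 𝒞 → ℝ := fun j => β * (lam top - lam j)
  have d1 : ∀ t, 0 ≤ t → HasDerivAt (fun x => ∫ t in (0 : ℝ)..x * uf w c x,
      β * Rf w lam (lam top) (max (β * t) 0))
      ((β * lam top - vf w c t / uf w c t) * (1 * uf w c t + t * -duFn w c t)) t := fun t ht =>
    hR t ht ▸ ((Rf_contLB1 h).integral_hasStrictDerivAt 0 _).hasDerivAt.comp t
      ((hasDerivAt_id' t).mul (uf_derivFn w hc ht))
  have d2 : ∀ t, 0 ≤ t → HasDerivAt (fun x => β * lam top * (x * uf w c x) + uf w c x - 1 -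
      (Real.log (uf w c x) + ∑ j, w j * Real.log (1 + c j * x)))
      ((β * lam top - vf w c t / uf w c t) * (1 * uf w c t + t * -duFn w c t)) t := fun t ht => by
    refine ((((((hasDerivAt_id' t).mul (uf_derivFn w hc ht)).const_mul (β * lam top)).add
      (uf_derivFn w hc ht)).sub_const 1).sub ((log_derivFn h.pvFn hc ht).add
      (HasDerivAt.fun_sum fun j (_ : j ∈ univ) => ((((hasDerivAt_id' t).const_mul
        (c j)).const_add 1).log (denFn (hc j) ht).ne').const_mul (w j)))).congr_deriv ?_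
    have e1 : ∑ j, w j * (c j * 1 / (1 + c j * t)) = vf w c t :=
      sum_congr rfl fun j _ => by ring
    have e2 := uf_add h.pvFn hc ht
    have e3 := uf_posFn h.pvFn hc ht
    have e4 := mul_inv_cancel₀ e3.ne'
    rw [e1, div_eq_mul_inv]
    linear_combination (vf w c t + duFn w c t) * e4 - duFn w c t * (uf w c t)⁻¹ * e2
  exact eq_of_has_deriv_right_eq (a := 0) (b := x) (fun t ht => (d1 t ht.1).hasDerivWithinAt)
    (fun t ht => (d2 t ht.1).hasDerivWithinAt)
    (fun t ht => (d1 t ht.1).continuousAt.continuousWithinAt)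
    (fun t ht => (d2 t ht.1).continuousAt.continuousWithinAt) (by simp [uf_zero h.pvFn]) x
    ⟨hx, le_rfl⟩

end

theorem lb1 {𝒞 : Type} [Fintype 𝒞] {w lam : 𝒞 → ℝ} {top : 𝒞} (h : Cls w lam top) {β : ℝ}
    (hβ : 0 ≤ β) (X : ℝ) {ε : ℝ} (hε : 0 < ε) : ∃ e0 : ℝ, 0 < e0 ∧
    ∀ (n : ℕ) (p r ρ : ℕ → ℝ) (a κ : 𝒞 → ℝ), Adm n p → Pr n X r → Pv a →
      (∀ j, |a j - w j| ≤ e0) → (∀ j, κ j ≤ κ top ∧ |κ j - β * lam j| ≤ e0) →
      nm n (fun l => ρ l - ∑ j, a j * zc n (κ top - κ j) r l) ≤ e0 → ρ 0 = 1 →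
      (∀ l, l ≤ n + 1 → |cum n p l - cum n ρ l| ≤ e0) →
      orth (Rf w lam (lam top)) β n p ≤ (∑ j, a j * κ j) / 2 +
        (fc n (psi a fun j => κ top - κ j) r 0 / 2 - wt n * (∑ j ∈ Icc 1 (n + 1),
          ρ j * fc n (psi a fun j => κ top - κ j) r j) / 2) -
        fc n (fun x => Real.log (uf a (fun j => κ top - κ j) x) +
          ∑ j, a j * Real.log (1 + (κ top - κ j) * x)) r 0 / 2 + ε := by
  set C := ∑ j, |lam j| with hC'
  have hC : ∀ j, |lam j| ≤ C := fun j => single_le_sum (fun j _ => abs_nonneg (lam j)) (mem_univ j)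
  have hC0 : 0 ≤ C := (abs_nonneg _).trans (hC top)
  obtain ⟨δ, hδ, hu⟩ := ucUB1 (Rf_contLB1 h (β := β)) 1 hε
  obtain ⟨L, hL0, hL⟩ := fn_lip (β * (2 * C) + 2) X
  set N : ℝ := (Fintype.card 𝒞 : ℝ) with hN
  have hN0 : 0 ≤ N := Nat.cast_nonneg _
  set K := 1 + N * (16 * X ^ 2 + 2 * X) with hK
  obtain ⟨e, ⟨⟨e1, e2⟩, e3⟩, e0⟩ := (((((smallUB1 1 one_pos).and (smallUB1 (1 + 2 * K)
    hδ.1)).and (smallUB1 (N * (1 + β * C) + 2 * (β * C * K) + (7 * (L * X) * K +
      7 * (L * (3 * N) * X) * (2 * X)) + (L * (3 * N) + N * (β * (2 * C) + 2 + 2)) * X)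
      hε)).filter_mono nhdsWithin_le_nhds).and
        (self_mem_nhdsWithin (s := Set.Ioi (0 : ℝ)))).exists
  refine ⟨e, e0, fun n p r ρ a κ hp hr ha haw hκ hρ h1 h2 => ?_⟩
  have e0 : 0 < e := e0
  have hX : 0 ≤ X := (hr.mem (Nat.zero_le _)).1.trans hr.le
  set c : 𝒞 → ℝ := fun j => κ top - κ j with hc'
  set c0 : 𝒞 → ℝ := fun j => β * (lam top - lam j) with hc0'
  have hcc : ∀ j, |c j - c0 j| ≤ 2 * e := fun j => abs_le.2 (by
    simp only [hc', hc0']
    constructor <;> linarith [abs_le.1 (hκ j).2, abs_le.1 (hκ top).2])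
  have hc0 : ∀ j, 0 ≤ c0 j ∧ c0 j ≤ β * (2 * C) := fun j => ⟨mul_nonneg hβ (h.gapFn j),
    mul_le_mul_of_nonneg_left (by linarith [abs_le.1 (hC j), abs_le.1 (hC top)]) hβ⟩
  have hc : ∀ j, 0 ≤ c j ∧ c j ≤ β * (2 * C) + 2 := fun j => ⟨sub_nonneg.2 (hκ j).1, by
    linarith [abs_le.1 (hcc j), (hc0 j).2]⟩
  have hc1 : ∀ j, 0 ≤ c0 j ∧ c0 j ≤ β * (2 * C) + 2 := fun j => ⟨(hc0 j).1, by
    linarith [(hc0 j).2]⟩
  have ha1 : ∀ a : 𝒞 → ℝ, Pv a → ∀ j, |a j| ≤ 1 := fun a ha j => by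
    rw [abs_of_nonneg (ha.1 j)]
    exact ha.2 ▸ single_le_sum (fun j _ => ha.1 j) (mem_univ j)
  have hδ1 : ∑ j, |a j - w j| + ∑ j, |c j - c0 j| ≤ 3 * N * e :=
    (add_le_add (sum_le_sum fun j _ => haw j) (sum_le_sum fun j _ => hcc j)).trans_eq (by
      simp only [sum_const, card_univ, nsmul_eq_mul, ← hN]; ring)
  obtain ⟨hr0, hz, hcomp⟩ := r0UB1 h.pvFn hr fun j => (hc0 j).1
  have hconv := conv_fc (n := n) (f := fun x => x * uf w c0 x) (g := psi w c0) (zero_mul _)
    (psi_zero h.pvFn _) r (Nat.zero_le _)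
  set r0 := fc n (fun x => x * uf w c0 x) r with hr0'
  have n2 : nm n (fun l => ρ l - r0 l) ≤ K * e := by
    have t1 := nm_add_le (n := n) (fun l => ρ l - ∑ j, a j * zc n (c j) r l)
      fun l => ∑ j, (a j * zc n (c j) r l - w j * zc n (c0 j) r l)
    have t2 := (nm_sum_le _ _).trans (sum_le_sum fun j (_ : j ∈ univ) => nm_mixUB1 hr
      ((ha1 a ha j).trans one_le_two) (haw j) (hc j).1 (hc0 j).1 (hcc j))
    rw [nm_congr (b := fun l => ρ l - ∑ j, a j * zc n (c j) r l + ∑ j, (a j * zc n (c j) r l -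
      w j * zc n (c0 j) r l)) fun l _ => by rw [hz, sum_sub_distrib]; ring]
    simp only [sum_const, card_univ, nsmul_eq_mul, ← hN] at t2
    linarith
  have n3 : |r0 0 - 1| ≤ K * e := by
    rw [abs_sub_comm, ← h1]
    exact (abs_zero_le_nm (fun l => ρ l - r0 l)).trans n2
  have n4 : ∀ l ≤ n + 1, |cum n p l - cum n r0 l| ≤ (1 + K) * e := fun l hl =>
    (abs_sub_le _ _ _).trans ((add_le_add (h2 l hl) ((abs_cum_sub_le_nm ρ r0 hl).trans
      n2)).trans_eq (by ring))
  have n5 : ∀ q, |chiq n r0 q + (r0 0 - 1) - chiq n p q| ≤ δ := fun q => abs_le.2 (by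
    have t1 := chiq_le hp.2 (fun l hl => sub_le_iff_le_add'.1 (abs_le.1 (n4 l hl)).2) q
    have t2 := chiq_le hr0.mono (r := p) (e := (1 + K) * e)
      (fun l hl => by linarith [(abs_le.1 (n4 l hl)).1]) q
    constructor <;> linarith [abs_le.1 n3])
  have n6 := fc_int hr0 (f := fun y => ∫ t in (0 : ℝ)..y, β * Rf w lam (lam top) (max (β * t) 0))
    (fun y _ => ((Rf_contLB1 h).integral_hasStrictDerivAt 0
      y).hasDerivAt.continuousAt.continuousWithinAt) (Rf_contLB1 h).continuousOn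
    fun y _ _ => ((Rf_contLB1 h).integral_hasStrictDerivAt 0 y).hasDerivAt
  have n7 := int_cmpUB1 (t := r0 0) (C := β * C) (ω := ε)
    (f := fun q => -(β * Rf w lam (lam top) (max (β * (chiq n r0 q + (r0 0 - 1))) 0)))
    (g := fun q => -(β * Rf w lam (lam top) (max (β * chiq n p q) 0)))
    ((Rf_contLB1 h).comp ((chiq_cont n r0).add continuous_const)).neg
    ((Rf_contLB1 h).comp (chiq_cont n p)).neg (fun q => by
      rw [abs_neg, abs_mul, abs_of_nonneg hβ]
      exact mul_le_mul_of_nonneg_left (abs_Rf_le h hC _) hβ) fun q hq => by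
      linarith [(abs_le.1 (hu _ (chiq_mem hp hq.1 hq.2) _ (n5 q))).1]
  have n8 : ∫ q in (0 : ℝ)..1, β * Rf w lam (lam top) (max (β * chiq n p q) 0) =
      2 * orth (Rf w lam (lam top)) β n p := by
    rw [orth, ← mul_assoc, mul_div_cancel₀ _ two_ne_zero, ← intervalIntegral.integral_const_mul]
    refine intervalIntegral.integral_congr fun q hq => ?_
    rw [Set.uIcc_of_le zero_le_one] at hq
    simp only [max_eq_left (mul_nonneg hβ (chiq_mem hp hq.1 hq.2).1)]
  rw [intervalIntegral.integral_neg, intervalIntegral.integral_neg, ← n6, n8, hcomp,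
    fc_congr hr (g := fun x => x * uf w c0 x * psi w c0 x - (Real.log (uf w c0 x) +
      ∑ j, w j * Real.log (1 + c0 j * x)) + (∑ j, w j * (β * lam j)) * (x * uf w c0 x))
      (fun x hx _ => ?_), fc_add, fc_sub, fc_const_mul, ← hconv, ← hr0'] at n7
  swap
  · have t1 := uf_add h.pvFn (fun j => (hc0 j).1) hx
    have t2 := uf_posFn h.pvFn (fun j => (hc0 j).1) hx
    have t3 : ∑ j, w j * c0 j = β * lam top - ∑ j, w j * (β * lam j) := by
      simp only [hc0', mul_sub, sum_sub_distrib, ← sum_mul, h.sum, one_mul]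
    rw [primLB1 h hβ hx, psi, t3, mul_sub, mul_div_assoc',
      mul_right_comm x _ (vf _ _ _), mul_div_cancel_right₀ _ t2.ne']
    linear_combination t1
  have m1 : |∑ j, w j * (β * lam j)| ≤ β * C := by
    refine (abs_sum_le_sum_abs _ _).trans ((sum_le_sum (g := fun j => w j * (β * C))
      fun j _ => ?_).trans_eq (by rw [← sum_mul, h.sum, one_mul]))
    rw [abs_mul, abs_mul, abs_of_pos (h.pos j), abs_of_nonneg hβ]
    exact mul_le_mul_of_nonneg_left (mul_le_mul_of_nonneg_left (hC j) hβ) (h.pos j).le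
  have m2 : |(∑ j, w j * (β * lam j)) * (r0 0 - 1)| ≤ β * C * (K * e) := by
    rw [abs_mul]
    exact mul_le_mul m1 n3 (abs_nonneg _) (by positivity)
  have m3 : ∑ j, w j * (β * lam j) - ∑ j, a j * κ j ≤ N * (e + e * (β * C)) := by
    rw [← sum_sub_distrib]
    refine (sum_le_sum (g := fun _ => e + e * (β * C)) fun j _ => ?_).trans_eq
      (by simp [hN, mul_add])
    have t1 : |a j * (κ j - β * lam j)| ≤ 1 * e := by
      rw [abs_mul]
      exact mul_le_mul (ha1 a ha j) (hκ j).2 (abs_nonneg _) zero_le_one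
    have t2 : |(a j - w j) * (β * lam j)| ≤ e * (β * C) := by
      rw [abs_mul, abs_mul, abs_of_nonneg hβ]
      exact mul_le_mul (haw j) (mul_le_mul_of_nonneg_left (hC j) hβ) (by positivity) e0.le
    linarith [abs_le.1 t1, abs_le.1 t2]
  have hL' := hL 𝒞 a w c c0 ha h.pvFn hc hc1
  have m4 : |conv n (fun l => ρ l - r0 l) (fc n (psi a c) r) 0| ≤ 7 * (L * X) * (K * e) :=
    (abs_zero_le_nm _).trans ((nm_conv_le (fun j hj => (fc_lip hr (fun x y h1 h2 h3 =>
      (hL' x y h1 h2 h3).1) hj).trans (mul_le_mul_of_nonneg_left (hr.mem hj).2 hL0)) _).trans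
      (by gcongr))
  have m5 : |conv n r0 (fc n (fun x => psi a c x - psi w c0 x) r) 0| ≤
      7 * (L * (3 * N * e) * X) * (2 * X) :=
    (abs_zero_le_nm _).trans ((nm_conv_le (fun j hj => (fc_lip hr (L := L * (3 * N * e))
      (fun x y h1 h2 h3 => (hL' x y h1 h2 h3).2.2.1.trans (by gcongr)) hj).trans
      (mul_le_mul_of_nonneg_left (hr.mem hj).2 (by positivity))) _).trans
      (mul_le_mul_of_nonneg_left (nm_le_of_bd fun j hj => by
        rw [abs_of_nonneg (hr0.mem hj).1]; exact (hr0.mem hj).2) (by positivity)))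
  have m6 : |fc n (fun x => Real.log (uf a c x) + ∑ j, a j * Real.log (1 + c j * x) -
      (Real.log (uf w c0 x) + ∑ j, w j * Real.log (1 + c0 j * x))) r 0| ≤
        (L * (3 * N * e) + N * (e * (β * (2 * C) + 2) + 2 * e)) * X := by
    refine (fc_lip hr (fun x y h1 h2 h3 => ?_) (Nat.zero_le _)).trans
      (mul_le_mul_of_nonneg_left hr.le (by positivity))
    have t0 := sub_nonneg.2 h2
    have t1 := (hL' x y h1 h2 h3).2.2.2.trans (show _ ≤ L * (3 * N * e) * (y - x) by gcongr)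
    have t2 : |∑ j, (a j * Real.log (1 + c j * y) - w j * Real.log (1 + c0 j * y) -
        (a j * Real.log (1 + c j * x) - w j * Real.log (1 + c0 j * x)))| ≤
        N * ((e * (β * (2 * C) + 2) + 2 * e) * (y - x)) := by
      refine (abs_sum_le_sum_abs _ _).trans ((sum_le_sum (g := fun _ =>
        (e * (β * (2 * C) + 2) + 2 * e) * (y - x)) fun j _ => ?_).trans_eq (by simp [hN]))
      have s := log_lip (hc j).1 (hc0 j).1 h1 h2
      rw [show a j * Real.log (1 + c j * y) - w j * Real.log (1 + c0 j * y) -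
        (a j * Real.log (1 + c j * x) - w j * Real.log (1 + c0 j * x)) =
        (a j - w j) * (Real.log (1 + c j * y) - Real.log (1 + c j * x)) +
        w j * (Real.log (1 + c j * y) - Real.log (1 + c0 j * y) -
          (Real.log (1 + c j * x) - Real.log (1 + c0 j * x))) by ring, add_mul, mul_assoc e]
      refine (abs_add_le _ _).trans (add_le_add ?_ ?_) <;> rw [abs_mul]
      · exact mul_le_mul (haw j) (s.1.trans (mul_le_mul_of_nonneg_right (hc j).2 t0))
          (abs_nonneg _) e0.le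
      · exact (mul_le_of_le_one_left (abs_nonneg _) (ha1 w h.pvFn j)).trans
          (s.2.trans (mul_le_mul_of_nonneg_right (hcc j) t0))
    simp only [sum_sub_distrib] at t2
    exact abs_le.2 ⟨by linarith [abs_le.1 t1, abs_le.1 t2], by linarith [abs_le.1 t1, abs_le.1 t2]⟩
  have m7 := mul_le_mul_of_nonneg_left n3 (mul_nonneg hβ hC0)
  simp only [conv_zero, fc_sub, h1, sub_mul, mul_sub, sum_sub_distrib] at m2 m4 m5 m6 n7
  linarith [abs_le.1 m2, abs_le.1 m4, abs_le.1 m5, abs_le.1 m6]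

end Vale.Agent.P166
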