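import Vale.Agent.P166.UB
import Vale.Agent.P166.LB
import Vale.Agent.P166.Approx
import Vale.Agent.P157.MainI

/-!
# P166: the limit of the pressure
-/

namespace Vale.Agent.P166

open MeasureTheory Finset Vale.Agent.P168 Vale.Agent.P168.PW Vale.Agent.P157 Function Filter Topology
open scoped BigOperators

set_option synthInstance.maxSize 4096

theorem quad_eqMain {N : ℕ} (lam : Fin N → ℝ) (U : OG (Fin N)) (x : Fin N → ℝ) :
    x ⬝ᵥ Matrix.mulVec (U.1.transpose * Matrix.diagonal lam * U.1) x =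
      ∑ i, lam i * act U x i ^ 2 := by
  rw [← Matrix.mulVec_mulVec, ← Matrix.mulVec_mulVec, Matrix.dotProduct_mulVec,
    Matrix.vecMul_transpose]
  simp only [dotProduct, Matrix.mulVec_diagonal, act]
  exact sum_congr rfl fun i _ => by ring

theorem press_defMain {N : ℕ} (β : ℝ) (lam : Fin N → ℝ) (U : OG (Fin N)) :
    press β lam U = (1 / (N : ℝ)) * Real.log (𝔼 s : Fin N → Bool, Real.exp (β / 2 *
      ∑ i, lam i * act U (fun i => if s i then (1 : ℝ) else -1) i ^ 2)) := by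
  simp only [press, quad_eqMain]

theorem press_contMain {N : ℕ} (β : ℝ) (lam : Fin N → ℝ) :
    Continuous fun U : OG (Fin N) => press β lam U := by
  simp only [press_defMain]
  refine (Continuous.log ?_ fun U => (expect_pos (fun s _ => Real.exp_pos _) univ_nonempty).ne').const_mul _
  simp only [expect_eq_sum_div_card]
  refine (continuous_finsetSum _ fun s _ => ?_).div_const _
  exact ((continuous_finsetSum _ fun i _ => (((continuous_apply i).comp
    (continuous_act continuous_id continuous_const)).pow 2).const_mul _).const_mul _).rexp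

theorem press_leMain {N : ℕ} {β δ : ℝ} (hβ : 0 ≤ β) (hδ : 0 ≤ δ) {lam lam' : Fin N → ℝ}
    (h : ∀ i, lam i ≤ lam' i + δ) (U : OG (Fin N)) :
    press β lam U ≤ press β lam' U + β * δ / 2 := by
  rcases Nat.eq_zero_or_pos N with rfl | hN
  · simp only [press, Nat.cast_zero, div_zero, zero_mul, zero_add]
    positivity
  have hN' : (0 : ℝ) < N := by exact_mod_cast hN
  rw [press_defMain, press_defMain]
  have key : (𝔼 s : Fin N → Bool, Real.exp (β / 2 *
      ∑ i, lam i * act U (fun i => if s i then (1 : ℝ) else -1) i ^ 2)) ≤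
      Real.exp (N * (β * δ / 2)) * 𝔼 s : Fin N → Bool, Real.exp (β / 2 *
      ∑ i, lam' i * act U (fun i => if s i then (1 : ℝ) else -1) i ^ 2) := by
    rw [mul_expect]
    refine expect_le_expect fun s _ => ?_
    rw [← Real.exp_add, Real.exp_le_exp]
    have h1 : ∑ i, act U (fun i => if s i then (1 : ℝ) else -1) i ^ 2 = N := by
      rw [sum_act_sq]
      simp
    have h2 : ∑ i, lam i * act U (fun i => if s i then (1 : ℝ) else -1) i ^ 2 ≤
        ∑ i, lam' i * act U (fun i => if s i then (1 : ℝ) else -1) i ^ 2 + δ * N := by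
      rw [← h1, mul_sum, ← sum_add_distrib]
      refine sum_le_sum fun i _ => ?_
      rw [← add_mul]
      exact mul_le_mul_of_nonneg_right (h i) (sq_nonneg _)
    nlinarith
  have h3 := Real.log_le_log (expect_pos (fun s _ => Real.exp_pos _) univ_nonempty) key
  rw [Real.log_mul (Real.exp_pos _).ne'
    (expect_pos (fun s _ => Real.exp_pos _) univ_nonempty).ne', Real.log_exp] at h3
  have h4 := mul_le_mul_of_nonneg_left h3 (one_div_pos.2 hN').le
  rw [mul_add, ← mul_assoc, one_div_mul_cancel hN'.ne', one_mul] at h4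
  linarith

theorem orth_subMain {R R' : ℝ → ℝ} (h : ContinuousOn R (Set.Ici 0))
    (h' : ContinuousOn R' (Set.Ici 0)) {δ β : ℝ} (hβ : 0 ≤ β) (hd : ∀ x, 0 ≤ x → |R x - R' x| ≤ δ)
    {n : ℕ} {p : ℕ → ℝ} (hp : Adm n p) : |orth R β n p - orth R' β n p| ≤ β * δ / 2 := by
  have hi : ∀ {S : ℝ → ℝ}, ContinuousOn S (Set.Ici 0) →
      IntervalIntegrable (fun q => S (β * chiq n p q)) volume 0 1 := by
    intro S hS
    refine ContinuousOn.intervalIntegrable ?_
    rw [Set.uIcc_of_le zero_le_one]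
    exact hS.comp ((chiq_cont n p).const_mul β).continuousOn fun q hq =>
      mul_nonneg hβ (chiq_mem hp hq.1 hq.2).1
  rw [orth, orth, ← mul_sub, ← intervalIntegral.integral_sub (hi h) (hi h'), abs_mul,
    abs_of_nonneg (by positivity : 0 ≤ β / 2)]
  have := intervalIntegral.norm_integral_le_of_norm_le_const (a := 0) (b := 1) (C := δ)
    (f := fun q => R (β * chiq n p q) - R' (β * chiq n p q)) fun q hq => by
      rw [Set.uIoc_of_le zero_le_one] at hq
      exact hd _ (mul_nonneg hβ (chiq_mem hp hq.1.le hq.2).1)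
  rw [Real.norm_eq_abs, sub_zero, abs_one, mul_one] at this
  nlinarith

theorem l1Main {X : Type} [MeasurableSpace X] (ν : Measure X) [IsProbabilityMeasure ν]
    {f g : X → ℝ} (hf : Integrable f ν) (hg : Integrable g ν) (h : ∀ x, f x ≤ g x) {L c : ℝ}
    (hc : |∫ x, g x ∂ν - L| ≤ c) : ∫ x, |f x - L| ∂ν ≤
      ∫ x, g x ∂ν - ∫ x, f x ∂ν + ∫ x, |g x - ∫ y, g y ∂ν| ∂ν + c := by
  have h1 : Integrable (fun x => |g x - ∫ y, g y ∂ν|) ν := (hg.sub (integrable_const _)).abs
  have h2 : Integrable (fun x => g x - f x) ν := hg.sub hf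
  have h3 : Integrable (fun x => g x - f x + |g x - ∫ y, g y ∂ν|) ν := h2.add h1
  have h4 := integral_mono (f := fun x => |f x - L|)
    (g := fun x => g x - f x + |g x - ∫ y, g y ∂ν| + c) (hf.sub (integrable_const L)).abs
    (h3.add (integrable_const c)) fun x => by
      have a7 := h x
      have a8 := le_abs_self (g x - ∫ y, g y ∂ν)
      have a9 := neg_abs_le (g x - ∫ y, g y ∂ν)
      have := abs_le.1 hc
      dsimp only
      rw [abs_le]
      constructor <;> linarith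
  rw [integral_add h3 (integrable_const _), integral_add h2 h1, integral_sub hg hf] at h4
  simpa using h4

theorem concF {𝒞 : Type} [Fintype 𝒞] [DecidableEq 𝒞] {w lam : 𝒞 → ℝ} {top : 𝒞}
    (h : Cls w lam top) {β : ℝ} (hβ : 0 ≤ β) (cl : ∀ N : ℕ, Fin N → 𝒞)
    (hcl : ∀ j, Tendsto (fun N => fq (cl N) j) atTop (𝓝 (w j))) :
    Tendsto (fun N => ∫ U, |press β (fun i => lam (cl N i)) U -
      ∫ V, press β (fun i => lam (cl N i)) V ∂(hr (Fin N))| ∂(hr (Fin N))) atTop (𝓝 0) := by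
  obtain ⟨m, hm, hm'⟩ : ∃ m : ℝ, 0 < m ∧ ∀ j, m ≤ w j := by
    obtain ⟨j, -, hj⟩ := exists_min_image univ w ⟨top, mem_univ _⟩
    exact ⟨w j, h.pos j, fun i => hj i (mem_univ _)⟩
  obtain ⟨M, hM, hc⟩ := hc (4 / m) (∑ j, |β * lam j|)
  have h0 : Tendsto (fun N : ℕ => M * (Real.sqrt N)⁻¹) atTop (𝓝 0) := by
    simpa using ((Real.tendsto_sqrt_atTop.comp tendsto_natCast_atTop_atTop).inv_tendsto_atTop).const_mul M
  refine squeeze_zero' (Eventually.of_forall fun N => integral_nonneg fun _ => abs_nonneg _) ?_ h0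
  have h1 : ∀ᶠ N : ℕ in atTop, ∀ j, m / 2 < fq (cl N) j :=
    eventually_all.2 fun j => (hcl j).eventually (lt_mem_nhds (by linarith [hm' j]))
  filter_upwards [h1, eventually_gt_atTop 0,
    (tendsto_natCast_atTop_atTop (R := ℝ)).eventually_ge_atTop (4 / m)] with N h2 hN h3
  have hN' : (0 : ℝ) < N := by exact_mod_cast hN
  have hX : ∀ j, (Fintype.card (Fin N) : ℝ) ≤ 4 / m * ((tp (cl N) j).card - 1) := by
    intro j
    have h4 := h2 j
    rw [fq, Fintype.card_fin, lt_div_iff₀ hN'] at h4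
    rw [div_le_iff₀ hm] at h3
    rw [Fintype.card_fin, div_mul_eq_mul_div, le_div_iff₀ hm, tp]
    linarith
  have hok := bg_ok (n := 0) (K := (64 * N ^ 3) ^ 2) (cl := cl N) (κ := fun j => β * lam j)
    (top := top) 0 (γ := 0) (by positivity) (by simp) (X := 4 / m) (C := ∑ j, |β * lam j|)
    (fun j => ⟨single_le_sum (f := fun j => |β * lam j|) (fun _ _ => abs_nonneg _) (mem_univ j),
      mul_le_mul_of_nonneg_left (h.le j) hβ⟩) (by simpa using hN) hX
  have h5 := hc _ _ _ _ _ _ _ hok (by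
    rw [Fintype.card_fin]
    push_cast
    rw [Real.sqrt_sq (by positivity)])
  have h6 : ∀ U, (bg (n := 0) ((64 * N ^ 3) ^ 2) (cl N) (fun j => β * lam j) top 0 0).F0 U =
      N * press β (fun i => lam (cl N i)) U := fun U => (press_eq hN β _ _ U).symm
  simp only [Sys.F, h6, integral_const_mul, ← mul_sub, abs_mul, abs_of_pos hN',
    Fintype.card_fin] at h5
  have h7 : 0 < Real.sqrt N := Real.sqrt_pos.2 hN'
  rw [← div_eq_mul_inv, le_div_iff₀ h7]
  refine le_of_mul_le_mul_left ?_ h7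
  rw [mul_comm _ (Real.sqrt N), ← mul_assoc, Real.mul_self_sqrt hN'.le, mul_comm (Real.sqrt N)]
  exact h5

theorem mainH {β : ℝ} (hβ : 0 < β) (μ : Measure ℝ) [IsProbabilityMeasure μ]
    (hμ : IsCompact μ.support) (lam : ∀ N : ℕ, Fin N → ℝ)
    (hw : ∀ f : BoundedContinuousFunction ℝ ℝ,
      Tendsto (fun N : ℕ => (∑ i, f (lam N i)) / (N : ℝ)) atTop (𝓝 (∫ y, f y ∂μ)))
    (hmin : Tendsto (fun N => ⨅ i, lam N i) atTop (𝓝 (sInf μ.support)))
    (hmax : Tendsto (fun N => ⨆ i, lam N i) atTop (𝓝 (sSup μ.support))) :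
    ∃ (V : ℕ → ℝ) (L : ℝ), (∀ n, IsGLB (trial (Rtr μ) β n) (V n)) ∧ Tendsto V atTop (𝓝 L) ∧
      Tendsto (fun N => ∫ U, |press β (lam N) U - L| ∂(hr (Fin N))) atTop (𝓝 0) := by
  have hcont : ContinuousOn (Rtr μ) (Set.Ici 0) := by
    refine continuousOn_of_uniform_approx_of_continuousOn fun u hu => ?_
    obtain ⟨ε, hε, hu⟩ := Metric.mem_uniformity_dist.1 hu
    obtain ⟨k, w, l, top, -, -, h1, h2, -⟩ := approx μ hμ lam hw hmin hmax (half_pos hε)
    exact ⟨_, Rf_cont h1, fun y hy => hu ((h2 y hy).trans_lt (half_lt_self hε))⟩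
  have hI : ∀ N (l : Fin N → ℝ), Integrable (fun U : OG (Fin N) => press β l U) (hr (Fin N)) :=
    fun N l => intg _ (press_contMain β l)
  have hle : ∀ N (l l' : Fin N → ℝ) (δ : ℝ), 0 ≤ δ → (∀ i, l i ≤ l' i + δ) →
      ∫ U, press β l U ∂(hr (Fin N)) ≤ ∫ U, press β l' U ∂(hr (Fin N)) + β * δ / 2 := by
    intro N l l' δ hδ h
    have := integral_mono (hI N l) ((hI N l').add (integrable_const (β * δ / 2)))
      fun U => press_leMain hβ.le hδ h U
    rw [integral_add' (hI N l') (integrable_const _)] at this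
    simpa using this
  have hup : ∀ ε : ℝ, 0 < ε → ∃ b : ∀ N : ℕ, Fin N → ℝ, (∀ᶠ N in atTop, ∀ i, lam N i ≤ b N i) ∧
      Tendsto (fun N => ∫ U, |press β (b N) U - ∫ V, press β (b N) V ∂(hr (Fin N))| ∂(hr (Fin N)))
        atTop (𝓝 0) ∧ ∃ n0 : ℕ, ∀ n, n0 ≤ n → ∀ t ∈ trial (Rtr μ) β n,
          ∀ᶠ N in atTop, ∫ U, press β (b N) U ∂(hr (Fin N)) ≤ t + ε := by
    intro ε hε
    obtain ⟨k, w, l, top, up, dn, h1, h2, h3, -, h5⟩ :=
      approx μ hμ lam hw hmin hmax (div_pos hε hβ)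
    obtain ⟨n0, h6⟩ := ubF h1 hβ.le (half_pos hε)
    refine ⟨fun N i => l (up N i), h5.mono fun N h i => (h i).2, concF h1 hβ.le up h3, n0,
      fun n hn t ht => ?_⟩
    obtain ⟨p, s, a1, a2, rfl⟩ := ht
    have h7 := abs_le.1 (orth_subMain hcont (Rf_cont h1) hβ.le h2 a1)
    rw [mul_div_cancel₀ _ hβ.ne'] at h7
    filter_upwards [h6 n hn _ ⟨p, s, a1, a2, rfl⟩ up h3] with N h8
    linarith [h7.1]
  obtain ⟨V, L, hV, hVL, hL⟩ := wrap (fun N => ∫ U, press β (lam N) U ∂(hr (Fin N)))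
    (trial (Rtr μ) β) (fun n => by
      obtain ⟨p, hp, h⟩ := conc n (fun _ => 0) fun _ _ => le_rfl
      exact ⟨_, p, _, hp, fun q hq => by rw [spinI_eq]; exact h _ fun l hl => vr_nonneg hq hl, rfl⟩)
    (fun n => by
      obtain ⟨k, w, l, top, -, -, h1, h2, -⟩ := approx μ hμ lam hw hmin hmax one_pos
      refine ⟨Cas n (vr n fun _ => 0) lc - β * (1 + ∑ j, |l j|) / 2, ?_⟩
      rintro t ⟨p, s, a1, a2, rfl⟩
      have h3 := a2 (fun _ => 0) ⟨fun _ _ => le_rfl, le_rfl⟩
      rw [spinI] at h3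
      simp only [mul_zero, sum_const_zero, zero_div, sub_zero, add_zero] at h3
      have h4 := abs_le.1 (orth_subMain (R' := fun _ => 0) (δ := 1 + ∑ j, |l j|) hcont
        continuousOn_const hβ.le (fun x hx => by
          have h5 := abs_le.1 (h2 x hx)
          have h6 := abs_le.1 (abs_Rf_le h1 (fun j => single_le_sum (f := fun j => |l j|)
            (fun _ _ => abs_nonneg _) (mem_univ j)) x)
          rw [abs_le]
          constructor <;> linarith [h5.1, h5.2, h6.1, h6.2]) a1)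
      have h7 : orth (fun _ => 0) β n p = 0 := by simp [orth]
      have h8 : Cas n (vr n fun _ => 0) lc ≤ s := h3
      linarith [h4.1])
    (fun ε hε => by
      obtain ⟨b, h1, -, n0, h2⟩ := hup ε hε
      refine ⟨n0, fun n hn t ht => ?_⟩
      filter_upwards [h1, h2 n hn t ht] with N h3 h4
      have := hle N (lam N) (b N) 0 le_rfl (by simpa using h3)
      linarith)
    (fun ε hε => by
      obtain ⟨k, w, l, top, up, dn, h1, h2, -, h4, h5⟩ :=
        approx μ hμ lam hw hmin hmax (div_pos (half_pos hε) hβ)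
      obtain ⟨n0, h6⟩ := lbF h1 hβ.le (half_pos hε)
      refine ⟨n0, fun n hn L hL => ?_⟩
      have h7 : L - ε / 4 ∈ lowerBounds (trial (Rf w l (l top)) β n) := by
        rintro t ⟨p, s, a1, a2, rfl⟩
        have h8 := abs_le.1 (orth_subMain hcont (Rf_cont h1) hβ.le h2 a1)
        rw [mul_div_cancel₀ _ hβ.ne'] at h8
        have := hL ⟨p, s, a1, a2, rfl⟩
        linarith [h8.2]
      filter_upwards [h6 n hn _ h7 dn h4, h5] with N h8 h9
      have := hle N (fun i => l (dn N i)) (lam N) (ε / 2 / β) (by positivity)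
        fun i => by linarith [(h9 i).1]
      rw [mul_div_cancel₀ _ hβ.ne'] at this
      linarith)
  refine ⟨V, L, hV, hVL, ?_⟩
  rw [Metric.tendsto_nhds]
  intro ε hε
  have hε' : 0 < ε / 10 := by positivity
  obtain ⟨b, h1, h2, n0, h3⟩ := hup _ hε'
  obtain ⟨n, hn, h4⟩ := ((eventually_ge_atTop n0).and
    (hVL.eventually (gt_mem_nhds (lt_add_of_pos_right L hε')))).exists
  obtain ⟨t, ht, -, h5⟩ := (hV n).exists_between h4
  filter_upwards [h1, h2.eventually (gt_mem_nhds hε'), h3 n hn t ht,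
    hL.eventually (lt_mem_nhds (sub_lt_self L hε'))] with N a1 a2 a3 a4
  have a5 := hle N (lam N) (b N) 0 le_rfl (by simpa using a1)
  rw [Real.dist_eq, sub_zero, abs_of_nonneg (integral_nonneg fun _ => abs_nonneg _)]
  have a6 := l1Main (hr (Fin N)) (hI N (lam N)) (hI N (b N)) (fun U => by
    simpa using press_leMain hβ.le le_rfl (lam := lam N) (lam' := b N) (by simpa using a1) U)
    (L := L) (c := ε / 5) (by rw [abs_le]; constructor <;> linarith)
  linarith

theorem main {β : ℝ} (hβ : 0 < β) (μ : Measure ℝ) [IsProbabilityMeasure μ]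
    (hμ : IsCompact μ.support) (lam : ∀ N : ℕ, Fin N → ℝ)
    (hw : ∀ f : BoundedContinuousFunction ℝ ℝ,
      Tendsto (fun N : ℕ => (∑ i, f (lam N i)) / (N : ℝ)) atTop (𝓝 (∫ y, f y ∂μ)))
    (hmin : Tendsto (fun N => ⨅ i, lam N i) atTop (𝓝 (sInf μ.support)))
    (hmax : Tendsto (fun N => ⨆ i, lam N i) atTop (𝓝 (sSup μ.support)))
    [∀ N : ℕ, MeasurableSpace (Matrix.orthogonalGroup (Fin N) ℝ)]
    [∀ N : ℕ, BorelSpace (Matrix.orthogonalGroup (Fin N) ℝ)]
    (ν : ∀ N : ℕ, Measure (Matrix.orthogonalGroup (Fin N) ℝ))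
    [∀ N, IsProbabilityMeasure (ν N)] [∀ N, (ν N).IsHaarMeasure] :
    ∃ (V : ℕ → ℝ) (L : ℝ), (∀ n, IsGLB (trial (Rtr μ) β n) (V n)) ∧ Tendsto V atTop (𝓝 L) ∧
      Tendsto (fun N => ∫ U, |press β (lam N) U - L| ∂(ν N)) atTop (𝓝 0) := by
  rename_i i1 i2 i3 i4
  have e : i1 = fun N => borel _ := funext fun N => (i2 N).measurable_eq
  subst e
  have e2 : ∀ N, ν N = hr (Fin N) := fun N => haar_uniq (ν N) (hr (Fin N))
  simp only [e2]
  exact mainH hβ μ hμ lam hw hmin hmax

end Vale.Agent.P166
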