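import Vale.Agent.P166.NearX

/-!
# P166: concentration of the overlap near a reference system
-/

namespace Vale.Agent.P166

open MeasureTheory Finset Vale.Agent.P168 Vale.Agent.P168.PW Vale.Agent.P157 Function Filter Topology
open scoped BigOperators

theorem cont_profNear {n K : ℕ} {Ω I : Type} [Fintype Ω] [Fintype I] [DecidableEq I]
    (Y : Sys n K Ω I) (N : ℝ) (j : ℕ) :
    Continuous fun U => prof n (Y.Q U) Y.ρ (Y.R Y.S N U) j :=
  Y.cch.E2 n Y.ρ j fun x y => Sys.cont_R Y.S N x y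

theorem prf_pr {n K : ℕ} {Ω I : Type} [Fintype Ω] [Fintype I] [DecidableEq I] {Y : Sys n K Ω I}
    (h : Y.St) {X N : ℝ} (hN : 0 < N) (hX : (Fintype.card I : ℝ) ≤ X * N) : Pr n X (Y.prf N) := by
  have hm : ∀ U, Mono n (prof n (Y.Q U) Y.ρ (Y.R Y.S N U)) := fun U => by
    rw [← Sys.ov_u h.hK]; exact prof_mono hN.le
  refine ⟨⟨fun j hj => ?_, by simp [Sys.prf]⟩, by simp [Sys.prf], ?_⟩
  · rw [Sys.prf, Sys.prf, if_pos hj]
    split_ifs with h1
    · exact integral_mono (intg _ (cont_profNear Y N _)) (intg _ (cont_profNear Y N _))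
        fun U => (hm U).1 j hj
    · exact integral_nonneg fun U => (hm U).nonneg (by omega)
  · rw [Sys.prf, if_pos (Nat.zero_le n)]
    exact int_le_constNear (cont_profNear Y N 0) fun U =>
      E2_le_const fun x y => (le_abs_self _).trans (Sys.abs_R_le h Y.S hN hX U x y)

theorem pert_lip {n K : ℕ} {Ω I : Type} [Fintype Ω] [Fintype I] [DecidableEq I] {Y : Sys n K Ω I}
    (h : Y.St) {δ : Option (Fin (n + 1)) → ℝ} (h' : (Y.pert δ).St) (U : OG I) :
    |(Y.pert δ).F0 U - Y.F0 U| ≤ 3 * Fintype.card I * ∑ j, |δ j| := by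
  have h1 := Sys.pert_low h δ U
  have h2 := Sys.pert_low h' (-δ) U
  rw [Sys.pert_pert, add_neg_cancel, Sys.pert_zero] at h2
  simp only [Pi.neg_apply, abs_neg] at h2
  have h3 : 0 ≤ (Fintype.card I : ℝ) * ∑ j, |δ j| :=
    mul_nonneg (Nat.cast_nonneg _) (sum_nonneg fun _ _ => abs_nonneg _)
  rw [abs_le]
  constructor <;> linarith

theorem sd_avg {J : Type} [Fintype J] [DecidableEq J] (Φ : (J → ℝ) → ℝ) (β0 : J → ℝ) {h L : ℝ}
    (hh : 0 ≤ h) {R : ℕ} [NeZero R]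
    (hL : ∀ β : J → ℝ, (∀ j, β0 j - h ≤ β j ∧ β j ≤ β0 j + h * R) → ∀ j,
      β j + h ≤ β0 j + h * R → |Φ (β + Pi.single j h) - Φ β| ≤ L) :
    (unif (J → Fin R)).E (fun z => sd (fun δ => Φ (win β0 h z + δ)) h) ≤
      Fintype.card J * (2 * L / R) := by
  have hR : (1 : ℝ) ≤ R := by exact_mod_cast NeZero.pos R
  simp only [sd]
  rw [E_sum]
  refine (sum_le_sum (g := fun _ => 2 * L / R) fun l _ => ?_).trans (by simp)
  rw [← pi_unif, ← E_pi_update _ l]
  refine E_le_const _ fun z => ?_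
  let ψ : ℝ → ℝ := fun u => Φ (update (win β0 h z) l (β0 l + h * u))
  have e : ∀ (u : Fin R) (s : ℝ), win β0 h (update z l u) + Pi.single l (h * s) =
      update (win β0 h z) l (β0 l + h * ((u : ℕ) + s)) := fun u s => funext fun j => by
    by_cases k : j = l
    · subst k; simp [win]; ring
    · simp [win, update_of_ne k, k]
  have e' : ∀ u : Fin R, Φ (win β0 h (update z l u) + Pi.single l h) +
      Φ (win β0 h (update z l u) + Pi.single l (-h)) - 2 * Φ (win β0 h (update z l u) + 0) =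
      ψ ((u : ℕ) + 1) + ψ ((u : ℕ) + -1) - 2 * ψ (u : ℕ) := fun u => by
    have e1 := e u 1
    have e2 := e u (-1)
    have e3 := e u 0
    rw [mul_one] at e1
    rw [mul_neg, mul_one] at e2
    rw [mul_zero, Pi.single_zero, add_zero ((u : ℕ) : ℝ)] at e3
    rw [e1, e2, e3]
  have d : ∀ u : ℝ, -1 ≤ u → u + 1 ≤ R → |ψ (u + 1) - ψ u| ≤ L := fun u a b => by
    have := hL (update (win β0 h z) l (β0 l + h * u)) (fun j => by
      by_cases k : j = l
      · subst k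
        rw [update_self]
        constructor <;> nlinarith
      · rw [update_of_ne k]
        have := win_mem β0 hh z j
        constructor <;> linarith) l (by rw [update_self]; nlinarith)
    have e4 : update (win β0 h z) l (β0 l + h * u) + Pi.single l h =
        update (win β0 h z) l (β0 l + h * (u + 1)) := funext fun j => by
      by_cases k : j = l
      · subst k; simp; ring
      · simp [update_of_ne k, k]
    rwa [e4] at this
  simp only [e', E_unif]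
  rw [expect_eq_sum_div_card, card_univ, Fintype.card_fin]
  gcongr
  rw [Fin.sum_univ_eq_sum_range (fun k : ℕ => ψ (k + 1) + ψ (k + -1) - 2 * ψ k),
    sum_congr rfl (g := fun k : ℕ => (ψ (k + 1 : ℕ) - ψ ((k + 1 : ℕ) + -1)) -
      (ψ k - ψ (k + -1))) fun k _ => by push_cast; rw [add_neg_cancel_right]; ring,
    sum_range_sub fun k : ℕ => ψ k - ψ (k + -1)]
  have d1 := abs_le.1 (d (R + -1) (by linarith) (by linarith))
  have d2 := abs_le.1 (d (-1) le_rfl (by linarith))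
  simp only [neg_add_cancel, neg_add_cancel_right, Nat.cast_zero, zero_add] at d1 d2 ⊢
  linarith

theorem dev_levelNear {n : ℕ} {Ω : Type} [Fintype Ω] (Q : Ch Ω) (ρ : PW Ω) {p r : ℕ → ℝ} {B X : ℝ}
    (h : ∀ l, l ≤ n → |cum n p l - cum n r l| ≤ B) (ht : |p (n + 1) - r (n + 1)| ≤ X) :
    dev n Q ρ (fun j _ _ => p j - r j) ≤ n * (2 * B) + wt n * X := by
  simp only [dev, E2_const]
  rw [sum_Icc_succ_top (Nat.le_add_left 1 n), mul_add, mul_sum]
  refine add_le_add ((sum_le_sum (g := fun _ => 2 * B) fun j hj => ?_).trans (by simp))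
    (mul_le_mul_of_nonneg_left ht (wt_pos n).le)
  obtain ⟨j1, j2⟩ := mem_Icc.1 hj
  obtain ⟨j, rfl⟩ : ∃ i, j = i + 1 := ⟨j - 1, by omega⟩
  have h1 := abs_le.1 (h (j + 1) j2)
  have h2 := abs_le.1 (h j (by omega))
  rw [cum_succ, cum_succ] at h1
  rw [← abs_of_pos (wt_pos n), ← abs_mul, abs_le]
  constructor <;> linarith

theorem cum_prfNear {n K : ℕ} {Ω I : Type} [Fintype Ω] [Fintype I] [DecidableEq I]
    (Y : Sys n K Ω I) (N : ℝ) {l : ℕ} (hl : l ≤ n) : cum n (Y.prf N) l =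
      ∫ U, cum n (prof n (Y.Q U) Y.ρ (Y.R Y.S N U)) l ∂(hr I) := by
  simp only [cum]
  rw [integral_const_mul, integral_finsetSum _ fun j _ => intg _ (cont_profNear Y N j)]
  refine congrArg _ (sum_congr rfl fun j hj => ?_)
  rw [Sys.prf, if_pos ((mem_Icc.1 hj).2.trans hl)]
  rfl

theorem R_diagNear {n K : ℕ} {Ω I : Type} [Fintype Ω] [Fintype I] [DecidableEq I]
    (Y : Sys n K Ω I) {N η : ℝ} (hN : 0 < N) (hη : 0 < η) (hη1 : η ≤ 1)
    (D : Option (Fin (n + 1)) → ℝ) (U : OG I) :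
    Eh n (Y.Q U) Y.ρ 0 (fun x => |Y.R Y.S N U x x - 2 * D none / N|) ≤ 3 / (η * N) * Y.Zs D U := by
  have e : ∀ x, |Y.R Y.S N U x x - 2 * D none / N| = 2 / N * |Y.Lj U none x - D none| := fun x => by
    rw [← abs_of_pos (by positivity : 0 < 2 / N), ← abs_mul]
    refine congrArg _ ?_
    simp only [Sys.R, Sys.Lj, sq]
    field_simp
  simp only [e, Eh_const_mul]
  refine mul_le_mul ?_ (Sys.Z_le D U none) (Eh_nonneg fun _ => abs_nonneg _) (by positivity)
  rw [div_le_div_iff₀ hN (by positivity)]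
  nlinarith

theorem prf_zeroNear {n K : ℕ} {Ω I : Type} [Fintype Ω] [Fintype I] [DecidableEq I]
    (Y : Sys n K Ω I) {N η : ℝ} (hN : 0 < N) (hη : 0 < η) (hη1 : η ≤ 1)
    (D : Option (Fin (n + 1)) → ℝ) :
    |Y.prf N 0 - 2 * D none / N| ≤ 3 / (η * N) * ∫ U, Y.Zs D U ∂(hr I) := by
  rw [Sys.prf, if_pos (Nat.zero_le n), ← zero_add (3 / (η * N) * _)]
  refine int_closeNear (cont_profNear Y N 0) (Sys.cont_Zs D) fun U => ?_
  rw [zero_add]
  refine le_trans ?_ (R_diagNear Y hN hη hη1 D U)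
  have := abs_Eh_le (n := n) (P := Y.Q U) (ρ := Y.ρ) (j := 0)
    fun x => Y.R Y.S N U x x - 2 * D none / N
  rw [Eh_sub, Eh_const] at this
  simpa only [prof, E2, A_of_le (le_refl 0)] using this

theorem near (X θ : ℝ) (hθ : 0 < θ) : ∃ n0 : ℕ, ∀ n, n0 ≤ n → ∃ M : ℝ, 0 ≤ M ∧
    ∀ (K : ℕ) (Ω I Ω' I' : Type) [Fintype Ω] [Fintype I] [DecidableEq I] [Fintype Ω'] [Fintype I']
      [DecidableEq I'] (Y : Sys n K Ω I) (Y' : Sys n K Ω' I') (N η h fl e : ℝ)
      (f : (Option (Fin (n + 1)) → ℝ) → ℝ), Y.St → Y'.St → Y.γ = Y'.γ → 1 ≤ N →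
      (Fintype.card I : ℝ) ≤ X * N → (Fintype.card I' : ℝ) ≤ X * N → 0 < Fintype.card I →
      0 < Fintype.card I' → 0 < η → η ≤ 1 → (∀ l, η ≤ Y.γ l) → 0 < h →
      (Fintype.card I : ℝ) ^ 3 ≤ e * Real.sqrt K → (Fintype.card I' : ℝ) ^ 3 ≤ e * Real.sqrt K →
      e ≤ 1 / 2 → (∀ j a, |a| ≤ h → (Y.pert (Pi.single j a)).fl (f (Pi.single j a)) ≤ fl ∧
        (Y'.pert (Pi.single j a)).fl (f (Pi.single j a)) ≤ fl) →
      Y.dv N (Y'.prf N) ≤ θ + M * ((sd f h + 5 * (n + 2) * fl + 1) / (h * η * N) + e) := by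
  obtain ⟨n0, h0⟩ := oc X (θ / 2) (by linarith)
  refine ⟨max n0 ⌈2 * X / θ⌉₊, fun n hn => ?_⟩
  obtain ⟨C, hC, h1⟩ := h0 n ((le_max_left _ _).trans hn)
  have hw : wt n * X ≤ θ / 2 := by
    have : 2 * X / θ ≤ n := (Nat.le_ceil _).trans (by exact_mod_cast (le_max_right _ _).trans hn)
    rw [div_le_iff₀ hθ] at this
    rw [wt, one_div, inv_mul_le_iff₀ (by positivity)]
    linarith
  have hn0 : (0 : ℝ) ≤ n := Nat.cast_nonneg n
  refine ⟨(2 + C + 4 * n) * (3 * (2 + (n + 1) * (n + 2))) + (C * (1 + X) ^ 2 + 400 * n),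
    by positivity, fun K Ω I Ω' I' _ _ _ _ _ _ Y Y' N η h fl e f hY hY' hγ hN hI hI' cI cI' hη hη1
      hηγ hh he he' he1 hf => ?_⟩
  have hN0 : 0 < N := by linarith
  have hI1 : (1 : ℝ) ≤ Fintype.card I := by exact_mod_cast cI
  have hX : 0 ≤ X := nonneg_of_mul_nonneg_left (by linarith) hN0
  have hc := Sys.cu_le hY.hK cI he
  have hc0 : 0 ≤ Real.sqrt (Fintype.card I) / Real.sqrt K := by positivity
  have hc1 : Real.sqrt (Fintype.card I) / Real.sqrt K ≤ e :=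
    (le_mul_of_one_le_right hc0 (one_le_pow₀ hI1)).trans hc
  have he0 : 0 ≤ e := hc0.trans hc1
  have z := Sys.Z_int hh fun j a ha => (hf j a ha).1
  have z' := Sys.Z_int hh fun j a ha => (hf j a ha).2
  obtain ⟨κ', hκ'⟩ : ∃ k, k = 3 / (η * N) * ∫ U, Y'.Zs (Sys.slp f h) U ∂(hr I') := ⟨_, rfl⟩
  have r0 := prf_zeroNear Y' hN0 hη hη1 (Sys.slp f h)
  have rc : ∀ l : Fin (n + 1), |cum n (Y'.prf N) l -
      (2 * Sys.slp f h none - Sys.slp f h (some l) / Y.γ l) / N| ≤ 100 * e + κ' := fun l => by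
    rw [cum_prfNear Y' N (Nat.lt_succ_iff.1 l.2), hκ', hγ]
    refine int_closeNear ?_ (Sys.cont_Zs _) fun U =>
      Sys.cum_close hY' hN cI' hη hη1 (hγ ▸ hηγ) he' he1 _ U l
    exact (continuous_finsetSum _ fun j _ => cont_profNear Y' N j).const_mul _
  rw [← hκ'] at r0
  have key : ∀ U, Eh n (Y.Q U) Y.ρ 0 (fun x => |Y.R Y.S N U x x - Y'.prf N 0|) +
      dev n (Y.Q U) Y.ρ (fun j x y => Y.R Y.S N U x y - Y'.prf N j) ≤
      (θ + (1 + 2 * n) * κ' + (C * (1 + X) ^ 2 + 400 * n) * e) +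
        (1 + C + 2 * n) * (3 / (η * N)) * Y.Zs (Sys.slp f h) U := fun U => by
    have a1 := Eh_mono (n := n) (P := Y.Q U) (ρ := Y.ρ) (j := 0) fun x =>
      abs_sub_le (Y.R Y.S N U x x) (2 * Sys.slp f h none / N) (Y'.prf N 0)
    rw [Eh_add, Eh_const, abs_sub_comm (2 * Sys.slp f h none / N)] at a1
    have a2 := R_diagNear Y hN0 hη hη1 (Sys.slp f h) U
    have a3 := h1 Ω (I × Fin K) (Tn n Y.P (Y.H U)) Y.ρ Y.s (Y.u U) _ N η 1 (X * Fintype.card I)
      (2 * Y.Zs (Sys.slp f h) U / N) Y.γ (Sys.fs hY U) hc0 hN0 hη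
      (fun ω => (Sys.sum_u_sq hY U ω).trans hI)
      (fun l => ⟨hηγ l, (le_abs_self _).trans (hY.abs_γ l)⟩) (by linarith)
      (by rw [Sys.card_cu hY.hK]; nlinarith)
      (by rw [← Sys.Q_eq, div_mul_cancel₀ _ hN0.ne']; exact Sys.fluct_le _ U)
    rw [← Sys.Q_eq, Sys.ov_u hY.hK] at a3
    have a4 := dev_levelNear (Y.Q U) Y.ρ (p := prof n (Y.Q U) Y.ρ (Y.R Y.S N U)) (r := Y'.prf N)
      (B := 200 * e + κ' + 3 / (η * N) * Y.Zs (Sys.slp f h) U) (X := X) (fun l (hl : l ≤ n) => by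
        have b1 := abs_le.1 (rc ⟨l, Nat.lt_succ_of_le hl⟩)
        have b2 := abs_le.1 (Sys.cum_close hY hN cI hη hη1 hηγ he he1 (Sys.slp f h) U ⟨l, Nat.lt_succ_of_le hl⟩)
        rw [abs_le]
        constructor <;> linarith [b1.1, b1.2, b2.1, b2.2]) (by
        rw [Sys.prf, if_neg (by omega), sub_zero]
        exact (abs_E2_le _).trans (E2_le_const fun x y => Sys.abs_R_le hY Y.S hN0 hI U x y))
    have a5 := dev_le_add (n := n) (P := Y.Q U) (ρ := Y.ρ)
      (F := fun j x y => Y.R Y.S N U x y - Y'.prf N j)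
      (G := fun j x y => Y.R Y.S N U x y - prof n (Y.Q U) Y.ρ (Y.R Y.S N U) j)
      (H := fun j _ _ => prof n (Y.Q U) Y.ρ (Y.R Y.S N U) j - Y'.prf N j)
      fun j _ _ x y => abs_sub_le _ _ _
    have a6 : 1 * (Real.sqrt (Fintype.card I) / Real.sqrt K) * (1 + X * Fintype.card I) ^ 2 ≤
        (1 + X) ^ 2 * e := by
      have b1 : (1 + X * Fintype.card I) ^ 2 ≤ ((1 + X) * Fintype.card I) ^ 2 :=
        pow_le_pow_left₀ (by positivity) (by linarith) 2
      have b2 := mul_le_mul_of_nonneg_left b1 hc0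
      have b3 := mul_le_mul_of_nonneg_left hc (sq_nonneg (1 + X))
      rw [mul_pow] at b2
      linarith
    have a7 : 2 * Y.Zs (Sys.slp f h) U / N / η ≤ 3 / (η * N) * Y.Zs (Sys.slp f h) U := by
      have := Sys.Zs_nonneg (Y := Y) (Sys.slp f h) U
      rw [div_div, div_mul_eq_mul_div, mul_comm N]
      gcongr
      norm_num
    have a8 := mul_le_mul_of_nonneg_left (add_le_add a7 a6) hC
    rw [mul_assoc (1 + C + 2 * n)]
    generalize 3 / (η * N) * Y.Zs (Sys.slp f h) U = k at *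
    linarith
  have fin := integral_mono (intg (hr I) ((Y.cch.Eh n Y.ρ 0
    (f := fun U x => |Y.R Y.S N U x x - Y'.prf N 0|) fun x =>
      ((Sys.cont_R Y.S N x x).sub continuous_const).abs).add (Y.cch.dev n Y.ρ
    (f := fun U j x y => Y.R Y.S N U x y - Y'.prf N j) fun j x y =>
      (Sys.cont_R Y.S N x y).sub continuous_const)))
    (intg _ (continuous_const.add ((Sys.cont_Zs _).const_mul _))) key
  refine fin.trans ((int_affNear (Sys.cont_Zs _) _ _).le.trans ?_)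
  obtain ⟨S, hS⟩ : ∃ S, S = (sd f h + 5 * (n + 2) * fl + 1) / (h * η * N) := ⟨_, rfl⟩
  have w : ∀ t : ℝ, h * t ≤ (2 + (n + 1) * (n + 2)) * (sd f h + 5 * (n + 2) * fl + 1) →
      3 / (η * N) * t ≤ 3 * (2 + (n + 1) * (n + 2)) * S := fun t ht => by
    have := mul_le_mul_of_nonneg_left ht (by positivity : 0 ≤ 3 / (h * η * N))
    refine le_trans (le_of_eq ?_) (this.trans (le_of_eq ?_))
    · field_simp
    · rw [hS]; field_simp
  have w1 := w _ z
  have w2 := w _ z'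
  have w3 : 0 ≤ 3 / (η * N) * ∫ U, Y.Zs (Sys.slp f h) U ∂(hr I) :=
    mul_nonneg (by positivity) (integral_nonneg (Sys.Zs_nonneg _))
  rw [← hκ'] at w2
  rw [← hS, mul_assoc (1 + C + 2 * n)]
  generalize 3 / (η * N) * ∫ U, Y.Zs (Sys.slp f h) U ∂(hr I) = k at *
  have hp : (0 : ℝ) < 3 * (2 + (n + 1) * (n + 2)) := by positivity
  generalize (3 : ℝ) * (2 + (n + 1) * (n + 2)) = c at *
  have hS0 : 0 ≤ S := nonneg_of_mul_nonneg_right (w3.trans w1) hp
  have v1 := mul_le_mul_of_nonneg_left w1 (by positivity : 0 ≤ 1 + C + 2 * n)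
  have v2 := mul_le_mul_of_nonneg_left w2 (by positivity : (0 : ℝ) ≤ 1 + 2 * n)
  have v3 : 0 ≤ (2 + C + 4 * n) * c * e := by positivity
  have v4 : 0 ≤ (C * (1 + X) ^ 2 + 400 * n) * S := by positivity
  linarith

end Vale.Agent.P166
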