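import Vale.Agent.P166.Base
import Vale.Agent.P166.Conv

/-!
# P166: tools for the concentration of the overlap
-/

namespace Vale.Agent.P166

open MeasureTheory Finset Vale.Agent.P168 Vale.Agent.P168.PW Vale.Agent.P157 Function Filter Topology
open scoped BigOperators

theorem pt3Near {n : ℕ} {Ω : Type} [Fintype Ω] (P : Ch Ω) (ρ : PW Ω) (G L : Ω → ℝ) {h : ℝ}
    (hh : 0 < h) (a b c : ℝ) :
    h * Eh n (Tn n P G) ρ 0 (fun x => |L x - (a - b) / (2 * h)|) ≤
      3 / 2 * (a + b - 2 * c) + 2 * ρ.E (fun x => |Xn n P (fun ω => G ω + h * L ω) x - a|) +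
        2 * ρ.E (fun x => |Xn n P (fun ω => G ω + -h * L ω) x - b|) +
        3 * ρ.E (fun x => |Xn n P G x - c|) + (n + 1) ∧
    0 ≤ (a + b - 2 * c) + ρ.E (fun x => |Xn n P (fun ω => G ω + h * L ω) x - a|) +
        ρ.E (fun x => |Xn n P (fun ω => G ω + -h * L ω) x - b|) +
        2 * ρ.E (fun x => |Xn n P G x - c|) := by
  have e2 : ∀ (s : ℝ) ω, s * A (Tn n P G) 0 (n + 1) L ω ≤
      Xn n P (fun ω => G ω + s * L ω) ω - Xn n P G ω :=
    fun s ω => by rw [Xn_add, ← A_const_mul, add_sub_cancel_left]; exact A_le_X (al_pos n) _ _ ω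
  have e3 : ∀ (s : ℝ) ω, lam (wt n) (B (Tn n P G) 0 (n + 1) ω) (fun x => s * L x) ≤
      Xn n P (fun ω => G ω + s * L ω) ω - Xn n P G ω := fun s ω => by
    rw [Xn_add, add_sub_cancel_left]; exact lam_le_X (wt_pos n) _ _ (fun i _ _ => al_ge n i) ω
  constructor
  · rw [Eh, ← E_const_mul]
    refine (E_mono _ (G := fun ω => 3 / 2 * (a + b - 2 * c) +
      2 * |Xn n P (fun ω => G ω + h * L ω) ω - a| + 2 * |Xn n P (fun ω => G ω + -h * L ω) ω - b| +
      3 * |Xn n P G ω - c| + (n + 1)) fun ω => ?_).trans ?_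
    · have l := lamDens (wt_pos n) (B (Tn n P G) 0 (n + 1) ω) fun x => h * L x
      simp only [E_const_mul, ← mul_sub, abs_mul, abs_of_pos hh, ← neg_mul, wt,
        one_div_one_div] at l
      have t := mul_le_mul_of_nonneg_left (A_mono (P := Tn n P G) (j := 0) (p := n + 1) (fun x =>
        abs_sub_le (L x) (A (Tn n P G) 0 (n + 1) L ω) ((a - b) / (2 * h))) ω) hh.le
      rw [A_add, A_const', mul_add, ← abs_of_pos hh, ← abs_mul, abs_of_pos hh, mul_sub,
        show h * ((a - b) / (2 * h)) = (a - b) / 2 by field_simp] at t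
      have := e3 h ω
      have := e3 (-h) ω
      have := e2 h ω
      have := e2 (-h) ω
      have := abs_nonneg (Xn n P (fun ω => G ω + h * L ω) ω - a)
      have := le_abs_self (Xn n P (fun ω => G ω + h * L ω) ω - a)
      have := abs_nonneg (Xn n P (fun ω => G ω + -h * L ω) ω - b)
      have := le_abs_self (Xn n P (fun ω => G ω + -h * L ω) ω - b)
      have := neg_abs_le (Xn n P G ω - c)
      unfold A wt at *
      rcases abs_cases (h * (B (Tn n P G) 0 (n + 1) ω).E L - (a - b) / 2) with k | k <;>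
        linarith [k.1]
    · simp only [E_add, E_const, E_const_mul]
      exact le_rfl
  · refine (E_nonneg ρ (F := fun ω => (a + b - 2 * c) +
      |Xn n P (fun ω => G ω + h * L ω) ω - a| + |Xn n P (fun ω => G ω + -h * L ω) ω - b| +
      2 * |Xn n P G ω - c|) fun ω => ?_).trans ?_
    · have := e2 h ω
      have := e2 (-h) ω
      have := le_abs_self (Xn n P (fun ω => G ω + h * L ω) ω - a)
      have := le_abs_self (Xn n P (fun ω => G ω + -h * L ω) ω - b)
      have := neg_abs_le (Xn n P G ω - c)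
      linarith
    · simp only [E_add, E_const, E_const_mul]
      exact le_rfl

theorem int_le_constNear {I : Type} [Fintype I] [DecidableEq I] {f : OG I → ℝ} (hf : Continuous f)
    {c : ℝ} (h : ∀ U, f U ≤ c) : ∫ U, f U ∂(hr I) ≤ c := by
  simpa using integral_mono (intg (hr I) hf) (integrable_const c) h

theorem int_affNear {I : Type} [Fintype I] [DecidableEq I] {f : OG I → ℝ} (hf : Continuous f)
    (a b : ℝ) : ∫ U, (a + b * f U) ∂(hr I) = a + b * ∫ U, f U ∂(hr I) := by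
  rw [integral_add (integrable_const a) (intg _ (hf.const_mul b)), integral_const_mul]
  simp

theorem int_closeNear {I : Type} [Fintype I] [DecidableEq I] {f g : OG I → ℝ} (hf : Continuous f)
    (hg : Continuous g) {c a b : ℝ} (h : ∀ U, |f U - c| ≤ a + b * g U) :
    |∫ U, f U ∂(hr I) - c| ≤ a + b * ∫ U, g U ∂(hr I) := by
  rw [← int_affNear hg]
  have e : ∫ U, f U ∂(hr I) - c = ∫ U, (f U - c) ∂(hr I) := by
    rw [integral_sub (intg _ hf) (integrable_const c)]; simp
  rw [e]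
  exact abs_integral_le_integral_abs.trans (integral_mono (intg _ (hf.sub continuous_const).abs)
    (intg _ (continuous_const.add (hg.const_mul b))) h)

theorem int_fourNear {I : Type} [Fintype I] [DecidableEq I] {z a b c : OG I → ℝ} (hz : Continuous z)
    (ha : Continuous a) (hb : Continuous b) (hc : Continuous c) {t k p q r m : ℝ}
    (h : ∀ U, t * z U ≤ k + p * a U + q * b U + r * c U + m) :
    t * ∫ U, z U ∂(hr I) ≤ k + p * ∫ U, a U ∂(hr I) + q * ∫ U, b U ∂(hr I) +
      r * ∫ U, c U ∂(hr I) + m := by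
  have i1 : Continuous fun U => k + p * a U := by fun_prop
  have i2 : Continuous fun U => k + p * a U + q * b U := by fun_prop
  have i3 : Continuous fun U => k + p * a U + q * b U + r * c U := by fun_prop
  have i4 : Continuous fun U => k + p * a U + q * b U + r * c U + m := by fun_prop
  have := integral_mono (intg (hr I) (hz.const_mul t)) (intg (hr I) i4) h
  rw [integral_add (intg _ i3) (integrable_const m), integral_add (intg _ i2) (intg _ (hc.const_mul r)),
    integral_add (intg _ i1) (intg _ (hb.const_mul q)), int_affNear ha] at this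
  simpa only [integral_const_mul, integral_const, probReal_univ, smul_eq_mul, one_mul] using this

namespace Sys
variable {n K : ℕ} {Ω I : Type} [Fintype Ω] [Fintype I] [DecidableEq I] {Y : Sys n K Ω I}

variable (Y) in
/-- The directions of the perturbation. -/
noncomputable def Lj (U : OG I) : Option (Fin (n + 1)) → Ω → ℝ
  | none => fun ω => (∑ i ∈ Y.S, Y.t U ω i ^ 2) / 2
  | some l => fld Y.s (Y.u U) l

theorem En_Lj (δ : Option (Fin (n + 1)) → ℝ) (U : OG I) (ω : Ω) :
    (Y.pert δ).En U ω = Y.En U ω + ∑ j, δ j * Y.Lj U j ω := by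
  rw [En_pert, Fintype.sum_option]
  rfl

theorem En_single (j : Option (Fin (n + 1))) (a : ℝ) (U : OG I) :
    (Y.pert (Pi.single j a)).En U = fun ω => Y.En U ω + a * Y.Lj U j ω := by
  funext ω
  rw [En_Lj, sum_eq_single j (fun i _ hi => by rw [Pi.single_eq_of_ne hi, zero_mul]) (by simp),
    Pi.single_eq_same]

theorem cont_Lj (j : Option (Fin (n + 1))) (ω : Ω) : Continuous fun U => Y.Lj U j ω := by
  rcases j with _ | l
  · exact (continuous_finsetSum _ fun i _ => (cont_t id continuous_id ω i).pow 2).div_const _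
  · exact cont_fld id continuous_id l ω

theorem tot_two (h : Y.St) (U : OG I) (β : Fin (n + 1) → ℝ) {c : ℝ} (hc : ∑ l, β l ^ 2 ≤ c) :
    Fr n Y.P Y.ρ (Y.H U) ≤ Fr n Y.P Y.ρ (fun ω => Y.H U ω + tot (fld Y.s (Y.u U)) β ω) ∧
      Fr n Y.P Y.ρ (fun ω => Y.H U ω + tot (fld Y.s (Y.u U)) β ω) ≤
        Fr n Y.P Y.ρ (Y.H U) + c * Fintype.card I / 2 := by
  have := lin_two (fs h U).ok (v := fun q ω => β q.1 * Y.u U q.2 ω)
    (fun q l ω => congrArg (β q.1 * ·) ((fs h U).inv q.2 l ω)) (W := c * Fintype.card I) fun ω => by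
      rw [Fintype.sum_prod_type]
      simp only [mul_pow, ← mul_sum, ← sum_mul]
      exact mul_le_mul hc (sum_u_sq h U ω) (sum_nonneg fun _ _ => sq_nonneg _)
        ((sum_nonneg fun _ _ => sq_nonneg _).trans hc)
  have e : ∀ ω, ∑ q : Fin (n + 1) × (I × Fin K), sp (Y.s.τ q ω) * (β q.1 * Y.u U q.2 ω) =
      tot (fld Y.s (Y.u U)) β ω := fun ω => by
    rw [Fintype.sum_prod_type]
    simp only [tot, fld, mul_sum]
    exact sum_congr rfl fun _ _ => sum_congr rfl fun _ _ => by ring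
  simpa only [e] using this

theorem St.abs_γ (h : Y.St) (l : Fin (n + 1)) : |Y.γ l| ≤ 1 :=
  (sq_le_one_iff_abs_le_one _).1 ((single_le_sum (f := fun l => Y.γ l ^ 2)
    (fun _ _ => sq_nonneg _) (mem_univ l)).trans h.hγ)

theorem two_Lj (hK : 0 < K) (U : OG I) (ω : Ω) : ∑ q, Y.u U q ω ^ 2 = 2 * Y.Lj U none ω := by
  have := sum_uu (Y := Y) hK U ω ω
  simp only [← sq] at this
  rw [this, Lj]
  ring

theorem abs_Eh_Lj (h : Y.St) (U : OG I) (j : Option (Fin (n + 1))) :
    |Eh n (Y.Q U) Y.ρ 0 (Y.Lj U j)| ≤ 2 * Fintype.card I := by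
  have hI : (0 : ℝ) ≤ Fintype.card I := Nat.cast_nonneg _
  rcases j with _ | l
  · refine abs_Eh_le_const fun ω => ?_
    have h1 := sum_u_sq h U ω
    have h2 : 0 ≤ ∑ q, Y.u U q ω ^ 2 := sum_nonneg fun _ _ => sq_nonneg _
    rw [two_Lj h.hK] at h1 h2
    rw [abs_le]
    constructor <;> linarith
  · have key : ∀ s : ℝ, s ^ 2 = 1 → s * Eh n (Y.Q U) Y.ρ 0 (Y.Lj U (some l)) ≤ 2 * Fintype.card I := by
      intro s hs
      have h1 := Fr_cvx (n := n) (P := Y.P) (ρ := Y.ρ) (Y.En U)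
        fun ω => Y.En U ω + s * Y.Lj U (some l) ω
      simp only [add_sub_cancel_left] at h1
      rw [Eh_const_mul] at h1
      have h2 := (tot_two h U Y.γ h.hγ).1
      have h3 := (tot_two h U (update Y.γ l (Y.γ l + s)) (c := 4) (by
        have e : ∑ i, update Y.γ l (Y.γ l + s) i ^ 2 = ∑ i, Y.γ i ^ 2 + (2 * s * Y.γ l + s ^ 2) := by
          rw [← Fintype.sum_pi_single' l (2 * s * Y.γ l + s ^ 2), ← sum_add_distrib]
          refine sum_congr rfl fun i _ => ?_
          by_cases e : i = l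
          · subst e; simp; ring
          · simp [e]
        have := abs_le.1 (h.abs_γ l)
        have := h.hγ
        rw [e]
        nlinarith [sq_nonneg (s - Y.γ l)])).2
      simp only [tot_updDens, update_eq_self, ← add_assoc] at h3
      change Fr n Y.P Y.ρ (fun ω => Y.En U ω + s * Y.Lj U (some l) ω) ≤ _ at h3
      change _ ≤ Fr n Y.P Y.ρ (Y.En U) at h2
      unfold Q
      linarith
    have := key 1 (by norm_num)
    have := key (-1) (by norm_num)
    rw [abs_le]
    constructor <;> linarith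

theorem pert_low (h : Y.St) (δ : Option (Fin (n + 1)) → ℝ) (U : OG I) :
    Y.F0 U - 2 * Fintype.card I * ∑ j, |δ j| ≤ (Y.pert δ).F0 U := by
  have h1 := Fr_cvx (n := n) (P := Y.P) (ρ := Y.ρ) (Y.En U) ((Y.pert δ).En U)
  simp only [En_Lj, add_sub_cancel_left, Eh_sum, Eh_const_mul] at h1
  have h2 : -(2 * Fintype.card I * ∑ j, |δ j|) ≤
      ∑ j, δ j * Eh n (Tn n Y.P (Y.En U)) Y.ρ 0 (Y.Lj U j) := by
    rw [mul_sum, ← sum_neg_distrib]
    refine sum_le_sum fun j _ => (neg_le_neg ?_).trans (neg_abs_le _)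
    rw [abs_mul, mul_comm]
    exact mul_le_mul_of_nonneg_right (abs_Eh_Lj h U j) (abs_nonneg _)
  change _ ≤ (Y.pert δ).F0 U at h1
  unfold F0 at *
  linarith

variable (Y) in
/-- Total distance of the directions from reference numbers. -/
noncomputable def Zs (D : Option (Fin (n + 1)) → ℝ) (U : OG I) : ℝ :=
  ∑ j, Eh n (Y.Q U) Y.ρ 0 fun x => |Y.Lj U j x - D j|

theorem cont_Zs (D : Option (Fin (n + 1)) → ℝ) : Continuous (Y.Zs D) :=
  continuous_finsetSum _ fun j _ => Y.cch.Eh n Y.ρ 0 fun ω =>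
    ((cont_Lj j ω).sub continuous_const).abs

theorem cont_fl (c : ℝ) : Continuous fun U => Y.ρ.E fun ω => |Xn n Y.P (Y.En U) ω - c| :=
  cont_E (m := fun _ => Y.ρ) (fun _ => continuous_const) fun ω =>
    ((cont_Xn n Y.P (cont_En id continuous_id) ω).sub continuous_const).abs

theorem fl_nonneg (c : ℝ) : 0 ≤ Y.fl c := integral_nonneg fun _ => E_nonneg _ fun _ => abs_nonneg _

theorem Z_one {h fl : ℝ} (hh : 0 < h) (j : Option (Fin (n + 1))) {a b c : ℝ}
    (ha : (Y.pert (Pi.single j h)).fl a ≤ fl) (hb : (Y.pert (Pi.single j (-h))).fl b ≤ fl)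
    (hc : Y.fl c ≤ fl) :
    h * ∫ U, Eh n (Y.Q U) Y.ρ 0 (fun x => |Y.Lj U j x - (a - b) / (2 * h)|) ∂(hr I) ≤
      3 / 2 * (a + b - 2 * c) + 7 * fl + (n + 1) ∧ 0 ≤ a + b - 2 * c + 4 * fl := by
  have p := fun U => pt3Near (n := n) Y.P Y.ρ (Y.En U) (Y.Lj U j) hh a b c
  simp only [← En_single] at p
  have ia := cont_fl (Y := Y.pert (Pi.single j h)) a
  have ib := cont_fl (Y := Y.pert (Pi.single j (-h))) b
  have ic := cont_fl (Y := Y) c
  have iz := Y.cch.Eh n Y.ρ 0 (f := fun U x => |Y.Lj U j x - (a - b) / (2 * h)|)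
    fun ω => ((cont_Lj j ω).sub continuous_const).abs
  have q1 := int_fourNear iz ia ib ic fun U => (p U).1
  have q2 := int_fourNear (t := 0) (k := a + b - 2 * c) (p := 1) (q := 1) (r := 2) (m := 0)
    iz ia ib ic fun U => by
      rw [zero_mul, one_mul, one_mul, add_zero]; exact (p U).2
  unfold Sys.fl at ha hb hc
  constructor <;> linarith

/-- The reference slopes. -/
noncomputable def slp (f : (Option (Fin (n + 1)) → ℝ) → ℝ) (h : ℝ) (j : Option (Fin (n + 1))) : ℝ :=
  (f (Pi.single j h) - f (Pi.single j (-h))) / (2 * h)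

theorem Z_int {h fl : ℝ} (hh : 0 < h) {f : (Option (Fin (n + 1)) → ℝ) → ℝ}
    (hf : ∀ j a, |a| ≤ h → (Y.pert (Pi.single j a)).fl (f (Pi.single j a)) ≤ fl) :
    h * ∫ U, Y.Zs (slp f h) U ∂(hr I) ≤ (2 + (n + 1) * (n + 2)) * (sd f h + 5 * (n + 2) * fl + 1) := by
  have h0 : Y.fl (f 0) ≤ fl := by
    have := hf none 0 (by simpa using hh.le)
    rwa [Pi.single_zero, pert_zero] at this
  have hfl : 0 ≤ fl := (fl_nonneg _).trans h0
  have p := fun j => Z_one hh j (hf j h (abs_of_pos hh).le)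
    (hf j (-h) (by rw [abs_neg, abs_of_pos hh])) h0
  have p1 := sum_le_sum (s := univ) fun j _ => (p j).1
  have p2 := sum_nonneg (s := univ) fun j _ => (p j).2
  simp only [sum_add_distrib, ← mul_sum, sum_const, card_univ, Fintype.card_option,
    Fintype.card_fin, nsmul_eq_mul] at p1
  rw [sum_add_distrib, sum_const, card_univ, Fintype.card_option, Fintype.card_fin,
    nsmul_eq_mul] at p2
  unfold Zs
  rw [integral_finsetSum _ fun j _ => intg (hr I) (Y.cch.Eh n Y.ρ 0
    (f := fun U x => |Y.Lj U j x - slp f h j|) fun ω => ((cont_Lj j ω).sub continuous_const).abs)]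
  refine p1.trans ?_
  change 0 ≤ sd f h + _ at p2
  change 3 / 2 * sd f h + _ + _ ≤ _
  push_cast at p2 ⊢
  have hn : (0 : ℝ) ≤ n := Nat.cast_nonneg n
  have q1 : 0 ≤ (n + 2) * fl := by positivity
  have q2 : 0 ≤ ((n : ℝ) + 1) * (n + 2) * (sd f h + 5 * (n + 2) * fl) :=
    mul_nonneg (by positivity) (by nlinarith)
  nlinarith

theorem Z_le (D : Option (Fin (n + 1)) → ℝ) (U : OG I) (j : Option (Fin (n + 1))) :
    Eh n (Y.Q U) Y.ρ 0 (fun x => |Y.Lj U j x - D j|) ≤ Y.Zs D U :=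
  single_le_sum (f := fun j => Eh n (Y.Q U) Y.ρ 0 fun x => |Y.Lj U j x - D j|)
    (fun _ _ => Eh_nonneg fun _ => abs_nonneg _) (mem_univ j)

theorem Zs_nonneg (D : Option (Fin (n + 1)) → ℝ) (U : OG I) : 0 ≤ Y.Zs D U :=
  sum_nonneg fun _ _ => Eh_nonneg fun _ => abs_nonneg _

theorem abs_Eh_sub (D : Option (Fin (n + 1)) → ℝ) (U : OG I) (j : Option (Fin (n + 1))) :
    |Eh n (Y.Q U) Y.ρ 0 (Y.Lj U j) - D j| ≤ Eh n (Y.Q U) Y.ρ 0 fun x => |Y.Lj U j x - D j| := by
  have := abs_Eh_le (n := n) (P := Y.Q U) (ρ := Y.ρ) (j := 0) fun x => Y.Lj U j x - D j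
  rwa [Eh_sub, Eh_const] at this

theorem fluct_le (D : Option (Fin (n + 1)) → ℝ) (U : OG I) :
    ∑ l, Eh n (Y.Q U) Y.ρ 0 (fun x => |fld Y.s (Y.u U) l x -
      Eh n (Y.Q U) Y.ρ 0 (fld Y.s (Y.u U) l)|) ≤ 2 * Y.Zs D U := by
  rw [Zs, Fintype.sum_option, mul_add, mul_sum]
  refine le_add_of_nonneg_of_le (mul_nonneg zero_le_two (Eh_nonneg fun _ => abs_nonneg _))
    (sum_le_sum fun l _ => ?_)
  refine (Eh_mono fun x => abs_sub_le _ (D (some l)) _).trans ?_
  have := abs_Eh_sub (Y := Y) D U (some l)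
  rw [abs_sub_comm] at this
  rw [Eh_add, Eh_const, two_mul]
  exact add_le_add le_rfl this

theorem cu_le {e : ℝ} (hK : 0 < K) (hI : 0 < Fintype.card I)
    (he : (Fintype.card I : ℝ) ^ 3 ≤ e * Real.sqrt K) :
    Real.sqrt (Fintype.card I) / Real.sqrt K * (Fintype.card I : ℝ) ^ 2 ≤ e := by
  have h1 : (1 : ℝ) ≤ Fintype.card I := by exact_mod_cast hI
  have h2 : Real.sqrt (Fintype.card I) ≤ Fintype.card I :=
    Real.sqrt_le_iff.2 ⟨by linarith, by nlinarith⟩
  rw [div_mul_eq_mul_div, div_le_iff₀ (Real.sqrt_pos.2 (by exact_mod_cast hK))]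
  refine le_trans ?_ he
  rw [pow_succ' _ 2]
  exact mul_le_mul_of_nonneg_right h2 (by positivity)

theorem card_cu (hK : 0 < K) : (Fintype.card (I × Fin K) : ℝ) *
    (Real.sqrt (Fintype.card I) / Real.sqrt K) ^ 2 = (Fintype.card I : ℝ) ^ 2 := by
  have h : (0 : ℝ) < K := by exact_mod_cast hK
  rw [div_pow, Real.sq_sqrt (Nat.cast_nonneg _), Real.sq_sqrt h.le, Fintype.card_prod,
    Fintype.card_fin]
  push_cast
  field_simp

theorem cum_close (h : Y.St) {N η e : ℝ} (hN : 1 ≤ N) (hI : 0 < Fintype.card I) (hη : 0 < η)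
    (hη1 : η ≤ 1) (hγ : ∀ l, η ≤ Y.γ l) (he : (Fintype.card I : ℝ) ^ 3 ≤ e * Real.sqrt K)
    (he1 : e ≤ 1 / 2) (D : Option (Fin (n + 1)) → ℝ) (U : OG I) (l : Fin (n + 1)) :
    |cum n (prof n (Y.Q U) Y.ρ (Y.R Y.S N U)) l - (2 * D none - D (some l) / Y.γ l) / N| ≤
      100 * e + 3 / (η * N) * Y.Zs D U := by
  have h1 : (1 : ℝ) ≤ Fintype.card I := by exact_mod_cast hI
  have hc := cu_le h.hK hI he
  have hc0 : 0 ≤ Real.sqrt (Fintype.card I) / Real.sqrt K := by positivity
  have hg := (hη.trans_le (hγ l))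
  have hg1 := (le_abs_self _).trans (h.abs_γ l)
  have hN0 : 0 < N := by linarith
  have hc1 : Real.sqrt (Fintype.card I) / Real.sqrt K ≤ e :=
    (le_mul_of_one_le_right hc0 (one_le_pow₀ h1)).trans hc
  have i := ibp_avg (fs h U) Y.γ l ((mul_le_mul (h.abs_γ l) (hc1.trans he1) hc0 zero_le_one).trans
    (by norm_num)) hN0
  rw [← Q_eq, ov_u h.hK, pow_succ' _ 2, mul_assoc (100 * Y.γ l ^ 2), mul_assoc (_ / _),
    mul_comm _ (Fintype.card (I × Fin K) : ℝ), card_cu h.hK] at i
  simp only [two_Lj h.hK, Eh_const_mul] at i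
  have i' := i.trans (mul_le_mul_of_nonneg_left hc (by positivity))
  have z0 := (abs_Eh_sub (Y := Y) D U none).trans (Z_le D U none)
  have z1 := (abs_Eh_sub (Y := Y) D U (some l)).trans (Z_le D U (some l))
  change |Eh n (Y.Q U) Y.ρ 0 (fld Y.s (Y.u U) l) - _| ≤ _ at z1
  have zz := Zs_nonneg (Y := Y) D U
  generalize Y.Zs D U = Z at *
  generalize cum n (prof n (Y.Q U) Y.ρ (Y.R Y.S N U)) l = c at *
  generalize Eh n (Y.Q U) Y.ρ 0 (fld Y.s (Y.u U) l) = a at *
  generalize Eh n (Y.Q U) Y.ρ 0 (Y.Lj U none) = b at *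
  have hγl := hγ l
  generalize Y.γ l = g at *
  have he0 : 0 ≤ e := hc0.trans hc1
  have e1 : c - (2 * D none - D (some l) / g) / N =
      ((a - g * (2 * b - N * c)) + 2 * g * (b - D none) - (a - D (some l))) / (g * N) := by
    field_simp; ring
  rw [e1, abs_div, abs_of_pos (mul_pos hg hN0), div_le_iff₀ (mul_pos hg hN0)]
  have e2 : 3 * Z ≤ 3 / (η * N) * Z * (g * N) := by
    rw [show 3 / (η * N) * Z * (g * N) = 3 * Z * (g / η) by field_simp]
    exact le_mul_of_one_le_right (by positivity) ((one_le_div hη).2 hγl)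
  have e3 : 100 * g ^ 2 * e ≤ 100 * e * (g * N) := by
    have : g ≤ N := hg1.trans hN
    have := mul_le_mul_of_nonneg_left this (by positivity : 0 ≤ 100 * e * g)
    nlinarith
  have e4 : |2 * g * (b - D none)| ≤ 2 * Z := by
    rw [abs_mul, abs_of_pos (by positivity)]
    exact mul_le_mul (by linarith) z0 (abs_nonneg _) zero_le_two
  have e5 := abs_sub ((a - g * (2 * b - N * c)) + 2 * g * (b - D none)) (a - D (some l))
  have e6 := abs_add_le (a - g * (2 * b - N * c)) (2 * g * (b - D none))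
  rw [add_mul]
  linarith

end Sys

end Vale.Agent.P166
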