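import Vale.Agent.P166.Ward

/-!
# P166: moving eigenvalues and adding a spin
-/

namespace Vale.Agent.P166

open MeasureTheory Finset Vale.Agent.P168 Vale.Agent.P168.PW Vale.Agent.P157 Function Filter Topology
open scoped BigOperators

section aux
variable {n K : ℕ} {Ω I : Type} [Fintype Ω] [Fintype I] [DecidableEq I]

theorem F_cvxP (Y Y' : Sys n K Ω I) (hP : Y'.P = Y.P) (hρ : Y'.ρ = Y.ρ) :
    Y.F + Y.I1 (fun U ω => Y'.En U ω - Y.En U ω) ≤ Y'.F := by
  have c : Continuous fun U => Eh n (Y.Q U) Y.ρ 0 fun ω => Y'.En U ω - Y.En U ω :=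
    Y.cont_EhA (fun ω => (Sys.cont_En id continuous_id ω).sub (Sys.cont_En id continuous_id ω)) 0
  rw [Sys.F, Sys.F, Sys.I1, ← integral_add (intg _ Y.cont_F0) (intg _ c)]
  refine int_mono _ (Y.cont_F0.add c) Y'.cont_F0 fun U => ?_
  simp only [Sys.F0, hP, hρ]
  exact Fr_cvx _ _

theorem I1_sumP (Y : Sys n K Ω I) {ι : Type} (A : Finset ι) (c : ι → ℝ) {f : ι → OG I → Ω → ℝ}
    (hf : ∀ i ω, Continuous fun U => f i U ω) :
    Y.I1 (fun U ω => ∑ i ∈ A, c i * f i U ω) = ∑ i ∈ A, c i * Y.I1 (f i) := by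
  simp only [Sys.I1, Eh_sum, Eh_const_mul]
  rw [integral_finsetSum _ fun i _ => intg _ ((Y.cont_EhA (hf i) 0).const_mul _)]
  simp only [integral_const_mul]

theorem I1_absP (Y : Sys n K Ω I) {f g : OG I → Ω → ℝ} (hf : ∀ ω, Continuous fun U => f U ω)
    (hg : ∀ ω, Continuous fun U => g U ω) (h : ∀ U ω, |f U ω| ≤ g U ω) : |Y.I1 f| ≤ Y.I1 g :=
  (abs_integral_le_integral_abs).trans (int_mono _ (Y.cont_EhA hf 0).abs (Y.cont_EhA hg 0)
    fun U => (abs_Eh_le _).trans (Eh_mono (h U)))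

theorem derP (Y : ℝ → Sys n K Ω I) (P : Ch Ω) (ρ : PW Ω) (hP : ∀ a, (Y a).P = P)
    (hρ : ∀ a, (Y a).ρ = ρ) (D : ℝ → OG I → Ω → ℝ)
    (c1 : ∀ ω, Continuous fun z : ℝ × OG I => (Y z.1).En z.2 ω)
    (c2 : ∀ ω, Continuous fun z : ℝ × OG I => D z.1 z.2 ω)
    (hd : ∀ a U ω, HasDerivAt (fun a => (Y a).En U ω) (D a U ω) a) (a : ℝ) :
    HasDerivAt (fun a => (Y a).F) ((Y a).I1 (D a)) a := by
  simp only [Sys.F, Sys.F0, Sys.I1, Sys.Q, hP, hρ]
  exact deriv_int (hr I) (Φ := fun a U => Fr n P ρ ((Y a).En U))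
    (Φ' := fun a U => Eh n (Tn n P ((Y a).En U)) ρ 0 (D a U)) (cont_Fr n P ρ c1)
    ((cch_Tn n P c1).Eh n ρ 0 c2)
    (fun s U => hasDerivAt_E ρ (hasDerivAt_X (al_pos n) (hd s U) _)) a

theorem mvtP {f f' : ℝ → ℝ} {a b e : ℝ} (hab : a ≤ b)
    (hd : ∀ s, a ≤ s → s ≤ b → HasDerivAt f (f' s) s)
    (h : ∀ s, a ≤ s → s ≤ b → |f' s| ≤ e) : |f b - f a| ≤ e * (b - a) := by
  have := Convex.norm_image_sub_le_of_norm_hasDerivWithin_le (f := f) (f' := f') (C := e)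
    (s := Set.Icc a b) (fun x hx => (hd x hx.1 hx.2).hasDerivWithinAt) (fun x hx => h x hx.1 hx.2)
    (convex_Icc a b) (Set.left_mem_Icc.2 hab) (Set.right_mem_Icc.2 hab)
  simpa only [Real.norm_eq_abs, abs_of_nonneg (sub_nonneg.2 hab)] using this

theorem crudeP {X C M : ℝ} {Y Y' : Sys n K Ω I} {T : Finset I} {κT : ℝ} (h : Y.Ok T κT X C)
    (h' : Y'.Ok T κT X C) (hP : Y'.P = Y.P) (hρ : Y'.ρ = Y.ρ) (hS : Y'.S = Y.S)
    (hσ : Y'.σ = Y.σ) (hG : Y'.G = Y.G) (hs : Y'.s = Y.s) (hγ : Y'.γ = Y.γ)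
    (hκ : ∀ i ∉ Y.S \ T, Y'.κ i = Y.κ i) (hM0 : 0 ≤ M)
    (hM : ∀ i, Y.I1 (fun U ω => Y.t U ω i ^ 4) ≤ M) :
    Y.F - Y'.F ≤ |C| * (3 * |C| + 1 + (|C| + 1) * M) := by
  have hC : 0 ≤ C := (Nat.cast_nonneg _).trans h.cS
  rw [abs_of_nonneg hC]
  have ht : Y'.t = Y.t := by funext U ω; rw [Sys.t, Sys.t, hσ]
  have hu : Y'.u = Y.u := by funext U q ω; rw [Sys.u, Sys.u, ht, hS]
  have e : ∀ U ω, Y'.En U ω - Y.En U ω = ∑ i ∈ Y.S \ T,
      1 * ((Y'.κ i - Y.κ i) / 2 * Y.t U ω i ^ 2 + (Y'.b ω i - Y.b ω i) * Y.t U ω i) := fun U ω => by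
    rw [sum_subset (subset_univ _) fun i _ hi => by
      have : Y'.b ω i = 0 ∧ Y.b ω i = 0 := by
        by_cases h1 : i ∈ Y.S
        · have h2 : i ∈ T := by simpa [h1] using hi
          exact ⟨h'.b_T ω i h2, h.b_T ω i h2⟩
        · exact ⟨h'.b_S ω i (hS ▸ h1), h.b_S ω i h1⟩
      rw [hκ i hi, this.1, this.2]; ring]
    simp only [Sys.En, Sys.H, ht, hu, hG, hs, hγ, one_mul, sum_add_distrib, sub_mul, sub_div,
      sum_sub_distrib, div_mul_eq_mul_div, ← sum_div]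
    ring
  have k := F_cvxP Y Y' hP hρ
  simp only [e] at k
  rw [I1_sumP Y _ _ fun i ω => by fun_prop] at k
  have k2 := abs_le.mp ((abs_sum_le_sum_abs _ _).trans (sum_le_card_nsmul (Y.S \ T) (fun i =>
    |1 * Y.I1 fun U ω => (Y'.κ i - Y.κ i) / 2 * Y.t U ω i ^ 2 + (Y'.b ω i - Y.b ω i) * Y.t U ω i|)
    (3 * C + 1 + (C + 1) * M) fun i _ => by
      rw [one_mul]
      refine (I1_absP Y (g := fun U ω => 3 * C + 1 + (C + 1) * Y.t U ω i ^ 4)
        (fun _ => by fun_prop) (fun _ => by fun_prop) fun U ω => ?_).trans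
        (Sys.I1_leW (fun _ => by fun_prop) (by linarith) (fun _ _ => le_rfl) (hM i))
      have a1 := (single_le_sum (f := fun i => Y.b ω i ^ 2) (fun _ _ => sq_nonneg _)
        (mem_univ i)).trans (h.b_bd ω)
      have a2 := (single_le_sum (f := fun i => Y'.b ω i ^ 2) (fun _ _ => sq_nonneg _)
        (mem_univ i)).trans (h'.b_bd ω)
      have a3 : |(Y'.κ i - Y.κ i) / 2| ≤ C := by
        have := abs_le.mp (h.κ_bd i); have := abs_le.mp (h'.κ_bd i)
        rw [abs_le]; constructor <;> linarith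
      have a4 := abs_le.mp (abs_mul_le' a3 (le_of_eq (abs_of_nonneg (sq_nonneg (Y.t U ω i)))))
      generalize Y.t U ω i = t at *
      have a5 : t ^ 2 ≤ 1 + t ^ 4 := by nlinarith [sq_nonneg (t ^ 2 - 1), sq_nonneg t]
      have a6 := mul_le_mul_of_nonneg_left a5 hC
      rw [abs_le]
      constructor <;> nlinarith [sq_nonneg (Y'.b ω i - t), sq_nonneg (Y'.b ω i + t),
        sq_nonneg (Y.b ω i - t), sq_nonneg (Y.b ω i + t)]))
  rw [nsmul_eq_mul] at k2
  have := mul_le_mul_of_nonneg_right h.cS (show 0 ≤ 3 * C + 1 + (C + 1) * M by positivity)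
  linarith [k2.1]

theorem ok_midP {X C : ℝ} {Y : Sys n K Ω I} {T : Finset I} {κT : ℝ} {κ' : I → ℝ}
    (h : Y.Ok T κT X C) (h' : ({ Y with κ := κ' } : Sys n K Ω I).Ok T κT X C)
    (hκ : ∀ i ∉ Y.S \ T, κ' i = Y.κ i) {a : ℝ} (h0 : 0 ≤ a) (h1 : a ≤ 1) :
    ({ Y with κ := fun i => Y.κ i + a * (κ' i - Y.κ i) } : Sys n K Ω I).Ok T κT X C where
  toSt := ⟨h.ok, h.lv, h.inv_σ, h.inv_b, h.inv_G, h.nσ, h.hK, h.hγ⟩
  TS := h.TS
  κ_T := fun i hi => by simp [hκ i (by simp [hi]), h.κ_T i hi]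
  κ_le := fun i => by
    have a1 := h.κ_le i
    have a2 : κ' i ≤ κT := h'.κ_le i
    change Y.κ i + a * (κ' i - Y.κ i) ≤ κT
    nlinarith
  κ_bd := fun i => by
    have a1 := abs_le.mp (h.κ_bd i)
    have a2 : -C ≤ κ' i ∧ κ' i ≤ C := abs_le.mp (h'.κ_bd i)
    change |Y.κ i + a * (κ' i - Y.κ i)| ≤ C
    rw [abs_le]; constructor <;> nlinarith
  κT_bd := h.κT_bd
  b_T := h.b_T
  b_S := h.b_S
  b_bd := h.b_bd
  hI := h.hI
  cT := h.cT
  cS := h.cS
  blk := fun i hi => by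
    obtain ⟨B, h2, h3, h4, h5⟩ := h.blk i hi
    refine ⟨B, h2, h3, fun j hj => ?_, h5⟩
    have a1 : κ' j = Y.κ j := hκ j fun hh => disjoint_left.mp h3 hj (mem_sdiff.mp hh).1
    have a2 : κ' i = Y.κ i := hκ i fun hh => hi (mem_sdiff.mp hh).1
    simp [a1, a2, h4 j hj]

theorem der_logP {c d x a : ℝ} (h : 0 < 1 + (c - a * d) * x) :
    HasDerivAt (fun a => Real.log (1 + (c - a * d) * x)) (-d * (x / (1 + (c - a * d) * x))) a := by
  refine (((((hasDerivAt_id a).mul_const d).const_sub c).mul_const x).const_add 1).log h.ne'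
    |>.congr_deriv ?_
  simp only [id]; ring

theorem der_fcP {X : ℝ} {r : ℕ → ℝ} (hr : Pr n X r) {c d a : ℝ} (h : 0 ≤ c - a * d) :
    HasDerivAt (fun a => fc n (fun x => Real.log (1 + (c - a * d) * x)) r 0)
      (-d * zc n (c - a * d) r 0) a := by
  rw [zc, ← fc_const_mul]
  refine HasDerivAt.fun_sum fun l hl => HasDerivAt.div_const (HasDerivAt.fun_sub ?_ ?_) _
  · have := (hr.chi_mem (l := l + 1) (by have := mem_Icc.mp hl; omega)).1
    exact der_logP (by positivity)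
  · have := (hr.chi_mem (l := l) (by have := mem_Icc.mp hl; omega)).1
    exact der_logP (by positivity)

end aux

theorem crude (X C : ℝ) : ∃ M : ℝ, 0 ≤ M ∧ ∀ (n K : ℕ) (Ω I : Type) [Fintype Ω] [Fintype I]
    [DecidableEq I] (Y : Sys n K Ω I) (T : Finset I) (κT : ℝ) (κ' : I → ℝ) (b' : Ω → I → ℝ),
    Y.Ok T κT X C → ({ Y with κ := κ', b := b' } : Sys n K Ω I).Ok T κT X C →
    (∀ i ∉ Y.S \ T, κ' i = Y.κ i) →
    |({ Y with κ := κ', b := b' } : Sys n K Ω I).F - Y.F| ≤ M * Real.sqrt (Fintype.card I) := by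
  obtain ⟨M, hM1, hM⟩ := m4 X C
  have hM0 : 0 ≤ M := by linarith
  refine ⟨|C| * (3 * |C| + 1 + (|C| + 1) * M), by positivity,
    fun n K Ω I _ _ _ Y T κT κ' b' h h' hκ => ?_⟩
  have h1 := crudeP h h' rfl rfl rfl rfl rfl rfl rfl hκ hM0 (hM n K Ω I Y T κT h)
  have h2 := crudeP h' h rfl rfl rfl rfl rfl rfl rfl (fun i hi => (hκ i hi).symm) hM0
    (hM n K Ω I _ T κT h')
  refine le_trans (abs_le.mpr ⟨by linarith, h2⟩) (le_mul_of_one_le_right (by positivity) ?_)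
  exact Real.one_le_sqrt.mpr (by exact_mod_cast h.hI)

theorem move (X C θ : ℝ) (hθ : 0 < θ) : ∃ M : ℝ, 0 ≤ M ∧ ∀ (n K : ℕ) (Ω I : Type) [Fintype Ω]
    [Fintype I] [DecidableEq I] (Y : Sys n K Ω I) (T : Finset I) (κT N e Δ : ℝ) (r : ℕ → ℝ)
    (κ' : I → ℝ), Y.Ok T κT X C → ({ Y with κ := κ' } : Sys n K Ω I).Ok T κT X C →
    Sys.Nz K I T X N e → Pr n X r → (∀ ω i, Y.b ω i = 0) → (∀ i ∉ Y.S \ T, κ' i = Y.κ i) →
    (∀ a : ℝ, 0 ≤ a → a ≤ 1 →
      ({ Y with κ := fun i => Y.κ i + a * (κ' i - Y.κ i) } : Sys n K Ω I).dv N r ≤ Δ) →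
    |({ Y with κ := κ' } : Sys n K Ω I).F - Y.F + fc n (fun x => ∑ i ∈ Y.S \ T,
      (Real.log (1 + (κT - κ' i) * x) - Real.log (1 + (κT - Y.κ i) * x))) r 0 / 2| ≤
      θ + M * (Δ + e) := by
  obtain ⟨M, hM, H⟩ := ward1 X C (θ / (C ^ 2 + 1)) (by positivity)
  refine ⟨C ^ 2 * M, by positivity,
    fun n K Ω I _ _ _ Y T κT N e Δ r κ' h h' z hr hb hκ hΔ => ?_⟩
  have hC : 0 ≤ C := (Nat.cast_nonneg _).trans h.cS
  set Z : ℝ → Sys n K Ω I := fun a => { Y with κ := fun i => Y.κ i + a * (κ' i - Y.κ i) } with hZ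
  have eE : ∀ a U ω, (Z a).En U ω =
      Y.En U ω + a * ∑ i ∈ Y.S \ T, (κ' i - Y.κ i) / 2 * Y.t U ω i ^ 2 := fun a U ω => by
    rw [sum_subset (subset_univ _) fun i _ hi => by rw [hκ i hi]; ring]
    change (∑ i, (Y.κ i + a * (κ' i - Y.κ i)) * Y.t U ω i ^ 2) / 2 + ∑ i, Y.b ω i * Y.t U ω i +
      Y.G ω + tot (fld Y.s (Y.u U)) Y.γ ω = _
    simp only [Sys.En, Sys.H, add_mul, sum_add_distrib, mul_assoc, ← mul_sum, div_mul_eq_mul_div,
      ← sum_div]
    ring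
  have d1 := derP Z Y.P Y.ρ (fun _ => rfl) (fun _ => rfl)
    (fun _ U ω => ∑ i ∈ Y.S \ T, (κ' i - Y.κ i) / 2 * Y.t U ω i ^ 2)
    (fun ω => by
      simp only [eE]
      exact (Sys.cont_En _ continuous_snd ω).add (continuous_fst.mul (continuous_finsetSum _
        fun i _ => ((Sys.cont_t _ continuous_snd ω i).pow 2).const_mul _)))
    (fun ω => continuous_finsetSum _
        fun i _ => ((Sys.cont_t _ continuous_snd ω i).pow 2).const_mul _)
    fun a U ω => by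
      simp only [eE]
      simpa using ((hasDerivAt_id a).mul_const _).const_add (Y.En U ω)
  have key := mvtP (f := fun a => (Z a).F + (∑ i ∈ Y.S \ T,
      fc n (fun x => Real.log (1 + (κT - Y.κ i - a * (κ' i - Y.κ i)) * x)) r 0) / 2)
    (f' := fun a => ∑ i ∈ Y.S \ T, (κ' i - Y.κ i) / 2 * ((Z a).I1 (fun U ω => Y.t U ω i ^ 2) -
      zc n (κT - Y.κ i - a * (κ' i - Y.κ i)) r 0))
    (e := C * (C * (θ / (C ^ 2 + 1) + M * (Δ + e)))) zero_le_one
    (fun a h0 h1 => by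
      refine ((d1 a).add ((HasDerivAt.fun_sum fun i _ => der_fcP hr (by
        have : Y.κ i + a * (κ' i - Y.κ i) ≤ κT := (ok_midP h h' hκ h0 h1).κ_le i
        linarith)).div_const 2)).congr_deriv ?_
      rw [I1_sumP _ _ _ fun i ω => by fun_prop, sum_div, ← sum_add_distrib]
      exact sum_congr rfl fun i _ => by ring)
    fun a h0 h1 => by
      have hd := (Z a).dv_nonneg N r
      have he := z.eW.1
      have hΔ' := hΔ a h0 h1
      refine (abs_sum_le_sum_abs _ _).trans ((sum_le_card_nsmul _ _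
        (C * (θ / (C ^ 2 + 1) + M * (Δ + e))) fun i hi => abs_mul_le' ?_ ?_).trans ?_)
      · have := abs_le.mp (h.κ_bd i)
        have : -C ≤ κ' i ∧ κ' i ≤ C := abs_le.mp (h'.κ_bd i)
        rw [abs_le]; constructor <;> linarith
      · rw [sub_sub]
        exact (H n K Ω I (Z a) T κT N e r (ok_midP h h' hκ h0 h1) z hr hb i hi).trans
          (by gcongr)
      · rw [nsmul_eq_mul]
        have : 0 ≤ Δ := hd.trans hΔ'
        exact mul_le_mul_of_nonneg_right h.cS (by positivity)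
  have e0 : Z 0 = Y := by simp [hZ]
  have e1 : Z 1 = { Y with κ := κ' } := by simp [hZ]
  simp only [e0, e1, one_mul, zero_mul, sub_zero, mul_one,
    show ∀ i, κT - Y.κ i - (κ' i - Y.κ i) = κT - κ' i from fun i => by ring] at key
  rw [fc_sum]
  simp only [fc_sub, sum_sub_distrib]
  refine le_trans (le_of_eq (congrArg _ (by ring))) (key.trans ?_)
  have : C * (C * (θ / (C ^ 2 + 1))) ≤ θ := by
    rw [← mul_assoc, ← mul_div_assoc, div_le_iff₀ (by positivity)]; nlinarith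
  nlinarith

theorem cavP {n K : ℕ} {Ω I : Type} [Fintype Ω] [Fintype I] [DecidableEq I] {Y : Sys n K Ω I}
    {C e : ℝ} {q : ℕ → ℝ} {ε : Ω → ℝ} {bh : I → ℝ} {s2 : Fam (Fin (n + 1) × Fin K) Ω}
    {α : Fin (n + 1) → ℝ} (hK : 0 < K) (he : 1 ≤ e * Real.sqrt K) (hq : Pr n C q) (hC : 1 ≤ C)
    (hCe : C * e ≤ 1 / 2) (hε : ∀ ω, ε ω ^ 2 = 1) (h1 : s2.Ok Y.P Y.ρ)
    (h2 : ∀ l k, s2.lv (l, k) = l) (h3 : s2.Inv Y.σ) (h4 : s2.Inv Y.G) (h5 : s2.Inv ε)
    (h6 : ∀ l, s2.Inv (Y.s.τ l)) (hα : ∀ l : Fin (n + 1), α l ^ 2 = q l - q (l + 1)) (φ : ℝ)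
    (U : OG I) :
    |Eh n ((Y.cav ε bh s2 α φ).Q U) Y.ρ 0 (tot (fld s2 fun _ ω => ε ω / Real.sqrt K) α) -
      Real.cos φ * (q 0 - wt n * ∑ j ∈ Icc 1 (n + 1),
        E2 n ((Y.cav ε bh s2 α φ).Q U) Y.ρ j (fun x y => ε x * ε y) * q j)| ≤ 100 * C ^ 2 * e := by
  have hK' : (0 : ℝ) < K := by exact_mod_cast hK
  have hs : 0 < Real.sqrt K := Real.sqrt_pos.mpr hK'
  have he' : (Real.sqrt K)⁻¹ ≤ e := by rw [inv_le_iff_one_le_mul₀ hs]; exact he
  have hε1 : ∀ ω, |ε ω| = 1 := fun ω => by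
    rw [← sq_eq_sq₀ (abs_nonneg _) zero_le_one, sq_abs, hε, one_pow]
  set B : Ω → ℝ := fun ω => (∑ i, Y.κ i * Y.t U ω i ^ 2) / 2 +
    ∑ i, Real.sin φ * bh i * ε ω * Y.t U ω i + Y.G ω + tot (fld Y.s (Y.u U)) Y.γ ω with hB
  have it : s2.Inv (Y.t U) := fun l ω => by rw [Sys.t, Sys.t, h3]
  have fs : FS s2 (fun _ ω => ε ω / Real.sqrt K) (Real.sqrt K)⁻¹ (Tn n Y.P B) Y.ρ :=
    ⟨h1.Tn fun l ω => by
      simp only [hB, tot, fld, Sys.u, it l ω, h5 l ω, h4 l ω, fun m => h6 m l ω],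
      h2, fun _ l ω => by rw [h5], fun _ ω => by
        rw [abs_div, hε1, abs_of_pos hs, one_div]⟩
  have eQ : Tn n (Tn n Y.P B) (tot (fld s2 fun _ ω => ε ω / Real.sqrt K)
      fun l => Real.cos φ * α l) = (Y.cav ε bh s2 α φ).Q U := by
    rw [Tn_Tn, Sys.Q]
    congr 1
    funext ω
    change _ = (∑ i, Y.κ i * Y.t U ω i ^ 2) / 2 + ∑ i, Real.sin φ * bh i * ε ω * Y.t U ω i +
      (Y.G ω + Real.cos φ * tot (fld s2 fun _ ω => ε ω / Real.sqrt K) α ω) +
      tot (fld Y.s (Y.u U)) Y.γ ω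
    simp only [hB, tot, mul_sum, mul_assoc]
    ring
  have sα : ∑ l, α l ^ 2 = q 0 := by
    rw [sum_congr rfl fun l _ => hα l, Fin.sum_univ_eq_sum_range (fun l => q l - q (l + 1)),
      sum_range_sub', hq.top, sub_zero]
  have bα : ∀ l, |α l| ≤ C := fun l => abs_le_of_sq_le_sq' (by
    have := (single_le_sum (f := fun l => α l ^ 2) (fun _ _ => sq_nonneg _) (mem_univ l))
    nlinarith [hq.le]) (by linarith) |> abs_le.mpr
  have bβ : ∀ l, |Real.cos φ * α l| ≤ |α l| := fun l => by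
    simpa using abs_mul_le' (Real.abs_cos_le_one φ) (le_refl |α l|)
  have k := fun l => abs_mul_le' (bα l) (ibp_avg fs (fun l => Real.cos φ * α l) l
    ((mul_le_mul ((bβ l).trans (bα l)) he' (by positivity) (by linarith)).trans hCe) one_pos)
  have eo : ov (fun (_ : Fin K) ω => ε ω / Real.sqrt K) 1 = fun x y => ε x * ε y := by
    funext x y
    simp only [ov, div_mul_div_comm, Real.mul_self_sqrt hK'.le, sum_const, card_univ,
      Fintype.card_fin, nsmul_eq_mul, div_one]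
    field_simp
  have es : ∀ x, ∑ _i : Fin K, (ε x / Real.sqrt K) ^ 2 = 1 := fun x => by
    simp only [div_pow, hε, Real.sq_sqrt hK'.le, sum_const, card_univ, Fintype.card_fin,
      nsmul_eq_mul]
    field_simp
  simp only [eQ, eo, es, Eh_const, one_mul, Fintype.card_fin] at k
  set Q := (Y.cav ε bh s2 α φ).Q U
  have e1 : wt n * ∑ j ∈ Icc 1 (n + 1), E2 n Q Y.ρ j (fun x y => ε x * ε y) * q j =
      ∑ l : Fin (n + 1), α l ^ 2 * cum n (prof n Q Y.ρ fun x y => ε x * ε y) l := by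
    have := sum_vr_cum (n := n) (prof n Q Y.ρ fun x y => ε x * ε y) q
    rw [sum_range_succ, show vr n q (n + 1) = 0 by simp [vr, hq.top], zero_mul, add_zero,
      ← Fin.sum_univ_eq_sum_range (fun l => vr n q l * cum n _ l)] at this
    rw [show (fun j => E2 n Q Y.ρ j (fun x y => ε x * ε y) * q j) =
      fun j => prof n Q Y.ρ (fun x y => ε x * ε y) j * q j from rfl, ← this]
    exact sum_congr rfl fun l _ => by rw [hα, vr, if_pos (by omega)]
  rw [e1, ← sα, show Eh n Q Y.ρ 0 (tot (fld s2 fun _ ω => ε ω / Real.sqrt K) α) =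
    ∑ l, α l * Eh n Q Y.ρ 0 (fld s2 (fun _ ω => ε ω / Real.sqrt K) l) by
      simp only [← Eh_const_mul, ← Eh_sum]; rfl, ← sum_sub_distrib, mul_sum, ← sum_sub_distrib]
  refine (abs_sum_le_sum_abs _ _).trans ((sum_le_sum (g := fun l => α l ^ 2 * (100 * C * e))
    fun l _ => ?_).trans ?_)
  · refine le_trans (le_of_eq (congrArg _ (by ring))) ((k l).trans ?_)
    have a1 : (Real.sqrt K)⁻¹ ^ 3 * K ≤ e := by
      refine le_trans (le_of_eq ?_) he'
      nth_rewrite 2 [← Real.mul_self_sqrt hK'.le]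
      field_simp
    have a2 : (Real.cos φ * α l) ^ 2 ≤ α l ^ 2 := sq_le_sq.mpr (bβ l)
    have a3 := mul_le_mul a2 a1 (by positivity) (sq_nonneg _)
    nlinarith
  · rw [← sum_mul, sα]
    have : 0 ≤ e := le_trans (by positivity) he'
    have := mul_le_mul_of_nonneg_right hq.le (show 0 ≤ 100 * C * e by positivity)
    linarith

theorem cavi (X C θ : ℝ) (hθ : 0 < θ) : ∃ M : ℝ, 0 ≤ M ∧ ∀ (n K : ℕ) (Ω I : Type) [Fintype Ω]
    [Fintype I] [DecidableEq I] (Y : Sys n K Ω I) (T : Finset I) (κT N e Δ D : ℝ) (r q : ℕ → ℝ)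
    (ε : Ω → ℝ) (bh : I → ℝ) (s2 : Fam (Fin (n + 1) × Fin K) Ω) (α : Fin (n + 1) → ℝ),
    (∀ φ, (Y.cav ε bh s2 α φ).Ok T κT X C) → Sys.Nz K I T X N e → Pr n X r → Pr n C q →
    1 ≤ C → C * e ≤ 1 / 2 → (∀ ω, ε ω ^ 2 = 1) → (∀ i ∉ Y.S \ T, bh i = 0) → ∑ i, bh i ^ 2 ≤ C →
    s2.Ok Y.P Y.ρ → (∀ l k, s2.lv (l, k) = l) → s2.Inv Y.σ → s2.Inv Y.G → s2.Inv ε →
    (∀ l, s2.Inv (Y.s.τ l)) → (∀ l : Fin (n + 1), α l ^ 2 = q l - q (l + 1)) →
    (∀ j, j ≤ n + 1 → |q j - ∑ i, bh i ^ 2 * zc n (κT - Y.κ i) r j| ≤ D) →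
    (∀ φ, (Y.cav ε bh s2 α φ).dv N r ≤ Δ) →
    |(Y.cav ε bh s2 α (Real.pi / 2)).F - (Y.cav ε bh s2 α 0).F| ≤ θ + M * (Δ + e + D) := by
  obtain ⟨M, hM, H⟩ := wardE X C (θ / (2 * |C| + 1)) (by positivity)
  refine ⟨2 * (|C| * M + 2 + 100 * C ^ 2), by positivity, fun n K Ω I _ _ _ Y T κT N e Δ D r q ε
    bh s2 α h z hr hq hC hCe hε hb0 hb h1 h2 h3 h4 h5 h6 hα hD hΔ => ?_⟩
  rw [abs_of_nonneg (show 0 ≤ C by linarith)] at H ⊢
  have he := z.eW.1
  have hΔ0 : 0 ≤ Δ := (Sys.dv_nonneg _ _).trans (hΔ 0)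
  have hD0 : 0 ≤ D := (abs_nonneg _).trans (hD 0 (by omega))
  have hε1 : ∀ ω, |ε ω| ≤ 1 := fun ω => sq_le_one_iff_abs_le_one _ |>.mp (hε ω).le
  have heK : 1 ≤ e * Real.sqrt K :=
    le_trans (one_le_pow₀ (by exact_mod_cast (h 0).hI)) z.hK
  set L := tot (fld s2 fun _ ω => ε ω / Real.sqrt K) α with hL
  have eE : ∀ φ U ω, (Y.cav ε bh s2 α φ).En U ω =
      (∑ i, Y.κ i * Y.t U ω i ^ 2) / 2 + Y.G ω + tot (fld Y.s (Y.u U)) Y.γ ω +
      (Real.sin φ * ∑ i ∈ Y.S \ T, bh i * (ε ω * Y.t U ω i) + Real.cos φ * L ω) := fun φ U ω => by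
    rw [sum_subset (subset_univ (Y.S \ T)) fun i _ hi => by rw [hb0 i hi, zero_mul]]
    change (∑ i, Y.κ i * Y.t U ω i ^ 2) / 2 + ∑ i, Real.sin φ * bh i * ε ω * Y.t U ω i +
      (Y.G ω + Real.cos φ * L ω) + tot (fld Y.s (Y.u U)) Y.γ ω = _
    simp only [mul_sum, mul_assoc]
    ring
  have ct : ∀ ω, Continuous fun z : ℝ × OG I => ∑ i ∈ Y.S \ T, bh i * (ε ω * Y.t z.2 ω i) :=
    fun ω => continuous_finsetSum _ fun i _ =>
      ((Sys.cont_t _ continuous_snd ω i).const_mul _).const_mul _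
  have d1 := derP (Y.cav ε bh s2 α) Y.P Y.ρ (fun _ => rfl) (fun _ => rfl)
    (fun φ U ω => Real.cos φ * ∑ i ∈ Y.S \ T, bh i * (ε ω * Y.t U ω i) - Real.sin φ * L ω)
    (fun ω => by
      simp only [eE]
      refine Continuous.add (Continuous.add (Continuous.add ?_ continuous_const) ?_)
        (((Real.continuous_sin.comp continuous_fst).mul (ct ω)).add (by fun_prop))
      · exact (continuous_finsetSum _ fun i _ =>
          ((Sys.cont_t _ continuous_snd ω i).pow 2).const_mul _).div_const _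
      · exact continuous_finsetSum _ fun l _ => (Sys.cont_fld _ continuous_snd l ω).const_mul _)
    (fun ω => ((Real.continuous_cos.comp continuous_fst).mul (ct ω)).sub (by fun_prop))
    fun φ U ω => by
      simp only [eE]
      refine ((((Real.hasDerivAt_sin φ).mul_const _).add
        ((Real.hasDerivAt_cos φ).mul_const _)).const_add _).congr_deriv ?_
      ring
  have key := mvt_abs (a := 0) (b := Real.pi / 2)
    (e := C * (θ / (2 * C + 1) + M * (Δ + e)) + 2 * D + 100 * C ^ 2 * e) (by positivity) d1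
    fun φ _ _ => by
      set Z := Y.cav ε bh s2 α φ with hZ
      set p : ℕ → ℝ := fun j => Z.I2 j fun _ x y => ε x * ε y with hp
      have cp : ∀ j, Continuous fun U => E2 n (Z.Q U) Z.ρ j fun x y => ε x * ε y := fun j =>
        Z.cont_E2A (F := fun _ x y => ε x * ε y) (fun _ _ => continuous_const) j
      have cL : Continuous fun U => Eh n (Z.Q U) Z.ρ 0 L :=
        Z.cont_EhA (F := fun _ => L) (fun _ => continuous_const) 0
      have p0 : p 0 = 1 := by simp [hp, Sys.I2, E2, A_of_le, ← sq, hε, Eh_const]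
      have p1 : ∀ j, |p j| ≤ 1 := fun j => abs_integral_le_integral_abs.trans
        (int_le_const _ (cp j).abs fun U => (abs_E2_le _).trans (E2_le_const fun x y => by
          simpa using abs_mul_le' (hε1 x) (hε1 y)))
      have a1 : |Z.I1 (fun _ => L) - Real.cos φ * (q 0 - wt n * ∑ j ∈ Icc 1 (n + 1), p j * q j)| ≤
          100 * C ^ 2 * e := by
        have c3 : Continuous fun U => Real.cos φ * (q 0 - wt n * ∑ j ∈ Icc 1 (n + 1),
            E2 n (Z.Q U) Z.ρ j (fun x y => ε x * ε y) * q j) := by fun_prop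
        have := abs_integral_le_integral_abs.trans (int_le_const (Vale.Agent.P166.hr I)
          (cL.fun_sub c3).abs fun U =>
          cavP (h 0).hK heK hq hC hCe hε h1 h2 h3 h4 h5 h6 hα φ U)
        rw [integral_sub (intg _ cL) (intg _ c3), integral_const_mul,
          integral_sub (intg _ continuous_const) (intg _ (by fun_prop)), integral_const_mul,
          integral_finsetSum _ fun j _ => intg _ (by fun_prop)] at this
        simpa [integral_mul_const, Sys.I1, hp, Sys.I2] using this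
      have a2 : ∀ i ∈ Y.S \ T, |Z.I1 (fun U ω => ε ω * Y.t U ω i) - Real.sin φ * bh i *
          (zc n (κT - Y.κ i) r 0 - wt n * ∑ j ∈ Icc 1 (n + 1), p j * zc n (κT - Y.κ i) r j)| ≤
          θ / (2 * C + 1) + M * (Δ + e) := fun i hi => by
        have := H n K Ω I Z T κT N e r (h φ) z hr ε hε1 i hi
        have e2 : ∀ j, (Z.I2 j fun _ x y => ε x * Z.b y i) = Real.sin φ * bh i * p j := fun j => by
          simp only [hp, Sys.I2, ← integral_const_mul, ← E2_const_mul]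
          congr 1; funext U
          exact E2_congr fun x y => by
            change ε x * (Real.sin φ * bh i * ε y) = _
            ring
        simp only [e2, conv_zero, p0, mul_assoc (Real.sin φ * bh i), ← mul_sum] at this
        refine le_trans (le_of_eq (congrArg _ ?_)) (this.trans (by gcongr; exact hΔ φ))
        change _ = Z.I1 (fun U ω => ε ω * Y.t U ω i) - (Real.sin φ * bh i *
          (1 * zc n (κT - Y.κ i) r 0) - wt n * (Real.sin φ * bh i *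
            ∑ j ∈ Icc 1 (n + 1), p j * zc n (κT - Y.κ i) r j))
        ring
      have a3 : |∑ i ∈ Y.S \ T, bh i * (Z.I1 (fun U ω => ε ω * Y.t U ω i) - Real.sin φ * bh i *
          (zc n (κT - Y.κ i) r 0 - wt n * ∑ j ∈ Icc 1 (n + 1), p j * zc n (κT - Y.κ i) r j))| ≤
          C * (θ / (2 * C + 1) + M * (Δ + e)) := by
        refine (abs_sum_le_sum_abs _ _).trans ((sum_le_sum fun i hi =>
          abs_mul_le' (c := (1 + bh i ^ 2) / 2) ?_ (a2 i hi)).trans ?_)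
        · rw [abs_le]; constructor <;> nlinarith [sq_nonneg (bh i + 1), sq_nonneg (bh i - 1)]
        · rw [← sum_mul, ← sum_div, sum_add_distrib, sum_const, nsmul_eq_mul, mul_one]
          refine mul_le_mul_of_nonneg_right ?_ (by positivity)
          have b1 : ((Y.S \ T).card : ℝ) ≤ C := (h 0).cS
          have b2 := (sum_le_sum_of_subset_of_nonneg (subset_univ (Y.S \ T))
            fun i _ _ => sq_nonneg (bh i)).trans hb
          linarith
      have e3 : ∀ j, ∑ i, bh i ^ 2 * zc n (κT - Y.κ i) r j =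
          ∑ i ∈ Y.S \ T, bh i ^ 2 * zc n (κT - Y.κ i) r j := fun j =>
        (sum_subset (subset_univ _) fun i _ hi => by simp [hb0 i hi]).symm
      simp only [e3] at hD
      have a4 := wt_sum_le (n := n) (l := n + 1) le_rfl hD0
        (z := fun j => p j * (q j - ∑ i ∈ Y.S \ T, bh i ^ 2 * zc n (κT - Y.κ i) r j))
        fun j hj => by simpa using abs_mul_le' (p1 j) (hD j (mem_Icc.mp hj).2)
      have e4 : Z.I1 (fun U ω => Real.cos φ * ∑ i ∈ Y.S \ T, bh i * (ε ω * Y.t U ω i) -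
          Real.sin φ * L ω) = Real.cos φ * ∑ i ∈ Y.S \ T, bh i *
            Z.I1 (fun U ω => ε ω * Y.t U ω i) - Real.sin φ * Z.I1 fun _ => L := by
        rw [← I1_sumP Z _ _ fun i ω => by fun_prop]
        simp only [Sys.I1, Eh_sub, Eh_const_mul]
        rw [integral_sub (intg _ ((Z.cont_EhA (fun _ => by fun_prop) 0).const_mul _))
          (intg _ (cL.const_mul _)), integral_const_mul, integral_const_mul]
      have e5 : ∑ i ∈ Y.S \ T, bh i ^ 2 * ∑ j ∈ Icc 1 (n + 1), p j * zc n (κT - Y.κ i) r j =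
          ∑ j ∈ Icc 1 (n + 1), p j * ∑ i ∈ Y.S \ T, bh i ^ 2 * zc n (κT - Y.κ i) r j := by
        simp only [mul_sum]
        rw [sum_comm]
        exact sum_congr rfl fun _ _ => sum_congr rfl fun _ _ => by ring
      rw [sum_congr rfl (g := fun i => bh i * Z.I1 (fun U ω => ε ω * Y.t U ω i) -
        Real.sin φ * (bh i ^ 2 * zc n (κT - Y.κ i) r 0) + Real.sin φ * wt n *
          (bh i ^ 2 * ∑ j ∈ Icc 1 (n + 1), p j * zc n (κT - Y.κ i) r j)) fun i _ => by ring,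
        sum_add_distrib, sum_sub_distrib, ← mul_sum, ← mul_sum, e5] at a3
      simp only [mul_sub (p _), sum_sub_distrib] at a4
      have b1 := abs_mul_le' (Real.abs_cos_le_one φ) a3
      have b2 := abs_mul_le' (Real.abs_sin_le_one φ) a1
      have b3 := abs_mul_le' (abs_mul_le' (Real.abs_cos_le_one φ) (Real.abs_sin_le_one φ))
        ((abs_sub _ _).trans (add_le_add (hD 0 (by omega)) a4))
      rw [e4]
      rw [abs_le] at b1 b2 b3 ⊢
      constructor <;> linarith [b1.1, b1.2, b2.1, b2.2, b3.1, b3.2]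
  refine key.trans ?_
  have b1 : C * (θ / (2 * C + 1)) ≤ θ / 2 := by
    rw [← mul_div_assoc, div_le_div_iff₀ (by positivity) (by positivity)]; nlinarith
  have b2 : Real.pi / 2 - 0 ≤ 2 := by linarith [Real.pi_le_four]
  refine (mul_le_mul_of_nonneg_left b2 (by positivity)).trans ?_
  have b3 : 0 ≤ C * M * D := by positivity
  have b4 : 0 ≤ C ^ 2 * (Δ + D) := by positivity
  nlinarith

end Vale.Agent.P166
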