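import Vale.Agent.P166.Tri
import Vale.Agent.P166.Haar

/-!
# P166: the rotated system and its loop equations
-/

namespace Vale.Agent.P166.W

open Vale.Agent.P157 Vale.Agent.P168 Vale.Agent.P168.PW Finset MeasureTheory
open scoped BigOperators

/-- Data of a system coupled to an orthogonal matrix. -/
structure Sys (I Ω : Type) where
  κ : I → ℝ
  S : Finset I
  σ : Ω → I → ℝ
  g : Ω → I → ℝ
  b : Ω → I → ℝ
  G0 : Ω → ℝ

variable {I Ω : Type} [Fintype I] [DecidableEq I] [Fintype Ω]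

namespace Sys
variable (s : Sys I Ω)

/-- The rotated configuration. -/
def t (U : OG I) (ω : Ω) : I → ℝ := act U (s.σ ω)

/-- The rotated field. -/
def y (U : OG I) (ω : Ω) : I → ℝ := act U (s.g ω)

/-- The energy. -/
noncomputable def En (U : OG I) (ω : Ω) : ℝ :=
  (∑ i, s.κ i * s.t U ω i ^ 2) / 2 + ∑ i, s.b ω i * s.t U ω i +
    ∑ i ∈ s.S, s.y U ω i * s.t U ω i + s.G0 ω

/-- The derivative of the energy along the rotation `(i, j)`. -/
noncomputable def dE (i j : I) (U : OG I) (ω : Ω) : ℝ :=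
  (s.κ i - s.κ j) * (s.t U ω i * s.t U ω j) + (s.b ω i * s.t U ω j - s.b ω j * s.t U ω i) +
    ((if i ∈ s.S then 1 else 0) - if j ∈ s.S then 1 else 0) *
      (s.y U ω i * s.t U ω j + s.y U ω j * s.t U ω i)

/-- The normalised overlap on the block `T`. -/
noncomputable def R (T : Finset I) (U : OG I) (x y : Ω) : ℝ :=
  (∑ j ∈ T, s.t U x j * s.t U y j) / T.card

/-- The Gibbs chain. -/
noncomputable def Q (n : ℕ) (P : Ch Ω) (U : OG I) : Ch Ω := Tn n P (s.En U)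

omit [Fintype Ω] in
@[fun_prop]
theorem cont_t (ω : Ω) : Continuous fun U => s.t U ω := by unfold t; fun_prop

omit [Fintype Ω] in
@[fun_prop]
theorem cont_y (ω : Ω) : Continuous fun U => s.y U ω := by unfold y; fun_prop

omit [Fintype Ω] in
@[fun_prop]
theorem cont_En (ω : Ω) : Continuous fun U => s.En U ω := by unfold En; fun_prop

omit [Fintype Ω] in
@[fun_prop]
theorem cont_dE (i j : I) (ω : Ω) : Continuous fun U => s.dE i j U ω := by unfold dE; fun_prop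

omit [Fintype Ω] in
@[fun_prop]
theorem cont_R (T : Finset I) (x y : Ω) : Continuous fun U => s.R T U x y := by
  unfold R; fun_prop

theorem cc (n : ℕ) (P : Ch Ω) : CC (s.Q n P) := cc_Tn s.cont_En

@[fun_prop]
theorem cont_Eh {n : ℕ} {P : Ch Ω} {ρ : PW Ω} {F : OG I → Ω → ℝ}
    (hF : ∀ ω, Continuous fun U => F U ω) (j : ℕ) :
    Continuous fun U => Eh n (s.Q n P U) ρ j (F U) := (s.cc n P).Eh hF j

@[fun_prop]
theorem cont_E2 {n : ℕ} {P : Ch Ω} {ρ : PW Ω} {F : OG I → Ω → Ω → ℝ}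
    (hF : ∀ x y, Continuous fun U => F U x y) (j : ℕ) :
    Continuous fun U => E2 n (s.Q n P U) ρ j (F U) := (s.cc n P).E2 hF j

@[fun_prop]
theorem cont_Rp {n : ℕ} {P : Ch Ω} {ρ : PW Ω} {F : OG I → Ω → Ω → Ω → ℝ}
    (hF : ∀ x y z, Continuous fun U => F U x y z) (j : ℕ) :
    Continuous fun U => Rp n (s.Q n P U) ρ j (F U) := (s.cc n P).Rp hF j

@[fun_prop]
theorem cont_F {n : ℕ} {P : Ch Ω} {ρ : PW Ω} : Continuous fun U => Fr n P ρ (s.En U) :=
  cont_Fr s.cont_En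

omit [Fintype Ω] in
theorem sum_t_sq (U : OG I) (ω : Ω) : ∑ i, s.t U ω i ^ 2 = ∑ i, s.σ ω i ^ 2 := sum_act_sq _ _

omit [Fintype Ω] in
theorem sum_y_sq (U : OG I) (ω : Ω) : ∑ i, s.y U ω i ^ 2 = ∑ i, s.g ω i ^ 2 := sum_act_sq _ _

omit [Fintype Ω] in
theorem hasDerivAt_t (i j : I) (U : OG I) (ω : Ω) (k : I) :
    HasDerivAt (fun a => s.t (rot i j a * U) ω k)
      ((if k = i then s.t U ω j else 0) - if k = j then s.t U ω i else 0) 0 :=
  hasDerivAt_rot i j U _ k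

omit [Fintype Ω] in
theorem hasDerivAt_En (i j : I) (U : OG I) (ω : Ω) :
    HasDerivAt (fun a => s.En (rot i j a * U) ω) (s.dE i j U ω) 0 := by
  have ht := s.hasDerivAt_t i j U ω
  have hy : ∀ k, HasDerivAt (fun a => s.y (rot i j a * U) ω k)
      ((if k = i then s.y U ω j else 0) - if k = j then s.y U ω i else 0) 0 :=
    hasDerivAt_rot i j U _
  refine ((((HasDerivAt.fun_sum fun k _ => ((ht k).fun_pow 2).const_mul (s.κ k)).div_const 2).fun_add
    (HasDerivAt.fun_sum fun k _ => (ht k).const_mul (s.b ω k))).fun_add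
    (HasDerivAt.fun_sum fun k _ => (hy k).fun_mul (ht k))).add_const _ |>.congr_deriv ?_
  simp only [act_rot_zero, mul_sub, sub_mul, mul_ite, ite_mul, mul_zero, zero_mul, sum_add_distrib,
    sum_sub_distrib, sum_ite_eq', mem_univ, if_true, dE]
  split_ifs <;> push_cast <;> ring

omit [Fintype Ω] in
theorem En_fix {A : Finset I} {V : OG I} (hV : V ∈ fixG A) {k : ℝ} (hκ : ∀ i ∈ A, s.κ i = k)
    (hb : ∀ ω, ∀ i ∈ A, s.b ω i = 0) (hS : A ⊆ s.S ∨ Disjoint A s.S) (U : OG I) :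
    s.En (V * U) = s.En U := by
  funext ω
  have h1 : ∑ i, s.κ i * s.t (V * U) ω i ^ 2 = ∑ i, s.κ i * s.t U ω i ^ 2 := by
    have e : ∀ x : I → ℝ, ∑ i, s.κ i * x i ^ 2 =
        k * ∑ i ∈ A, x i * x i + ∑ i ∈ Aᶜ, s.κ i * x i ^ 2 := fun x => by
      rw [← sum_add_sum_compl A, mul_sum, sum_congr rfl fun i hi => by rw [hκ i hi, sq]]
    rw [e, e, t, act_mul, sum_act_fix hV (Or.inl subset_rfl),
      sum_congr rfl (s₁ := Aᶜ) fun i hi => by rw [act_fix hV _ (mem_compl.mp hi)]]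
    rfl
  have h2 : ∑ i, s.b ω i * s.t (V * U) ω i = ∑ i, s.b ω i * s.t U ω i :=
    sum_congr rfl fun i _ => by
      by_cases hi : i ∈ A
      · simp [hb ω i hi]
      · rw [t, act_mul, act_fix hV _ hi, t]
  have h3 : ∑ i ∈ s.S, s.y (V * U) ω i * s.t (V * U) ω i = ∑ i ∈ s.S, s.y U ω i * s.t U ω i := by
    simp only [y, t, act_mul, sum_act_fix hV hS]
  rw [En, En, h1, h2, h3]

omit [Fintype Ω] in
theorem abs_sum_tt_le {N : ℝ} (hσ : ∀ ω, ∑ i, s.σ ω i ^ 2 ≤ N) (T : Finset I) (U : OG I)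
    (x y : Ω) : |∑ j ∈ T, s.t U x j * s.t U y j| ≤ N := by
  refine (abs_sum_le_sum_abs _ _).trans ?_
  have h : ∀ j, |s.t U x j * s.t U y j| ≤ (s.t U x j ^ 2 + s.t U y j ^ 2) / 2 := fun j => by
    rw [abs_le]
    constructor <;> nlinarith [sq_nonneg (s.t U x j + s.t U y j), sq_nonneg (s.t U x j - s.t U y j)]
  refine (sum_le_sum fun j _ => h j).trans
    ((sum_le_sum_of_subset_of_nonneg (subset_univ T) fun _ _ _ => by positivity).trans ?_)
  rw [← sum_div, sum_add_distrib, sum_t_sq, sum_t_sq]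
  linarith [hσ x, hσ y]

omit [Fintype Ω] in
theorem abs_R_le {N A : ℝ} (hσ : ∀ ω, ∑ i, s.σ ω i ^ 2 ≤ N) {T : Finset I} (hT : 0 < T.card)
    (hA : N ≤ A * T.card) (U : OG I) (x y : Ω) : |s.R T U x y| ≤ A := by
  have : (0 : ℝ) < T.card := by exact_mod_cast hT
  rw [R, abs_div, abs_of_pos this, div_le_iff₀ this]
  exact (s.abs_sum_tt_le hσ T U x y).trans hA

variable [MeasurableSpace (OG I)] [BorelSpace (OG I)] (ν : Measure (OG I))
  [IsProbabilityMeasure ν] [ν.IsMulLeftInvariant] {n : ℕ} {P : Ch Ω} {ρ : PW Ω}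

/-- One-replica loop equation. -/
theorem sd1 (i j : I) {f f' : OG I → Ω → ℝ} (hf : ∀ ω, Continuous fun U => f U ω)
    (hf' : ∀ ω, Continuous fun U => f' U ω)
    (hd : ∀ U ω, HasDerivAt (fun a => f (rot i j a * U) ω) (f' U ω) 0) :
    ∫ U, (Eh n (s.Q n P U) ρ 0 (f' U) + (Eh n (s.Q n P U) ρ 0 (fun x => f U x * s.dE i j U x) -
      wt n * ∑ l ∈ Icc 1 (n + 1), E2 n (s.Q n P U) ρ l fun x y => f U x * s.dE i j U y)) ∂ν = 0 := by
  have h := s.cc n P
  refine flow_rot ν i j (Φ := fun U => Eh n (s.Q n P U) ρ 0 (f U)) (h.Eh hf 0)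
    ((h.Eh hf' 0).add ((h.Eh (fun ω => (hf ω).mul (s.cont_dE i j ω)) 0).sub (continuous_const.mul
      (continuous_finsetSum _ fun l _ => h.E2 (fun x y => (hf x).mul (s.cont_dE i j y)) l))))
    fun U => ?_
  simpa only [act_rot_zero, Q] using hasDerivAt_Eh (n := n) (P := P) (ρ := ρ)
    (s.hasDerivAt_En i j U) (hd U)

/-- Two-replica loop equation. -/
theorem sd2 {l : ℕ} (hl : l ≤ n + 1) {i j : I} (hij : i ≠ j) {f f' : OG I → Ω → ℝ}
    (hf : ∀ ω, Continuous fun U => f U ω) (hf' : ∀ ω, Continuous fun U => f' U ω)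
    (hd : ∀ U ω, HasDerivAt (fun a => f (rot i j a * U) ω) (f' U ω) 0) :
    ∫ U, (E2 n (s.Q n P U) ρ l (fun x y => f' U x * s.t U y j - f U x * s.t U y i) +
      Rp n (s.Q n P U) ρ l fun x y z => f U x * s.t U y j * s.dE i j U z) ∂ν = 0 := by
  have h := s.cc n P
  refine flow_rot ν i j (Φ := fun U => E2 n (s.Q n P U) ρ l fun x y => f U x * s.t U y j)
    (h.E2 (fun x y => by have := hf x; fun_prop) l)
    ((h.E2 (fun x y => by have := hf x; have := hf' x; fun_prop) l).add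
      (h.Rp (fun x y z => by have := hf x; fun_prop) l)) fun U => ?_
  have := hasDerivAt_E2 (n := n) (P := P) (ρ := ρ) hl (s.hasDerivAt_En i j U) (hd U)
    fun ω => s.hasDerivAt_t i j U ω j
  simpa only [act_rot_zero, if_neg hij.symm, if_true, zero_sub, mul_neg, ← sub_eq_add_neg, Q]
    using this

/-- Moment recursion for a coordinate that rotates freely into the block `T`. -/
theorem mom_rec {T : Finset I} {i : I} {N b0 : ℝ} (hσ : ∀ ω, ∑ i, s.σ ω i ^ 2 ≤ N)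
    (hκ : ∀ j ∈ T, s.κ j = s.κ i) (hS : ∀ j ∈ T, (j ∈ s.S ↔ i ∈ s.S))
    (hb : ∀ ω, ∀ j ∈ T, s.b ω j = 0) (hb0 : ∀ ω, |s.b ω i| ≤ b0) (p : ℕ) :
    T.card * ∫ U, Eh n (s.Q n P U) ρ 0 (fun x => s.t U x i ^ (2 * p + 2)) ∂ν ≤
      ∫ U, Eh n (s.Q n P U) ρ 0 (fun x => N * ((2 * p + 1) * s.t U x i ^ (2 * p) +
        2 * b0 * |s.t U x i ^ (2 * p + 1)|)) ∂ν := by
  have h := s.cc n P
  set W : I → OG I → ℝ := fun j U => Eh n (s.Q n P U) ρ 0
      (fun x => (2 * p + 1) * s.t U x i ^ (2 * p) * s.t U x j ^ 2) +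
    (Eh n (s.Q n P U) ρ 0 (fun x => s.t U x i ^ (2 * p + 1) * s.t U x j * (s.b x i * s.t U x j)) -
      wt n * ∑ l ∈ Icc 1 (n + 1), E2 n (s.Q n P U) ρ l fun x y =>
        s.t U x i ^ (2 * p + 1) * s.t U x j * (s.b y i * s.t U y j)) with hW
  have cW : ∀ j, Continuous (W j) := fun j =>
    (h.Eh (fun _ => by fun_prop) 0).add ((h.Eh (fun _ => by fun_prop) 0).sub (continuous_const.mul
      (continuous_finsetSum _ fun l _ => h.E2 (fun _ _ => by fun_prop) l)))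
  have c0 : Continuous fun U => Eh n (s.Q n P U) ρ 0 fun x => s.t U x i ^ (2 * p + 2) :=
    h.Eh (fun _ => by fun_prop) 0
  have h1 : ∀ j ∈ T, ∫ U, Eh n (s.Q n P U) ρ 0 (fun x => s.t U x i ^ (2 * p + 2)) ∂ν ≤
      ∫ U, W j U ∂ν := fun j hj => by
    by_cases hij : i = j
    · subst hij
      refine int_mono ν c0 (cW i) fun U => ?_
      simp only [hW, hb _ i hj, zero_mul, mul_zero, Eh_const, E2_const, sum_const_zero, sub_zero,
        add_zero]
      refine Eh_mono fun x => ?_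
      have : 0 ≤ s.t U x i ^ (2 * p) * s.t U x i ^ 2 := by rw [pow_mul]; positivity
      have hp : (0 : ℝ) ≤ p := Nat.cast_nonneg p
      rw [pow_add]
      nlinarith
    have := s.sd1 ν (n := n) (P := P) (ρ := ρ) i j
      (f := fun U x => s.t U x i ^ (2 * p + 1) * s.t U x j)
      (f' := fun U x => (2 * p + 1) * s.t U x i ^ (2 * p) * s.t U x j ^ 2 -
        s.t U x i ^ (2 * p + 2)) (fun _ => by fun_prop) (fun _ => by fun_prop) fun U ω => by
        refine (((s.hasDerivAt_t i j U ω i).fun_pow (2 * p + 1)).fun_mul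
          (s.hasDerivAt_t i j U ω j)).congr_deriv ?_
        simp [act_rot_zero, hij, Ne.symm hij]; ring
    have e : ∀ U x, s.dE i j U x = s.b x i * s.t U x j := fun U x => by
      simp [dE, hκ j hj, hS j hj, hb x j hj]
    simp only [e, Eh_sub] at this
    rw [← sub_nonneg, ← integral_sub (intg _ (cW j)) (intg _ c0), ← this]
    refine le_of_eq (integral_congr_ae (.of_forall fun U => ?_))
    simp only [hW]; ring
  have h2 := sum_le_sum h1
  rw [sum_const, nsmul_eq_mul, ← integral_finsetSum _ fun j _ => intg _ (cW j)] at h2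
  refine h2.trans (int_mono ν (continuous_finsetSum _ fun j _ => cW j)
    (h.Eh (fun _ => by fun_prop) 0) fun U => ?_)
  have hb1 : ∀ x y, |∑ j ∈ T, s.t U x i ^ (2 * p + 1) * s.t U x j * (s.b y i * s.t U y j)| ≤
      N * (b0 * |s.t U x i ^ (2 * p + 1)|) := fun x y => by
    rw [sum_congr rfl (g := fun j => (s.t U x j * s.t U y j) * (s.b y i * s.t U x i ^ (2 * p + 1)))
      fun j _ => by ring, ← sum_mul]
    exact abs_mul_le' (s.abs_sum_tt_le hσ T U x y) (abs_mul_le' (hb0 y) le_rfl)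
  have a1 : Eh n (s.Q n P U) ρ 0 (fun x => ∑ j ∈ T,
      (2 * p + 1) * s.t U x i ^ (2 * p) * s.t U x j ^ 2) ≤
      Eh n (s.Q n P U) ρ 0 fun x => N * ((2 * p + 1) * s.t U x i ^ (2 * p)) := Eh_mono fun x => by
    rw [← mul_sum, mul_comm N]
    refine mul_le_mul_of_nonneg_left ?_ (by rw [pow_mul]; positivity)
    simpa only [sq] using (le_abs_self _).trans (s.abs_sum_tt_le hσ T U x x)
  have a2 := Eh_mono (n := n) (P := s.Q n P U) (ρ := ρ) (j := 0) fun x =>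
    (le_abs_self _).trans (hb1 x x)
  have a3 : |wt n * ∑ l ∈ Icc 1 (n + 1), E2 n (s.Q n P U) ρ l fun x y => ∑ j ∈ T,
      s.t U x i ^ (2 * p + 1) * s.t U x j * (s.b y i * s.t U y j)| ≤
      Eh n (s.Q n P U) ρ 0 fun x => N * (b0 * |s.t U x i ^ (2 * p + 1)|) := by
    refine (abs_sum_E2_le _ le_rfl).trans ((dev_mono (G := fun _ x _ =>
      N * (b0 * |s.t U x i ^ (2 * p + 1)|)) fun _ _ _ x y =>
        (hb1 x y).trans (le_abs_self _)).trans ?_)
    rw [dev_fst]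
    exact Eh_mono fun x => (abs_of_nonneg ((abs_nonneg _).trans (hb1 x x))).le
  simp only [hW, sum_add_distrib, sum_sub_distrib, ← mul_sum]
  rw [sum_comm (s := T)]
  simp only [← E2_sum, ← Eh_sum]
  have a4 : Eh n (s.Q n P U) ρ 0 (fun x => N * ((2 * p + 1) * s.t U x i ^ (2 * p) +
      2 * b0 * |s.t U x i ^ (2 * p + 1)|)) =
      Eh n (s.Q n P U) ρ 0 (fun x => N * ((2 * p + 1) * s.t U x i ^ (2 * p))) +
      2 * Eh n (s.Q n P U) ρ 0 fun x => N * (b0 * |s.t U x i ^ (2 * p + 1)|) := by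
    rw [← Eh_const_mul, ← Eh_add]; exact Eh_congr fun x => by ring
  linarith [(abs_le.mp a3).1]

/-- Second and fourth moments of a free coordinate. -/
theorem mom_free {T : Finset I} (hT : 0 < T.card) {i : I} {N A b0 : ℝ}
    (hσ : ∀ ω, ∑ i, s.σ ω i ^ 2 ≤ N) (hA : N ≤ A * T.card)
    (hκ : ∀ j ∈ T, s.κ j = s.κ i) (hS : ∀ j ∈ T, (j ∈ s.S ↔ i ∈ s.S))
    (hb : ∀ ω, ∀ j ∈ T, s.b ω j = 0) (hb0 : ∀ ω, |s.b ω i| ≤ b0) :
    ∫ U, Eh n (s.Q n P U) ρ 0 (fun x => s.t U x i ^ 2) ∂ν ≤ 2 * A + 4 * (b0 * A) ^ 2 ∧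
    ∫ U, Eh n (s.Q n P U) ρ 0 (fun x => s.t U x i ^ 4) ∂ν ≤
      (6 * A + 4 * (b0 * A) ^ 2) * (2 * A + 4 * (b0 * A) ^ 2) := by
  have hT' : (0 : ℝ) < T.card := by exact_mod_cast hT
  obtain ⟨ω0⟩ := ρ.nonempty
  have hN : 0 ≤ N := (sum_nonneg fun _ _ => sq_nonneg _).trans (hσ ω0)
  have hA0 : 0 ≤ A := nonneg_of_mul_nonneg_left (hN.trans hA) hT'
  have hb1 : 0 ≤ b0 := (abs_nonneg _).trans (hb0 ω0)
  have key : ∀ p : ℕ, ∫ U, Eh n (s.Q n P U) ρ 0 (fun x => s.t U x i ^ (2 * p + 2)) ∂ν ≤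
      (2 * (2 * p + 1) * A + 4 * (b0 * A) ^ 2) *
        ∫ U, Eh n (s.Q n P U) ρ 0 (fun x => s.t U x i ^ (2 * p)) ∂ν := fun p => by
    have h1 := s.mom_rec ν (n := n) (P := P) (ρ := ρ) hσ hκ hS hb hb0 p
    have h2 : ∫ U, Eh n (s.Q n P U) ρ 0 (fun x => N * ((2 * p + 1) * s.t U x i ^ (2 * p) +
        2 * b0 * |s.t U x i ^ (2 * p + 1)|)) ∂ν ≤ ∫ U, (T.card * ((2 * p + 1) * A +
          2 * (b0 * A) ^ 2) * Eh n (s.Q n P U) ρ 0 (fun x => s.t U x i ^ (2 * p)) +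
          T.card / 2 * Eh n (s.Q n P U) ρ 0 fun x => s.t U x i ^ (2 * p + 2)) ∂ν := by
      refine int_mono ν (by fun_prop) (by fun_prop) fun U => ?_
      rw [← Eh_const_mul, ← Eh_const_mul, ← Eh_add]
      refine Eh_mono fun x => ?_
      have a1 : 0 ≤ s.t U x i ^ (2 * p) := by rw [pow_mul]; positivity
      rw [pow_succ, pow_add, abs_mul, abs_of_nonneg a1, ← sq_abs (s.t U x i)]
      refine (mul_le_mul_of_nonneg_right hA (by positivity)).trans ?_
      have a2 := mul_nonneg (mul_nonneg hT'.le a1) (sq_nonneg (|s.t U x i| - 2 * (b0 * A)))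
      nlinarith
    rw [integral_add (intg _ (by fun_prop)) (intg _ (by fun_prop)), integral_const_mul,
      integral_const_mul] at h2
    refine le_of_mul_le_mul_left ?_ hT'
    nlinarith
  have k0 := key 0
  have k1 := key 1
  simp only [mul_zero, zero_add, pow_zero, Eh_const, integral_const, probReal_univ, smul_eq_mul,
    mul_one, Nat.cast_zero, Nat.cast_one] at k0 k1
  refine ⟨k0, k1.trans ?_⟩
  rw [show 2 * ((2 : ℝ) + 1) * A = 6 * A by ring]
  gcongr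

/-- The system with one coupling raised. -/
def setκ (i : I) (k : ℝ) : Sys I Ω := { s with κ := Function.update s.κ i k }

omit [Fintype Ω] [MeasurableSpace (OG I)] [BorelSpace (OG I)] in
theorem En_setκ (i : I) (k : ℝ) (U : OG I) (ω : Ω) :
    (s.setκ i k).En U ω = s.En U ω + (k - s.κ i) * (s.t U ω i ^ 2 / 2) := by
  have : ∑ j, Function.update s.κ i k j * s.t U ω j ^ 2 =
      ∑ j, s.κ j * s.t U ω j ^ 2 + (k - s.κ i) * s.t U ω i ^ 2 := by
    rw [← add_sum_erase _ _ (mem_univ i), ← add_sum_erase _ (fun j => s.κ j * s.t U ω j ^ 2)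
      (mem_univ i), Function.update_self, sum_congr rfl fun j hj => by
        rw [Function.update_of_ne (ne_of_mem_erase hj)]]
    ring
  change (∑ j, Function.update s.κ i k j * s.t U ω j ^ 2) / 2 + ∑ i, s.b ω i * s.t U ω i +
    ∑ i ∈ s.S, s.y U ω i * s.t U ω i + s.G0 ω = _
  rw [this, En]; ring

end Sys

theorem Eh_mono_tilt {n : ℕ} {P : Ch Ω} {ρ : PW Ω} {F G : Ω → ℝ} (H : Ω → ℝ)
    (h : ∀ x y, 0 ≤ (F x - F y) * (G x - G y)) {c : ℝ} (hc : 0 ≤ c) :
    Eh n (Tn n P H) ρ 0 F ≤ Eh n (Tn n P fun ω => H ω + c * G ω) ρ 0 F := by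
  have hd : ∀ a : ℝ, HasDerivAt (fun a => Eh n (Tn n P fun ω => H ω + a * G ω) ρ 0 F) _ a :=
    fun a => hasDerivAt_Eh (ψ := fun a ω => H ω + a * G ω) (ψ' := G) (f := fun _ => F)
      (f' := fun _ => 0) (fun x => by simpa using (hasDerivAt_mul_const (G x)).const_add (H x))
      fun x => hasDerivAt_const _ _
  have := monotone_of_deriv_nonneg (fun a => (hd a).differentiableAt) (fun a => by
    rw [(hd a).deriv, Eh_const, zero_add, sub_nonneg]; exact resp_comono h) hc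
  simpa using this

variable [MeasurableSpace (OG I)] [BorelSpace (OG I)] (ν : Measure (OG I))
  [IsProbabilityMeasure ν] [ν.IsMulLeftInvariant] {n : ℕ} {P : Ch Ω} {ρ : PW Ω}

/-- Moments of a coordinate whose coupling is below that of the block `T`. -/
theorem Sys.mom_single (s : Sys I Ω) {T : Finset I} (hT : 0 < T.card) {i : I} (hi : i ∉ T)
    {N A b0 k : ℝ} (hσ : ∀ ω, ∑ i, s.σ ω i ^ 2 ≤ N) (hA : N ≤ A * T.card)
    (hκ : ∀ j ∈ T, s.κ j = k) (hk : s.κ i ≤ k) (hS : ∀ j ∈ T, (j ∈ s.S ↔ i ∈ s.S))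
    (hb : ∀ ω, ∀ j ∈ T, s.b ω j = 0) (hb0 : ∀ ω, |s.b ω i| ≤ b0) :
    ∫ U, Eh n (s.Q n P U) ρ 0 (fun x => s.t U x i ^ 2) ∂ν ≤ 2 * A + 4 * (b0 * A) ^ 2 ∧
    ∫ U, Eh n (s.Q n P U) ρ 0 (fun x => s.t U x i ^ 4) ∂ν ≤
      (6 * A + 4 * (b0 * A) ^ 2) * (2 * A + 4 * (b0 * A) ^ 2) := by
  have h := (s.setκ i k).mom_free ν (n := n) (P := P) (ρ := ρ) (i := i) hT hσ hA
    (fun j hj => by
      simp only [Sys.setκ, Function.update_self,
        Function.update_of_ne (ne_of_mem_of_not_mem hj hi), hκ j hj]) hS hb hb0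
  have key : ∀ p : ℕ, ∫ U, Eh n (s.Q n P U) ρ 0 (fun x => (s.t U x i ^ 2) ^ p) ∂ν ≤
      ∫ U, Eh n ((s.setκ i k).Q n P U) ρ 0 (fun x => (s.t U x i ^ 2) ^ p) ∂ν := fun p =>
    int_mono ν ((s.cc n P).Eh (fun _ => by fun_prop) 0)
      (((s.setκ i k).cc n P).Eh (fun _ => by fun_prop) 0) fun U => by
      rw [Sys.Q, Sys.Q, funext (s.En_setκ i k U)]
      refine Eh_mono_tilt _ (fun x y => ?_) (sub_nonneg.mpr hk)
      rcases le_total (s.t U x i ^ 2) (s.t U y i ^ 2) with h | h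
      · exact mul_nonneg_of_nonpos_of_nonpos
          (sub_nonpos.mpr (pow_le_pow_left₀ (sq_nonneg _) h p)) (by linarith)
      · exact mul_nonneg (sub_nonneg.mpr (pow_le_pow_left₀ (sq_nonneg _) h p)) (by linarith)
  have k1 := key 1
  have k2 := key 2
  simp only [pow_one, ← pow_mul] at k1 k2
  exact ⟨k1.trans h.1, k2.trans h.2⟩

end Vale.Agent.P166.W
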