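import Vale.Agent.P166.StepE

/-!
# P166: one cavity step
-/

namespace Vale.Agent.P166

open MeasureTheory Finset Vale.Agent.P168 Vale.Agent.P168.PW Vale.Agent.P157 Function Filter Topology
open scoped BigOperators

set_option synthInstance.maxSize 4096

section
variable {n K N : ℕ} {𝒞 : Type} [DecidableEq 𝒞]
  {cl : Fin (N + 1) → 𝒞} {A : Finset (Fin N)} {κ : 𝒞 → ℝ} {top : 𝒞} {γ : Fin (n + 1) → ℝ}
  {X C η s e : ℝ}

theorem Dat2.mono (h : Dat2 K cl A κ top γ X C η s e) {C' : ℝ} (hC : C ≤ C') :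
    Dat2 K cl A κ top γ X C' η s e :=
  ⟨h.toDat.mono hC, h.rep, h.gap, h.s0, h.s1, h.η0, h.η1, h.hη, h.hγ', h.he, h.he1, h.one⟩

theorem abs_avg {y p x : ℝ} {z : Fin (N + 1) → ℝ} (h : ∀ i, |y - (z i + p)| ≤ x) :
    |y - ((∑ i, z i) / (N + 1) + p)| ≤ x := by
  have hN : (0 : ℝ) < N + 1 := by positivity
  have e : y - ((∑ i, z i) / (N + 1) + p) = (∑ i, (y - (z i + p))) / (N + 1) := by
    simp only [sum_sub_distrib, sum_add_distrib, sum_const, card_univ, Fintype.card_fin,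
      nsmul_eq_mul]
    push_cast
    field_simp
  rw [e, abs_div, abs_of_pos hN, div_le_iff₀ hN]
  refine (abs_sum_le_sum_abs _ _).trans ((sum_le_card_nsmul _ _ x fun i _ => h i).trans_eq ?_)
  simp [mul_comm]

theorem avg_fc [Fintype 𝒞] (cl : Fin (N + 1) → 𝒞) (F : Fin (N + 1) → ℝ) (u : ℝ → ℝ)
    (g : 𝒞 → ℝ → ℝ) (r : ℕ → ℝ) (c : ℝ) :
    (∑ i, (F i - fc n (fun x => u x + g (cl i) x) r 0 / 2 + c)) / (N + 1) =
      (∑ i, F i) / (N + 1) + (c - fc n (fun x => u x + ∑ j, fq cl j * g j x) r 0 / 2) := by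
  have hN : (0 : ℝ) < N + 1 := by positivity
  have := sum_cntG cl fun j => fc n (g j) r 0
  simp only [fc_add, fc_sum, fc_const_mul]
  simp only [fq_cntG, div_mul_eq_mul_div, ← sum_div, this, add_div,
    sum_sub_distrib, sum_add_distrib, sum_const, card_univ, Fintype.card_fin, nsmul_eq_mul]
  push_cast
  field_simp
  ring

theorem crude_rm (X C : ℝ) : ∃ M : ℝ, 0 ≤ M ∧ ∀ (n K N : ℕ) (𝒞 : Type) [Fintype 𝒞] [DecidableEq 𝒞]
    (cl : Fin (N + 1) → 𝒞) (A : Finset (Fin N)) (κ : 𝒞 → ℝ) (top : 𝒞) (γ β : Fin (n + 1) → ℝ)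
    (η s e : ℝ), Dat2 K cl A κ top γ X C η s e → ∑ l, β l ^ 2 ≤ 1 → ∀ i,
      (bg K cl κ top (fun _ => β) γ).F ≤
        (bg K (rm cl i) κ top (fun _ => β) γ).F + M * Real.sqrt N := by
  obtain ⟨M1, hM1, h1⟩ := close X C
  obtain ⟨M2, hM2, h2⟩ := mv_rm X C
  refine ⟨M1 + 2 * M2, by positivity, fun n K N 𝒞 _ _ cl A κ top γ β η s e h hβ i => ?_⟩
  have he1 : e ≤ 1 / 4 := by linarith [h.he1]
  obtain ⟨o, ho⟩ := h.rep.2 (cl i)
  dsimp only at ho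
  rw [bg_cnt ho.symm]
  have a1 := (abs_le.1 (h1 n K N 𝒞 cl A κ top γ e h.toDat h.rep h.he he1 β β _ hβ
    (h.toDat.ad_rm o)).1).1
  have a2 := (abs_le.1 (h2 n K N 𝒞 cl A κ top γ β e o h.toDat h.he he1)).2
  have sN : 1 ≤ Real.sqrt N := Real.one_le_sqrt.2 (by exact_mod_cast h.hN)
  have a3 := mul_le_mul_of_nonneg_left (show ∑ l, γ l ^ 2 + e ≤ 2 * Real.sqrt N by
    linarith [h.hγ]) hM2
  rw [cons_self] at a1
  linarith

theorem mk_dat [Fintype 𝒞] {w lam : 𝒞 → ℝ} (h : Cls w lam top) {β wm Λ δ : ℝ} (hβ : 0 ≤ β)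
    (hΛ : ∀ j, |lam j| ≤ Λ) (w0 : 0 < wm) (w1 : ∀ j, wm ≤ w j) (hδ : δ ≤ wm / 2)
    (hf : ∀ j, |fq cl j - w j| ≤ δ) {π : Option (Fin (n + 1)) → ℝ} (s0 : 0 < s) (s1 : s ≤ η)
    (hπ : ∀ j, η ≤ π j ∧ π j + s ≤ 2 * η) (η1 : 2 * η ≤ 1) (η2 : (n + 1) * (2 * η) ^ 2 ≤ 1)
    (hK : 0 < K) (hN : 0 < N) (N1 : 4 / wm * (Fintype.card 𝒞 + 1) ≤ N)
    (N2 : Fintype.card 𝒞 ≤ e * (N * (wm / 2))) (he : ((N : ℝ) + 1) ^ 3 ≤ e * Real.sqrt K)
    (e0 : 0 < e) (he1 : e ≤ 1 / 64) : ∃ A, Dat2 K cl A (ka (fun j => β * lam j) top (π none)) top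
      (fun l => π (some l)) (4 / wm) (β * Λ + 1 + Fintype.card 𝒞) η s e := by
  have hc : ∀ j, ((N : ℝ) + 1) * (wm / 2) ≤ (tp cl j).card := fun j => by
    have := (abs_le.1 (hf j)).1
    have e : fq cl j = (tp cl j).card / ((N : ℝ) + 1) := by simp [fq, tp]
    rw [← le_div_iff₀' (by positivity), ← e]
    linarith [w1 j]
  obtain ⟨A, hA⟩ := exists_rep (cl := cl) fun j => by
    obtain ⟨i, hi⟩ := card_pos.1 ((Nat.cast_pos (α := ℝ)).1 ((hc j).trans_lt' (by positivity)))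
    exact ⟨i, (mem_filter.1 hi).2⟩
  have cA : (Fintype.card 𝒞 : ℝ) = A.card + 1 := by exact_mod_cast hA.card
  have Λ0 : 0 ≤ β * Λ := mul_nonneg hβ ((abs_nonneg _).trans (hΛ top))
  have A0 := Nat.cast_nonneg (α := ℝ) A.card
  have p0 := hπ none
  have le : ∀ j, β * lam j ≤ β * lam top := fun j => mul_le_mul_of_nonneg_left (h.le j) hβ
  have bd : ∀ j, |β * lam j| ≤ β * Λ := fun j => by
    rw [abs_mul, abs_of_nonneg hβ]; exact mul_le_mul_of_nonneg_left (hΛ j) hβ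
  refine ⟨A, ⟨hK, hN, (sum_sq_le_of_mem (η := η) fun j => by
    constructor <;> linarith [hπ j]).trans η2, fun j => ?_, by linarith, by positivity, fun j => ?_⟩,
    hA, fun j hj => ?_, s0, by linarith, by linarith, by linarith, fun l => (hπ _).1,
    fun j a ha => (sum_sq_le_of_mem (π := π + Pi.single j a) (η := η) fun i => ?_).trans η2, he, he1,
    ?_⟩
  · have := abs_le.1 (bd j)
    have := le j
    simp only [ka, if_true]
    split_ifs with hj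
    · exact ⟨abs_le.2 ⟨by linarith, by linarith⟩, by rw [hj]⟩
    · exact ⟨abs_le.2 ⟨by linarith, by linarith⟩, by linarith⟩
  · have := mul_le_mul_of_nonneg_left (hc j) (show 0 ≤ 4 / wm by positivity)
    rw [show 4 / wm * ((N + 1) * (wm / 2)) = 2 * (N + 1) by field_simp; ring] at this
    rw [cA] at N1
    linarith
  · simp only [ka, if_true, if_neg hj]
    linarith [le j]
  · have := hπ i
    have := abs_le.1 ha
    rw [Pi.add_apply, Pi.single_apply]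
    split_ifs <;> constructor <;> linarith
  · have := mul_le_mul_of_nonneg_left (hc top) e0.le
    nlinarith [mul_pos e0 w0]

end

theorem step_num {Ms M' D thr x0 ε Δ x inc L Γ e y : ℝ} (hMs : 0 ≤ Ms) (hD : 0 ≤ D) (ht : 0 < thr)
    (hM : M' = Ms + D / thr) (Δ0 : 0 ≤ Δ) (a1 : Ms * (2 * thr) ≤ x0 / 2) (a2 : x0 ≤ ε / 2)
    (hx : x = x0 / 2 + Ms * (Δ + e + Γ + y)) (a3 : e + Γ + y ≤ thr) (h1 : L - D - x ≤ inc)
    (h2 : Δ ≤ thr → x ≤ x0 → L - ε / 2 ≤ inc) : L - ε / 2 - M' * Δ ≤ inc := by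
  have b1 := mul_le_mul_of_nonneg_left a3 hMs
  have b2 := mul_nonneg hMs Δ0
  have b3 : 0 ≤ D / thr * Δ := by positivity
  have b4 := mul_nonneg hMs ht.le
  rcases le_total Δ thr with h | h
  · have := mul_le_mul_of_nonneg_left h hMs
    have := h2 h (by linarith)
    subst hM
    linarith
  · have := mul_le_mul_of_nonneg_left h (show 0 ≤ D / thr by positivity)
    rw [div_mul_cancel₀ _ ht.ne'] at this
    subst hM
    linarith

theorem step_num2 {M' Mn X θ ε d s η e N N' : ℝ} (hM : 0 ≤ M') (hMn : 0 ≤ Mn) (hd : 0 ≤ d)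
    (hs : 0 < s) (hη : 0 < η) (hN : 0 < N) (hN' : 0 < N') (hX : N ≤ X * N') (a1 : M' * θ ≤ ε / 8)
    (a2 : M' * Mn * e ≤ ε / 8) (a3 : M' * Mn * X / (s * η) / Real.sqrt N ≤ ε / 8) (hε : 0 < ε) :
    M' * (θ + Mn * ((d + Real.sqrt N) / (s * η * N') + e)) ≤
      ε / 2 + M' * Mn * X / η * (d / (s * N)) := by
  have h1 : (d + Real.sqrt N) / (s * η * N') ≤ X * (d + Real.sqrt N) / (s * η * N) := by
    rw [div_le_div_iff₀ (by positivity) (by positivity)]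
    have := mul_le_mul_of_nonneg_left hX (show 0 ≤ (d + Real.sqrt N) * (s * η) by positivity)
    linarith
  have h2 : M' * Mn * (X * (d + Real.sqrt N) / (s * η * N)) =
      M' * Mn * X / η * (d / (s * N)) + M' * Mn * X / (s * η) / Real.sqrt N := by
    have a := Real.sq_sqrt hN.le
    have b := Real.sqrt_pos.2 hN
    generalize Real.sqrt N = y at *
    subst a
    field_simp
  have := mul_le_mul_of_nonneg_left h1 (mul_nonneg hM hMn)
  linarith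

set_option maxHeartbeats 800000 in
theorem step {𝒞 : Type} [Fintype 𝒞] [DecidableEq 𝒞] {w lam : 𝒞 → ℝ} {top : 𝒞}
    (h : Cls w lam top) {β : ℝ} (hβ : 0 ≤ β) {ε : ℝ} (hε : 0 < ε) : ∃ ω : ℝ, 0 < ω ∧
    ∀ η1 : ℝ, 0 < η1 → ∃ δ : ℝ, 0 < δ ∧ ∃ n0 : ℕ, ∀ n, n0 ≤ n → ∃ η0 : ℝ, 0 < η0 ∧
    ∀ η : ℝ, 0 < η → η ≤ η0 → ∃ M : ℝ, 0 ≤ M ∧ ∀ s : ℝ, 0 < s → s ≤ η → ∃ C : ℝ, 0 ≤ C ∧
    ∃ N0 : ℕ, ∀ N, N0 ≤ N → ∃ K0 : ℕ, ∀ K, K0 ≤ K → ∀ (cl : Fin (N + 1) → 𝒞) (b : ℕ → ℝ)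
      (π : Option (Fin (n + 1)) → ℝ), (∀ j, |fq cl j - w j| ≤ δ) →
      ∑ l : Fin (n + 1), b l ^ 2 ≤ 1 / 4 →
      (∀ l, l ≤ n + 1 → ∃ l0, l0 ≤ l ∧ l0 ≤ n ∧ η1 ≤ b l0 ∧ ((l : ℝ) - l0) * wt n ≤ ω) →
      (∀ j, η ≤ π j ∧ π j + s ≤ 2 * η) →
      (∀ L ∈ lowerBounds (trial (Rf w lam (lam top)) β n),
        (∑ i, (sy K (rm cl i) (fun j => β * lam j) top (fun _ l => b l) π).F) / (N + 1) + L - ε -
          M * (sd (fun d => (sy K cl (fun j => β * lam j) top (fun _ l => b l) (π + d)).F) s /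
            (s * N)) ≤ (sy K cl (fun j => β * lam j) top (fun _ l => b l) π).F) ∧
      ∀ i, (sy K cl (fun j => β * lam j) top (fun _ l => b l) π).F ≤
        (sy K (rm cl i) (fun j => β * lam j) top (fun _ l => b l) π).F + C * Real.sqrt N := by
  obtain ⟨j0, -, w1⟩ := exists_min_image univ w ⟨top, mem_univ _⟩
  have w0 := h.pos j0
  generalize w j0 = wm at w0 w1
  obtain ⟨Λ, hΛ⟩ : ∃ Λ, ∀ j, |lam j| ≤ Λ :=
    ⟨_, fun j => single_le_sum (f := fun j => |lam j|) (fun _ _ => abs_nonneg _) (mem_univ j)⟩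
  have Λ0 : 0 ≤ Λ := (abs_nonneg _).trans (hΛ top)
  obtain ⟨X, hX⟩ : ∃ X, X = 4 / wm := ⟨_, rfl⟩
  obtain ⟨C, hC⟩ : ∃ C, C = β * Λ + 1 + Fintype.card 𝒞 := ⟨_, rfl⟩
  have X0 : 0 ≤ X := by rw [hX]; positivity
  have C0 : 0 ≤ C := by rw [hC]; positivity
  obtain ⟨Lp, hLp, hl⟩ := fn_lip (2 * C) X
  obtain ⟨C', hC'⟩ : ∃ C', C' = 1 + C + C ^ 2 + Lp * X := ⟨_, rfl⟩
  have V0 : 0 ≤ Lp * X := by positivity
  have C1 : C ≤ C' := by rw [hC']; nlinarith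
  obtain ⟨e0, he0, ω, hω, hS⟩ := stepS h hβ X V0 hΛ (half_pos hε)
  refine ⟨ω, hω, fun η1 hη1 => ?_⟩
  obtain ⟨x0, hx0, a1, hS⟩ := hS η1 hη1
  obtain ⟨Ms, hMs, hst⟩ := star X C C' (x0 / 2) (by positivity)
  obtain ⟨Mw, hMw, hw⟩ := wardB X C
  obtain ⟨Mc, hMc, hcr⟩ := crude_rm X C
  obtain ⟨D, hD⟩ : ∃ D, D = β / 2 * Λ + x0 + ((Lp + 2 * C) * X + C) / 2 := ⟨_, rfl⟩
  have D0 : 0 ≤ D := by rw [hD]; positivity
  obtain ⟨thr, ⟨⟨a2, a3⟩, a4⟩, ht⟩ := ((((ev_small (Ms * 2) (half_pos hx0)).and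
    (ev_small (Mw * 2) he0)).and (ev_small 1 one_pos)).and self_mem_nhdsWithin).exists
  replace ht : 0 < thr := ht
  obtain ⟨M', hM'⟩ : ∃ M', M' = Ms + D / thr := ⟨_, rfl⟩
  have M0 : 0 ≤ M' := by rw [hM']; positivity
  obtain ⟨θ, a5, hθ⟩ := ((ev_small M' (show 0 < ε / 8 by positivity)).and
    self_mem_nhdsWithin).exists
  obtain ⟨n0, hdv⟩ := dvs X C' θ hθ
  refine ⟨min e0 (wm / 2), by positivity, n0, fun n hn => ?_⟩
  obtain ⟨Mn, hMn, hdv⟩ := hdv n hn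
  obtain ⟨η0, ⟨⟨b1, b2⟩, b3⟩, hη0⟩ := ((((ev_small 2 he0).and (ev_small 2 one_pos)).and
    (ev_small ((n + 1 : ℝ) * 2) (show 0 < (thr / 3) ^ 2 by positivity))).and
    self_mem_nhdsWithin).exists
  obtain ⟨e, ⟨⟨⟨c1, c2⟩, c3⟩, c4⟩, he⟩ := (((((ev_small 3 ht).and (ev_small 64 one_pos)).and
    (ev_small C' one_half_pos)).and (ev_small (M' * Mn) (show 0 < ε / 8 by positivity))).and
    self_mem_nhdsWithin).exists
  replace he : 0 < e := he
  refine ⟨η0, hη0, fun η hη hη' => ⟨M' * Mn * X / η, by positivity, fun s s0 s1 => ⟨Mc, hMc, ?_⟩⟩⟩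
  have η2 : (n + 1) * (2 * η) ^ 2 ≤ (thr / 3) ^ 2 :=
    calc _ ≤ (n + 1) * (2 * η * 1) := by rw [sq]; gcongr; linarith
      _ ≤ (n + 1) * 2 * η0 := by rw [mul_one, ← mul_assoc]; gcongr
      _ ≤ _ := b3
  have t2 : (thr / 3) ^ 2 ≤ thr / 3 := by rw [sq]; exact mul_le_of_le_one_left (by positivity) (by linarith)
  obtain ⟨N0, hN0⟩ := eventually_atTop.1 (((((ev_sqrt 1 (show 0 < thr / 3 by positivity)).and
    (ev_sqrt (M' * Mn * X / (s * η)) (show 0 < ε / 8 by positivity))).and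
    (tendsto_natCast_atTop_atTop.eventually_ge_atTop (4 / wm * (Fintype.card 𝒞 + 1)))).and
    (((tendsto_natCast_atTop_atTop.atTop_mul_const (half_pos w0)).const_mul_atTop
      he).eventually_ge_atTop (Fintype.card 𝒞))).and (eventually_gt_atTop 0))
  refine ⟨N0, fun N hN => ?_⟩
  obtain ⟨⟨⟨⟨d1, d2⟩, d3⟩, d4⟩, d5⟩ := hN0 N hN
  obtain ⟨K1, hS⟩ := hS n
  obtain ⟨K2, hK2⟩ := largeKUB ((N + 1) ^ 3) e he
  obtain ⟨K3, hK3⟩ := largeKUB 1 (1 / 2) one_half_pos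
  refine ⟨K1 + K2 + K3, fun K hK cl b π hf hb hco hπ => ?_⟩
  obtain ⟨k0, k1⟩ := hK2 K (by omega)
  rw [div_le_iff₀ (Real.sqrt_pos.2 (by exact_mod_cast k0))] at k1
  obtain ⟨A, dat⟩ := mk_dat h hβ hΛ w0 (fun j => w1 j (mem_univ j)) (min_le_right _ _) hf s0 s1 hπ
    (by linarith) (by linarith) k0 d5 d3 d4 k1 he (by linarith)
  rw [← hX, ← hC] at dat
  have hb1 : ∑ l : Fin (n + 1), b l ^ 2 ≤ 1 := by linarith
  refine ⟨fun L hL => ?_, hcr n K N 𝒞 cl A _ top _ _ η s e dat hb1⟩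
  obtain ⟨κ, hκ⟩ : ∃ κ, κ = ka (fun j => β * lam j) top (π none) := ⟨_, rfl⟩
  obtain ⟨γ, hγ⟩ : ∃ γ : Fin (n + 1) → ℝ, γ = fun l => π (some l) := ⟨_, rfl⟩
  have hco1 := fun l0 hl0 hb0 t => cons_own cl (fun j => β * lam j) top b π k0 (hK3 K (by omega)).2
    (l0 := l0) hl0 hb0 t
  simp only [← sy_pert]
  simp only [sy_eq_bg, ← hκ, ← hγ] at hco1 ⊢
  rw [← hκ, ← hγ] at dat
  obtain ⟨Y, hY⟩ : ∃ Y, Y = bg K cl κ top (fun _ l => b l) γ := ⟨_, rfl⟩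
  have ok : Y.Ok (tp cl top) (κ top) X C := hY ▸ dat.toDat.big _
  obtain ⟨r, hr⟩ : ∃ r, r = Y.prf (tp cl top).card := ⟨_, rfl⟩
  have pr : Pr n X r := hr ▸ prf_pr ok.toSt dat.nz.hN dat.nz.cN
  obtain ⟨Δ, hΔ⟩ : ∃ Δ, Δ = θ + Mn * ((sd (fun δ => (Y.pert δ).F) s + Real.sqrt N) /
    (s * η * (tp cl top).card) + e) := ⟨_, rfl⟩
  obtain ⟨v1, v2⟩ := hdv K N 𝒞 cl A κ top γ (fun l => b l) η s e Δ r (dat.mono C1) hb1 (hY ▸ hr)
    (hY ▸ hΔ.ge)
  rw [← hY] at v1 hco1 ⊢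
  have pa := fq_pv (Nat.succ_pos N) cl
  have gp := dat.toDat.gap
  have lp := hl 𝒞 (fq cl) (fq cl) _ _ pa pa gp gp
  obtain ⟨q, hq⟩ : ∃ q, q = fc n (psi (fq cl) fun j => κ top - κ j) r := ⟨_, rfl⟩
  have q0 : q 0 ≤ Lp * X := hq ▸ (le_abs_self _).trans ((fc_lip pr (fun x y a b c =>
    (lp x y a b c).1) (Nat.zero_le _)).trans (mul_le_mul_of_nonneg_left pr.le hLp))
  have qm : Mono n q := hq ▸ fc_mono pr fun x y hx hxy _ =>
    psi_mono pa (fun j => (gp j).1) hx hxy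
  have q1 : q 0 ≤ C' := by rw [hC']; nlinarith
  have st := hst n K N 𝒞 cl A κ top γ (fun l => b l) η s e Δ r q dat pr (by rw [hC']; linarith)
    (by linarith) hq q1 fun θ hθ => ⟨(v2 θ (hθ.mono C1)).1, fun b c φ bh u1 u2 u3 u4 =>
      (v2 θ (hθ.mono C1)).2 b _ c φ bh u1 ((sum_al qm (hq ▸ fc_top _ _)).trans_le q1)
        (u2.trans C1) u3 (u4.trans (by gcongr))⟩
  obtain ⟨r1, r2⟩ := hS K (by omega) b r q (fun j => Y.I2 j (Y.R univ (Fintype.card (Fin (N + 1)))))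
    (fq cl) κ (fun b' => (bg K cl κ top (Fin.cons (fun l => b' l) fun _ l => b l) γ).F) _ _ pr pa
    (fun j => (dat.hκ j).2) hq q0 hb hco (fun b' hb' => abs_avg fun i => st i _ hb') L hL
  rw [avg_fc cl _ _ fun j x => Real.log (1 + (κ top - κ j) * x), cons_self, ← hY] at r1 r2
  have Γ1 : ∑ l, γ l ^ 2 ≤ (thr / 3) ^ 2 := hγ ▸ (sum_sq_le_of_mem (η := η) fun j => by
    constructor <;> linarith [hπ j]).trans η2
  have f1 : |fc n (fun x => Real.log (uf (fq cl) (fun j => κ top - κ j) x) +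
      ∑ j, fq cl j * Real.log (1 + (κ top - κ j) * x)) r 0| ≤ (Lp + 2 * C) * X := by
    refine (fc_lip pr (L := Lp + 2 * C) (fun x y u1 u2 u3 => ?_) (Nat.zero_le _)).trans
      (mul_le_mul_of_nonneg_left pr.le (by positivity))
    rw [add_sub_add_comm, add_mul, ← sum_sub_distrib]
    refine (abs_add_le _ _).trans (add_le_add (lp x y u1 u2 u3).2.1
      ((abs_sum_le_sum_abs _ _).trans ((sum_le_sum (g := fun j => fq cl j * (2 * C * (y - x)))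
        fun j _ => ?_).trans_eq (by rw [← sum_mul, pa.2, one_mul]))))
    rw [← mul_sub, abs_mul, abs_of_nonneg (pa.1 j)]
    exact mul_le_mul_of_nonneg_left ((log_lip (gp j).1 (gp j).1 u1 u2).1.trans
      (mul_le_mul_of_nonneg_right (gp j).2 (sub_nonneg.2 u2))) (pa.1 j)
  have f2 : |∑ j, fq cl j * κ j| ≤ C := (abs_sum_le_sum_abs _ _).trans ((sum_le_sum
    (g := fun j => fq cl j * C) fun j _ => by
      rw [abs_mul, abs_of_nonneg (pa.1 j)]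
      exact mul_le_mul_of_nonneg_left (dat.hκ j).1 (pa.1 j)).trans_eq (by
        rw [← sum_mul, pa.2, one_mul]))
  have cp := dat.toDat.card_le
  have N0' : (0 : ℝ) < N := by exact_mod_cast d5
  have g1 := step_num (L := L) (inc := Y.F - (∑ i, (bg K (rm cl i) κ top (fun _ l => b l) γ).F) /
    (N + 1)) hMs D0 ht hM' ((Sys.dv_nonneg _ _).trans v1) (by linarith) a1 rfl
    (show e + ∑ l, γ l ^ 2 + 1 / Real.sqrt N ≤ thr by linarith)
    (by linarith [abs_le.1 f1, abs_le.1 f2]) fun u1 u2 => by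
      refine (r2 u2 (fun j => (hf j).trans (min_le_left _ _)) (fun j => ?_) ?_
        (rho_zero (fun ω => by simp [hY, bg, gen, sq, sp_sq]) (by simp))
        (rho_mem ok.toSt (by simp)) ?_).trans_eq (by ring)
      · have := hπ none
        simp only [hκ, ka, add_sub_cancel_left]
        split_ifs
        · rw [abs_of_nonneg (by linarith)]; linarith
        · simpa using he0.le
      · simp only [rho_sum (cl := cl) fun j => by exact_mod_cast zero_lt_one.trans_le (cp j).2,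
          ← sum_sub_distrib, ← mul_sub]
        refine (nm_sum_le _ _).trans ((sum_le_sum (g := fun j => fq cl j * e0) fun j _ => ?_).trans_eq
          (by rw [← sum_mul, pa.2, one_mul]))
        rw [nm_const_mul, abs_of_nonneg (pa.1 j)]
        refine mul_le_mul_of_nonneg_left ((hw n K _ _ Y _ _ _ e r ok dat.nz pr (tp cl j) (κ j) ?_
          (fun i hi => by rw [hY]; exact congrArg κ (mem_filter.1 hi).2)
          (by simpa using (cp j).1)).trans ?_) (pa.1 j)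
        · by_cases hj : j = top
          · exact Or.inl (by rw [hj])
          · refine Or.inr ?_
            rw [hY]
            exact disjoint_filter.2 fun a _ h1 h2 => hj (h1.symm.trans h2)
        · have : Real.sqrt (∑ l, Y.γ l ^ 2) ≤ thr / 3 :=
            Real.sqrt_le_iff.2 ⟨by positivity, hY ▸ Γ1⟩
          exact (mul_le_mul_of_nonneg_left (show _ ≤ 2 * thr by linarith) hMw).trans (by linarith)
      · simpa only [cons_self, ← hY] using hco1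
  have g2 := step_num2 M0 hMn (sd_nonneg Y s) s0 hη N0' (zero_lt_one.trans_le (cp top).2)
    (by linarith [(cp top).1]) a5 c4 d2 hε
  rw [← hΔ] at g2
  linarith

end Vale.Agent.P166
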