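import Vale.Agent.P166.UniB
import Vale.Agent.P166.Corner
import Vale.Agent.P166.Path

/-!
# P166: the systems of the cavity step
-/

namespace Vale.Agent.P166

open MeasureTheory Finset Vale.Agent.P168 Vale.Agent.P168.PW Vale.Agent.P157 Function Filter Topology
open scoped BigOperators

set_option synthInstance.maxSize 4096

section I1
variable {n K : ℕ} {Ω I : Type} [Fintype Ω] [Fintype I] [DecidableEq I] {Y : Sys n K Ω I}

theorem Sys.cont_t' (ω : Ω) (i : I) : Continuous fun U => Y.t U ω i :=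
  Sys.cont_t id continuous_id ω i

theorem I1_sq_le {M : ℝ} (hM : 1 ≤ M) {i : I} (h : Y.I1 (fun U ω => Y.t U ω i ^ 4) ≤ M) :
    Y.I1 (fun U ω => Y.t U ω i ^ 2) ≤ M := by
  have c4 := Y.cch.Eh n Y.ρ 0 fun ω => (Sys.cont_t' (Y := Y) ω i).fun_pow 4
  have : Y.I1 (fun U ω => Y.t U ω i ^ 2) ≤
      ∫ U, (1 / 2 + 1 / 2 * Eh n (Y.Q U) Y.ρ 0 fun ω => Y.t U ω i ^ 4) ∂(hr I) :=
    int_mono _ (Y.cch.Eh n Y.ρ 0 fun ω => (Sys.cont_t' ω i).fun_pow 2) (by fun_prop) fun U =>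
      (Eh_mono (G := fun ω => 1 / 2 + 1 / 2 * Y.t U ω i ^ 4) fun ω => by
        nlinarith [sq_nonneg (Y.t U ω i ^ 2 - 1)]).trans_eq (by
          rw [Eh_add, Eh_const, Eh_const_mul])
  rw [integral_add (integrable_const _) (intg _ (by fun_prop)), integral_const_mul] at this
  simp only [integral_const, probReal_univ, smul_eq_mul, one_mul] at this
  unfold Sys.I1 at h this ⊢
  linarith

theorem I1_sum_sq_le {M C : ℝ} (hM : 1 ≤ M) (h : ∀ i, Y.I1 (fun U ω => Y.t U ω i ^ 4) ≤ M)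
    {A : Finset I} (hA : (A.card : ℝ) ≤ C) :
    Y.I1 (fun U ω => ∑ i ∈ A, Y.t U ω i ^ 2) ≤ C * M := by
  simp only [Sys.I1, Eh_sum]
  rw [integral_finsetSum _ fun i _ =>
    intg _ (Y.cch.Eh n Y.ρ 0 fun ω => (Sys.cont_t' ω i).fun_pow 2)]
  refine (sum_le_card_nsmul _ _ M fun i _ => I1_sq_le hM (h i)).trans ?_
  rw [nsmul_eq_mul]
  gcongr

theorem F_le_of {Ω' : Type} [Fintype Ω'] {Y' : Sys n K Ω' I} {g : OG I → ℝ} (hg : Continuous g)
    (h : ∀ U, Y.F0 U ≤ Y'.F0 U + g U) : Y.F ≤ Y'.F + ∫ U, g U ∂(hr I) := by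
  rw [Sys.F, Sys.F, ← integral_add (intg _ Y'.cont_F0) (intg _ hg)]
  exact int_mono _ Y.cont_F0 (Y'.cont_F0.add hg) h

theorem F_le_const {Ω' : Type} [Fintype Ω'] {Y' : Sys n K Ω' I} {c : ℝ}
    (h : ∀ U, Y.F0 U ≤ Y'.F0 U + c) : Y.F ≤ Y'.F + c := by
  simpa using F_le_of (g := fun _ => c) continuous_const h

end I1

variable {n K N : ℕ} {𝒞 : Type} [DecidableEq 𝒞]

/-- The standard system with explicit eigenvalues. -/
noncomputable def bg {I : Type} [Fintype I] [DecidableEq I] (K : ℕ) (cl : I → 𝒞) (κ : 𝒞 → ℝ)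
    (top : 𝒞) (B : I → Fin (n + 1) → ℝ) (γ : Fin (n + 1) → ℝ) : Sys n K (Oa n K I) I :=
  gen id (fun i => κ (cl i)) (tp cl top) (Gx B) γ

theorem bg_st {I : Type} [Fintype I] [DecidableEq I] {cl : I → 𝒞} {κ : 𝒞 → ℝ} {top : 𝒞}
    (B : I → Fin (n + 1) → ℝ) {γ : Fin (n + 1) → ℝ} (hK : 0 < K) (hγ : ∑ l, γ l ^ 2 ≤ 1) :
    (bg K cl κ top B γ).St := gen_st injective_id _ _ (Gx_inv (by simp) _ _) hK hγ

theorem bg_ok {I : Type} [Fintype I] [DecidableEq I] {cl : I → 𝒞} {κ : 𝒞 → ℝ} {top : 𝒞}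
    (B : I → Fin (n + 1) → ℝ) {γ : Fin (n + 1) → ℝ} (hK : 0 < K) (hγ : ∑ l, γ l ^ 2 ≤ 1)
    {X C : ℝ} (hκ : ∀ j, |κ j| ≤ C ∧ κ j ≤ κ top) (hI : 0 < Fintype.card I)
    (hX : ∀ j, (Fintype.card I : ℝ) ≤ X * ((tp cl j).card - 1)) :
    (bg K cl κ top B γ).Ok (tp cl top) (κ top) X C where
  toSt := bg_st B hK hγ
  TS := Subset.rfl
  κ_T := fun i hi => congrArg κ (mem_filter.1 hi).2
  κ_le := fun _ => (hκ _).2
  κ_bd := fun _ => (hκ _).1
  κT_bd := (hκ _).1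
  b_T := fun _ _ _ => rfl
  b_S := fun _ _ _ => rfl
  b_bd := fun _ => by simpa [bg, gen] using (abs_nonneg _).trans (hκ top).1
  hI := hI
  cT := hX top
  cS := by simpa [bg, gen] using (abs_nonneg _).trans (hκ top).1
  blk := fun i hi => ⟨tp cl (cl i), by simp [tp], by
    simp only [bg, gen, tp, mem_filter, mem_univ, true_and] at hi
    simp only [bg, gen, tp, disjoint_filter]
    exact fun a _ h h' => hi (h.symm.trans h'),
    fun j hj => congrArg κ (mem_filter.1 hj).2, hX _⟩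

/-- The rows of class `j` that are not special. -/
def T1 (cl : Fin (N + 1) → 𝒞) (A : Finset (Fin N)) (j : 𝒞) : Finset (Fin N) :=
  univ.filter fun a => cl a.succ = j ∧ a ∉ A

theorem card_T1 (cl : Fin (N + 1) → 𝒞) (A : Finset (Fin N)) (j : 𝒞) :
    (T1 cl A j).card ≤ (tp cl j).card ∧ (tp cl j).card ≤ (T1 cl A j).card + A.card + 1 := by
  constructor
  · exact card_le_card_of_injOn Fin.succ (fun a ha => by
      simp only [T1, tp, coe_filter, mem_univ, true_and, Set.mem_ofPred] at ha ⊢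
      exact ha.1) (Fin.succ_injective N).injOn
  · have : tp cl j ⊆ insert 0 ((T1 cl A j ∪ A).image Fin.succ) := fun i hi => by
      refine Fin.cases (fun _ => mem_insert_self _ _) (fun a ha => ?_) i hi
      refine mem_insert_of_mem (mem_image_of_mem _ ?_)
      by_cases h : a ∈ A <;> simp_all [T1, tp]
    exact (card_le_card this).trans ((card_insert_le _ _).trans
      (Nat.succ_le_succ (card_image_le.trans (card_union_le _ _))))

/-- The data of a cavity step. -/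
structure Dat (K : ℕ) (cl : Fin (N + 1) → 𝒞) (A : Finset (Fin N)) (κ : 𝒞 → ℝ) (top : 𝒞)
    (γ : Fin (n + 1) → ℝ) (X C : ℝ) : Prop where
  hK : 0 < K
  hN : 0 < N
  hγ : ∑ l, γ l ^ 2 ≤ 1
  hκ : ∀ j, |κ j| ≤ C ∧ κ j ≤ κ top
  hA : (A.card : ℝ) ≤ C
  hX0 : 0 ≤ X
  hX : ∀ j, (N : ℝ) + 1 ≤ X * ((tp cl j).card - A.card - 2)

/-- Admissible eigenvalues of the smaller system. -/
def Ad (cl : Fin (N + 1) → 𝒞) (A : Finset (Fin N)) (κ : 𝒞 → ℝ) (top : 𝒞) (C : ℝ)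
    (θ : Fin N → ℝ) : Prop :=
  (∀ a ∉ A, θ a = κ (cl a.succ)) ∧ ∀ a, |θ a| ≤ C ∧ θ a ≤ κ top

variable {cl : Fin (N + 1) → 𝒞} {A : Finset (Fin N)} {κ : 𝒞 → ℝ} {top : 𝒞} {γ : Fin (n + 1) → ℝ}
  {X C : ℝ} {θ : Fin N → ℝ}

theorem Dat.big (h : Dat K cl A κ top γ X C) (B : Fin (N + 1) → Fin (n + 1) → ℝ) :
    (bg K cl κ top B γ).Ok (tp cl top) (κ top) X C :=
  bg_ok B h.hK h.hγ h.hκ (by simp) fun j => by
    refine le_trans (by simpa using h.hX j) (mul_le_mul_of_nonneg_left ?_ h.hX0)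
    linarith [Nat.cast_nonneg (α := ℝ) A.card]

theorem Dat.T1 (h : Dat K cl A κ top γ X C) (j : 𝒞) : (N : ℝ) + 1 ≤ X * ((T1 cl A j).card - 1) := by
  refine (h.hX j).trans (mul_le_mul_of_nonneg_left ?_ h.hX0)
  have : ((tp cl j).card : ℝ) ≤ (Vale.Agent.P166.T1 cl A j).card + A.card + 1 := by
    exact_mod_cast (card_T1 cl A j).2
  linarith

theorem sdiff_T1 : (T1 cl A top ∪ A) \ T1 cl A top = A := by
  ext a; by_cases h : a ∈ A <;> simp [T1, h]

theorem Dat.small (h : Dat K cl A κ top γ X C) (hθ : Ad cl A κ top C θ) {Ω : Type} [Fintype Ω]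
    {Y : Sys n K Ω (Fin N)} (st : Y.St) (hS : Y.S = Vale.Agent.P166.T1 cl A top ∪ A) (hκ : Y.κ = θ)
    (hb : ∀ ω, ∀ a ∉ A, Y.b ω a = 0) (hb2 : ∀ ω, ∑ a, Y.b ω a ^ 2 ≤ C) :
    Y.Ok (Vale.Agent.P166.T1 cl A top) (κ top) X C where
  toSt := st
  TS := hS ▸ subset_union_left
  κ_T := fun i hi => by
    have := (mem_filter.1 hi).2
    rw [hκ, hθ.1 i this.2, this.1]
  κ_le := fun i => hκ ▸ (hθ.2 i).2
  κ_bd := fun i => hκ ▸ (hθ.2 i).1
  κT_bd := (h.hκ _).1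
  b_T := fun ω i hi => hb ω i (mem_filter.1 hi).2.2
  b_S := fun ω i hi => hb ω i fun h => hi (hS ▸ mem_union_right _ h)
  b_bd := hb2
  hI := by simpa using h.hN
  cT := by simpa using (le_add_of_nonneg_right zero_le_one).trans (h.T1 top)
  cS := by rw [hS, sdiff_T1]; exact h.hA
  blk := fun i hi => by
    rw [hS] at hi ⊢
    simp only [mem_union, not_or, Vale.Agent.P166.T1, mem_filter, mem_univ, true_and] at hi
    refine ⟨Vale.Agent.P166.T1 cl A (cl i.succ), by simp [Vale.Agent.P166.T1, hi.2],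
      disjoint_left.2 fun a ha => ?_, fun j hj => ?_,
      by simpa using (le_add_of_nonneg_right zero_le_one).trans (h.T1 _)⟩
    · simp only [mem_union, Vale.Agent.P166.T1, mem_filter, mem_univ, true_and] at ha ⊢
      rintro (h' | h')
      · exact hi.1 ⟨ha.1.symm.trans h'.1, hi.2⟩
      · exact ha.2 h'
    · have := (mem_filter.1 hj).2
      rw [hκ, hθ.1 j this.2, hθ.1 i hi.2, this.1]

variable (K cl A top) in
/-- The smaller system. -/
noncomputable def mv (θ : Fin N → ℝ) (β γ : Fin (n + 1) → ℝ) : Sys n K (Oa n K (Fin N)) (Fin N) :=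
  gen id θ (T1 cl A top ∪ A) (Gx fun _ => β) γ

/-- The cavity spin. -/
def ep (ω : Oa n K (Fin (N + 1))) : ℝ := sp (ω.1 0)

variable (n K N) in
def s2 : Fam (Fin (n + 1) × Fin K) (Oa n K (Fin (N + 1))) :=
  (famU _ lva).comap fun l => (2, l.1, 0, l.2)

variable (K cl A top) in
/-- The smaller system together with the cavity spin. -/
noncomputable def cv (θ : Fin N → ℝ) (β γ b : Fin (n + 1) → ℝ) (c : ℝ) (bh : Fin N → ℝ)
    (α : Fin (n + 1) → ℝ) (φ : ℝ) : Sys n K (Oa n K (Fin (N + 1))) (Fin N) :=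
  (gen Fin.succ θ (T1 cl A top ∪ A) (fun ω => Gx (Fin.cons b fun _ => β) ω + c) γ).cav ep bh
    (s2 n K N) α φ

theorem tot_s2 (α : Fin (n + 1) → ℝ) (ω : Oa n K (Fin (N + 1))) :
    tot (fld (s2 n K N) fun _ ω => ep ω / Real.sqrt K) α ω =
      ∑ l, α l * (hf 2 l 0 ω * sp (ω.1 0)) := by
  simp only [tot, fld, hf, sum_div, sum_mul]
  exact sum_congr rfl fun l _ => congrArg _ (sum_congr rfl fun k _ => by
    simp only [s2, Fam.comap, famU, ep]; ring)

theorem Dat.mv (h : Dat K cl A κ top γ X C) (hθ : Ad cl A κ top C θ) (β : Fin (n + 1) → ℝ) :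
    (mv K cl A top θ β γ).Ok (Vale.Agent.P166.T1 cl A top) (κ top) X C :=
  h.small hθ (gen_st injective_id _ _ (Gx_inv (by simp) _ _) h.hK h.hγ) rfl rfl (fun _ _ _ => rfl)
    fun _ => by simpa [Vale.Agent.P166.mv, gen] using (Nat.cast_nonneg _).trans h.hA

theorem cv_inv (β b α : Fin (n + 1) → ℝ) (c φ : ℝ) (bh : Fin N → ℝ) :
    (fam n K 1 Fin.succ).Inv (cv K cl A top θ β γ b c bh α φ).G := fun l ω => by
  simp only [cv, Sys.cav, gen, tot_s2, Gx_inv (c := 1) (by simp) Fin.succ _ l ω, fam_π_fst,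
    fun m => hf_inv (n := n) (K := K) (c := 1) (c' := 2) (e := Fin.succ) (i := (0 : Fin (N + 1)))
      (Or.inl (by simp)) m l ω]

theorem sum_bh_le {bh : Fin N → ℝ} (hb : ∑ a, bh a ^ 2 ≤ C) (φ : ℝ) (ω : Oa n K (Fin (N + 1))) :
    ∑ a, (Real.sin φ * bh a * ep ω) ^ 2 ≤ C := by
  refine le_trans (sum_le_sum fun a _ => ?_) hb
  rw [mul_pow, mul_pow, ep, sq (sp _), sp_sq, mul_one]
  exact mul_le_of_le_one_left (sq_nonneg _) (Real.sin_sq_le_one φ)

theorem Dat.cv_st (h : Dat K cl A κ top γ X C) (β b α : Fin (n + 1) → ℝ) (c φ : ℝ)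
    (bh : Fin N → ℝ) : (cv K cl A top θ β γ b c bh α φ).St :=
  ⟨fam_ok 1 (Fin.succ_injective N), fun _ _ => rfl, fun _ _ => rfl, fun _ _ => rfl,
    cv_inv β b α c φ bh, fun ω => by simp [cv, Sys.cav, gen, sq, sp_sq], h.hK, h.hγ⟩

theorem Dat.cv (h : Dat K cl A κ top γ X C) (hθ : Ad cl A κ top C θ) (β b α : Fin (n + 1) → ℝ)
    (c φ : ℝ) {bh : Fin N → ℝ} (h0 : ∀ a ∉ A, bh a = 0) (hb : ∑ a, bh a ^ 2 ≤ C) :
    (cv K cl A top θ β γ b c bh α φ).Ok (Vale.Agent.P166.T1 cl A top) (κ top) X C :=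
  h.small hθ (h.cv_st β b α c φ bh) rfl rfl
    (fun ω a ha => by simp [Vale.Agent.P166.cv, Sys.cav, h0 a ha]) (sum_bh_le hb φ)

/-- Without coupling the cavity spin splits off. -/
theorem cv_split (β b α : Fin (n + 1) → ℝ) (c φ : ℝ) (bh : Fin N → ℝ) :
    ({ cv K cl A top θ β γ b c bh α φ with b := fun _ _ => 0 } :
      Sys n K (Oa n K (Fin (N + 1))) (Fin N)).F =
      (mv K cl A top θ β γ).F + c + ps K (Fin 1) (fun l => Real.cos φ * α l) b := by
  have : ({ cv K cl A top θ β γ b c bh α φ with b := fun _ _ => 0 } :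
      Sys n K (Oa n K (Fin (N + 1))) (Fin N)) = gen Fin.succ θ (T1 cl A top ∪ A)
      (fun ω => Gx (Fin.cons b fun _ => β) ω + c +
        ∑ l, Real.cos φ * α l * (hf 2 l 0 ω * sp (ω.1 0))) γ := by
    simp only [cv, Sys.cav, gen, tot_s2, mul_sum, mul_assoc]
  have c0 := (mv K cl A top θ β γ).cont_F0
  rw [this, Sys.F, funext (split θ _ β b _ γ c)]
  change ∫ U, (mv K cl A top θ β γ).F0 U + c + _ ∂_ = _
  rw [integral_add (intg _ (by fun_prop)) (integrable_const _),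
    integral_add (intg _ c0) (integrable_const _)]
  simp [Sys.F]

theorem cv_zero (β b α : Fin (n + 1) → ℝ) (c : ℝ) (bh : Fin N → ℝ) :
    (cv K cl A top θ β γ b c bh α 0).F = (mv K cl A top θ β γ).F + c + ps K (Fin 1) α b := by
  have := cv_split (K := K) (cl := cl) (A := A) (top := top) (θ := θ) (γ := γ) β b α c 0 bh
  simp only [Real.cos_zero, one_mul] at this
  rw [← this]
  simp [cv, Sys.cav]

end Vale.Agent.P166
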