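import Vale.Agent.P166.Win

/-!
# P166: the big system as a cavity system
-/

namespace Vale.Agent.P166

open MeasureTheory Finset Vale.Agent.P168 Vale.Agent.P168.PW Vale.Agent.P157 Function Filter Topology
open scoped BigOperators

set_option synthInstance.maxSize 4096

variable {n K N : ℕ} {𝒞 : Type} [DecidableEq 𝒞]
  {cl : Fin (N + 1) → 𝒞} {A : Finset (Fin N)} {κ : 𝒞 → ℝ} {top : 𝒞} {γ : Fin (n + 1) → ℝ}
  {X C : ℝ} {θ : Fin N → ℝ}

theorem Dat.mono (h : Dat K cl A κ top γ X C) {C' : ℝ} (hC : C ≤ C') : Dat K cl A κ top γ X C' :=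
  ⟨h.hK, h.hN, h.hγ, fun j => ⟨(h.hκ j).1.trans hC, (h.hκ j).2⟩, h.hA.trans hC, h.hX0, h.hX⟩

omit [DecidableEq 𝒞] in
theorem Ad.mono (h : Ad cl A κ top C θ) {C' : ℝ} (hC : C ≤ C') : Ad cl A κ top C' θ :=
  ⟨h.1, fun a => ⟨(h.2 a).1.trans hC, (h.2 a).2⟩⟩

theorem Dat.C0 (h : Dat K cl A κ top γ X C) : 0 ≤ C := (Nat.cast_nonneg _).trans h.hA

theorem En_cv (β b α : Fin (n + 1) → ℝ) (c φ : ℝ) (bh : Fin N → ℝ) (G : Oa n K (Fin (N + 1)) → ℝ)
    (V : OG (Fin N)) (ω : Oa n K (Fin (N + 1))) :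
    ({ cv K cl A top θ β γ b c bh α φ with G := G } :
      Sys n K (Oa n K (Fin (N + 1))) (Fin N)).En V ω =
      (∑ a, θ a * act V (fun a => sp (ω.1 a.succ)) a ^ 2) / 2 +
        Real.sin φ * (ep ω * ∑ a, bh a * act V (fun a => sp (ω.1 a.succ)) a) + G ω +
        ∑ a ∈ T1 cl A top ∪ A, act V (fun a => gf γ ω a.succ) a *
          act V (fun a => sp (ω.1 a.succ)) a := by
  have : ({ cv K cl A top θ β γ b c bh α φ with G := G } :
      Sys n K (Oa n K (Fin (N + 1))) (Fin N)).g ω = fun a => gf γ ω a.succ := funext fun a => by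
    simp only [Sys.g, gf, hf, sum_div]; rfl
  rw [Sys.En, Sys.tot_eq, this]
  simp only [Sys.H, cv, Sys.cav, gen, mul_sum]
  congr 3
  exact sum_congr rfl fun a _ => by simp only [Sys.t]; ring

theorem emb1_mul (W V : OG (Fin N)) : emb1 W * emb1 V = emb1 (W * V) :=
  og_ext fun x => by simp only [act_mul, act_emb1, Fin.cons_zero, Fin.tail_cons]

theorem dot_inv {I : Type} [Fintype I] [DecidableEq I] (U : OG I) (x y : I → ℝ) :
    ∑ a, x a * act U⁻¹ y a = ∑ a, act U x a * y a := by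
  have := dot_act U⁻¹ x y
  simpa only [dotProduct, inv_inv] using this

theorem dot_inv' {I : Type} [Fintype I] [DecidableEq I] (U : OG I) (x y : I → ℝ) :
    ∑ a, act U x a * act U y a = ∑ a, x a * y a := act_dot U x y

/-- Removing the small field of the cavity spin. -/
theorem cv_g0 (h : Dat K cl A κ top γ X C) (β b α : Fin (n + 1) → ℝ) (c φ : ℝ) (bh : Fin N → ℝ)
    (V : OG (Fin N)) :
    |({ cv K cl A top θ β γ b c bh α φ with
        G := fun ω => (cv K cl A top θ β γ b c bh α φ).G ω + gf γ ω 0 * ep ω } :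
      Sys n K (Oa n K (Fin (N + 1))) (Fin N)).F0 V - (cv K cl A top θ β γ b c bh α φ).F0 V| ≤
      ∑ l, γ l ^ 2 := by
  have hK' : (0 : ℝ) < K := by exact_mod_cast h.hK
  have h1 := lin_two (n := n) (P := Pa n K (Fin (N + 1))) (ρ := ρa n K (Fin (N + 1)))
    (H := (cv K cl A top θ β γ b c bh α φ).En V) (s := fam n K 1 fun _ : Fin 1 => 0)
    ((fam_ok 1 (injective_of_subsingleton _)).Tn fun l ω => by
      have e := En_cv (cl := cl) (A := A) (top := top) (θ := θ) (γ := γ) β b α c φ bh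
        (cv K cl A top θ β γ b c bh α φ).G V
      refine (e _).trans (Eq.trans ?_ (e _).symm)
      simp only [cv, Sys.cav, gen, tot_s2]
      simp only [Gx_inv (c := 1) (by simp) _ _ l ω, fam_π_fst, gf, ep,
        fun m => hf_inv (n := n) (K := K) (c := 1) (c' := 2) (e := fun _ : Fin 1 => 0)
          (i := (0 : Fin (N + 1))) (Or.inl (by simp)) m l ω,
        fun m (a : Fin N) => hf_inv (n := n) (K := K) (c := 1) (c' := 1) (e := fun _ : Fin 1 => 0)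
          (i := a.succ) (Or.inr fun _ => Fin.succ_ne_zero a) m l ω])
    (v := fun l ω => γ l.1 * (ep ω / Real.sqrt K)) (fun _ _ _ => rfl) (W := ∑ l, γ l ^ 2)
    fun ω => le_of_eq (by
      simp only [Fintype.sum_prod_type, mul_pow, div_pow, Real.sq_sqrt hK'.le, ep, one_mul,
        sq (sp _), sp_sq, sum_const, card_univ, Fintype.card_fin, nsmul_eq_mul, Fintype.card_prod]
      exact sum_congr rfl fun l _ => by field_simp)
  have h2 : ({ cv K cl A top θ β γ b c bh α φ with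
        G := fun ω => (cv K cl A top θ β γ b c bh α φ).G ω + gf γ ω 0 * ep ω } :
      Sys n K (Oa n K (Fin (N + 1))) (Fin N)).F0 V = Fr n (Pa n K _) (ρa n K _) fun ω =>
      (cv K cl A top θ β γ b c bh α φ).En V ω + ∑ l, sp ((fam n K 1 fun _ : Fin 1 => 0).τ l ω) *
        (γ l.1 * (ep ω / Real.sqrt K)) := by
    refine congrArg (Fr n (Pa n K _) (ρa n K _)) (funext fun ω => ?_)
    have e : gf γ ω 0 * ep ω = ∑ l, sp ((fam n K 1 fun _ : Fin 1 => 0).τ l ω) *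
        (γ l.1 * (ep ω / Real.sqrt K)) := by
      simp only [gf, hf, Fintype.sum_prod_type, Fin.sum_univ_one, sum_mul, sum_div, mul_sum]
      exact sum_congr rfl fun l _ => sum_congr rfl fun k _ => by
        simp only [fam, Fam.comap, famU]; ring
    rw [← e, En_cv, En_cv β b α c φ bh (cv K cl A top θ β γ b c bh α φ).G]
    ring
  have h3 : 0 ≤ ∑ l, γ l ^ 2 := sum_nonneg fun _ _ => sq_nonneg _
  rw [h2, abs_le]
  change _ ≤ _ - Fr n (Pa n K _) (ρa n K _) _ ∧ _ - Fr n (Pa n K _) (ρa n K _) _ ≤ _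
  constructor <;> linarith [h1.1, h1.2]

theorem vd_orth {ξ : Fin (N + 1) → ℝ} (h1 : ∀ a ∉ A, ξ a.succ = 0) (h2 : ∑ i, ξ i ^ 2 = 1)
    (x y : Fin (N + 1) → ℝ) :
    ∑ i, ((Fin.cons 0 fun a => if a ∈ T1 cl A top then x a.succ else 0 : Fin (N + 1) → ℝ) i +
        (∑ i, ξ i * x i) * ξ i) *
      ((Fin.cons (y 0) fun a => if a ∈ A then y a.succ else 0 : Fin (N + 1) → ℝ) i -
        (∑ i, ξ i * y i) * ξ i) = 0 := by
  have a1 : ∑ i, ξ i * (Fin.cons (y 0) fun a => if a ∈ A then y a.succ else 0 :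
      Fin (N + 1) → ℝ) i = ∑ i, ξ i * y i := by
    simp only [Fin.sum_univ_succ, Fin.cons_zero, Fin.cons_succ]
    congr 1
    exact sum_congr rfl fun a _ => by by_cases h : a ∈ A <;> simp [h, h1]
  have a2 : ∀ i, (Fin.cons 0 fun a => if a ∈ T1 cl A top then x a.succ else 0 :
      Fin (N + 1) → ℝ) i * ξ i = 0 := fun i => by
    refine Fin.cases (by simp) (fun a => ?_) i
    by_cases h : a ∈ A <;> simp [T1, h, h1]
  have a3 : ∀ i, (Fin.cons 0 fun a => if a ∈ T1 cl A top then x a.succ else 0 :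
      Fin (N + 1) → ℝ) i * (Fin.cons (y 0) fun a => if a ∈ A then y a.succ else 0 :
      Fin (N + 1) → ℝ) i = 0 := fun i => by
    refine Fin.cases (by simp) (fun a => ?_) i
    by_cases h : a ∈ A <;> simp [T1, h]
  generalize (Fin.cons 0 fun a => if a ∈ T1 cl A top then x a.succ else 0 : Fin (N + 1) → ℝ) = u
    at a2 a3
  generalize (Fin.cons (y 0) fun a => if a ∈ A then y a.succ else 0 : Fin (N + 1) → ℝ) = v
    at a1 a3
  generalize ∑ i, ξ i * x i = p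
  generalize ∑ i, ξ i * y i = q at a1
  calc _ = ∑ i, (u i * v i - q * (u i * ξ i) + p * (ξ i * v i) - p * q * ξ i ^ 2) :=
        sum_congr rfl fun i _ => by ring
    _ = 0 := by
      simp only [a2, a3, sum_sub_distrib, sum_add_distrib, ← mul_sum, a1, h2]
      simp

/-- The identities of the corner decomposition. -/
structure Cor (cl : Fin (N + 1) → 𝒞) (A : Finset (Fin N)) (κ : 𝒞 → ℝ) (top : 𝒞) (C : ℝ)
    (U : OG (Fin (N + 1))) (W : OG (Fin N)) (θ bh : Fin N → ℝ) (ξ : Fin (N + 1) → ℝ) (a0 : ℝ) :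
    Prop where
  ad : Ad cl A κ top C θ
  b0 : ∀ a ∉ A, bh a = 0
  x0 : ∀ a ∉ A, ξ a.succ = 0
  bb : ∑ a, bh a ^ 2 ≤ C ^ 2
  xx : ∑ i, ξ i ^ 2 = 1
  aa : |a0| ≤ C
  en : ∀ x : Fin (N + 1) → ℝ, ∑ i, κ (cl i) * act U x i ^ 2 =
    a0 * x 0 ^ 2 + 2 * x 0 * ∑ a, bh a * act W (Fin.tail x) a +
      ∑ a, θ a * act W (Fin.tail x) a ^ 2
  pr : ∀ x y : Fin (N + 1) → ℝ, ∑ i with cl i = top, act U x i * act U y i =
    ∑ a with cl a.succ = top ∧ a ∉ A, act W (Fin.tail x) a * act W (Fin.tail y) a +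
      (∑ i, ξ i * act (emb1 W) x i) * ∑ i, ξ i * act (emb1 W) y i

theorem bigpt (h : Dat K cl A κ top γ X C) {U : OG (Fin (N + 1))} {W : OG (Fin N)}
    {bh : Fin N → ℝ} {ξ : Fin (N + 1) → ℝ} {a0 e : ℝ} (hc : Cor cl A κ top C U W θ bh ξ a0)
    (he : ((N : ℝ) + 1) ^ 3 ≤ e * Real.sqrt K) (he1 : e ≤ 1 / 4) (β b α : Fin (n + 1) → ℝ)
    (V : OG (Fin N)) {Y : Sys n K (Oa n K (Fin (N + 1))) (Fin N)}
    (hY : Y = { cv K cl A top θ β γ b (a0 / 2) bh α (Real.pi / 2) with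
      G := fun ω => (cv K cl A top θ β γ b (a0 / 2) bh α (Real.pi / 2)).G ω + gf γ ω 0 * ep ω }) :
    (bg K cl κ top (Fin.cons b fun _ => β) γ).F0 (U * emb1 V) ≤ Y.F0 (W * V) + 800 * e ∧
      Y.F0 (W * V) ≤ (bg K cl κ top (Fin.cons b fun _ => β) γ).F0 (U * emb1 V) +
        (2 * (∑ l, γ l ^ 2) * (1 + Eh n (Y.Q (W * V)) Y.ρ 0
          fun ω => ∑ a ∈ A, Y.t (W * V) ω a ^ 2) + 800 * e) := by
  obtain ⟨τ, hτ⟩ : ∃ τ : Oa n K (Fin (N + 1)) → Fin (N + 1) → ℝ,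
    τ = fun ω => act (emb1 (W * V)) fun i => sp (ω.1 i) := ⟨_, rfl⟩
  have t0 : ∀ ω, τ ω 0 = ep ω := fun ω => by rw [hτ]; simp only [act_emb1, Fin.cons_zero, ep]
  have t1 : ∀ ω a, τ ω a.succ = act (W * V) (fun a => sp (ω.1 a.succ)) a := fun ω a => by
    rw [hτ]; simp only [act_emb1, Fin.cons_succ]; rfl
  have t2 : ∀ ω, ∑ i, τ ω i ^ 2 = N + 1 := fun ω => by
    rw [hτ]; simp [sum_act_sq, sq (sp _), sp_sq]
  have e2 : ∀ ω : Oa n K (Fin (N + 1)), ep ω ^ 2 = 1 := fun ω => by rw [ep, sq, sp_sq]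
  obtain ⟨v, hv⟩ : ∃ v : Oa n K (Fin (N + 1)) → Fin (N + 1) → ℝ, v = fun ω i =>
    (Fin.cons 0 fun a => if a ∈ T1 cl A top then τ ω a.succ else 0 : Fin (N + 1) → ℝ) i +
      (∑ i, ξ i * τ ω i) * ξ i := ⟨_, rfl⟩
  obtain ⟨d, hd⟩ : ∃ d : Oa n K (Fin (N + 1)) → Fin (N + 1) → ℝ, d = fun ω i =>
    (Fin.cons (τ ω 0) fun a => if a ∈ A then τ ω a.succ else 0 : Fin (N + 1) → ℝ) i -
      (∑ i, ξ i * τ ω i) * ξ i := ⟨_, rfl⟩
  have ho : ∀ x y, ∑ i, v x i * d y i = 0 := fun x y => by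
    rw [hv, hd]; exact vd_orth hc.x0 hc.xx _ _
  have vd : ∀ ω, v ω + d ω = Fin.cons (τ ω 0)
      fun a => if a ∈ T1 cl A top ∪ A then τ ω a.succ else 0 := fun ω => funext fun i => by
    rw [hv, hd]
    refine Fin.cases (by simp) (fun a => ?_) i
    by_cases h : a ∈ A <;> simp [T1, h]
  have n1 : ∀ ω, ∑ i, v ω i ^ 2 + ∑ i, d ω i ^ 2 ≤ N + 1 := fun ω => by
    have : ∑ i, (v ω + d ω) i ^ 2 = ∑ i, v ω i ^ 2 + 2 * ∑ i, v ω i * d ω i + ∑ i, d ω i ^ 2 := by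
      simp only [mul_sum, ← sum_add_distrib]
      exact sum_congr rfl fun i _ => by rw [Pi.add_apply]; ring
    rw [ho, mul_zero, add_zero, vd] at this
    rw [← this, ← t2 ω]
    refine sum_le_sum fun i _ => Fin.cases (by simp) (fun a => ?_) i
    simp only [Fin.cons_succ]
    split_ifs <;> simp [sq_nonneg]
  have n2 : ∀ ω, ∑ i, d ω i ^ 2 ≤ 1 + ∑ a ∈ A, τ ω a.succ ^ 2 := fun ω => by
    have a1 : ∑ i, ξ i * (Fin.cons (τ ω 0) fun a => if a ∈ A then τ ω a.succ else 0 :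
        Fin (N + 1) → ℝ) i = ∑ i, ξ i * τ ω i := by
      simp only [Fin.sum_univ_succ, Fin.cons_zero, Fin.cons_succ]
      congr 1
      exact sum_congr rfl fun a _ => by by_cases h : a ∈ A <;> simp [h, hc.x0]
    have a2 : ∑ i, (Fin.cons (τ ω 0) fun a => if a ∈ A then τ ω a.succ else 0 :
        Fin (N + 1) → ℝ) i ^ 2 = 1 + ∑ a ∈ A, τ ω a.succ ^ 2 := by
      simp [Fin.sum_univ_succ, t0, e2]
    rw [hd, ← a2]
    dsimp only
    generalize (Fin.cons (τ ω 0) fun a => if a ∈ A then τ ω a.succ else 0 : Fin (N + 1) → ℝ) = u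
      at a1
    generalize ∑ i, ξ i * τ ω i = q at a1
    have : ∑ i, (u i - q * ξ i) ^ 2 = ∑ i, u i ^ 2 - 2 * q * ∑ i, ξ i * u i +
        q ^ 2 * ∑ i, ξ i ^ 2 := by
      simp only [mul_sum, ← sum_add_distrib, ← sum_sub_distrib]
      exact sum_congr rfl fun i _ => by ring
    rw [this, a1, hc.xx]
    nlinarith [sq_nonneg q]
  have iτ : (fam n K 1 id).Inv τ := fun l ω => by rw [hτ]; rfl
  have g := gramV (bg_st (cl := cl) (κ := κ) (top := top) (Fin.cons b fun _ => β) h.hK h.hγ)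
    (H := fun ω => (∑ a, θ a * τ ω a.succ ^ 2) / 2 + ep ω * ∑ a, bh a * τ ω a.succ +
      (Gx (Fin.cons b fun _ => β) ω + a0 / 2))
    (fun l ω => by
      have := iτ l ω
      have e := Gx_inv (c := 1) (by simp) id (Fin.cons b fun _ => β) l ω
      change _ + ep ((fam n K 1 id).π l ω) * ∑ a, bh a * τ ((fam n K 1 id).π l ω) a.succ +
        (Gx _ ((fam n K 1 id).π l ω) + _) = _
      rw [e]
      change (∑ a, θ a * τ ((fam n K 1 id).π l ω) a.succ ^ 2) / 2 + _ + _ = _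
      rw [this]
      rfl)
    (v := fun ω => act (emb1 (W * V))⁻¹ (v ω)) (d := fun ω => act (emb1 (W * V))⁻¹ (d ω))
    (fun l ω => by
      change act _ (v ((fam n K 1 id).π l ω)) = _
      simp only [hv, iτ l ω])
    (fun l ω => by
      change act _ (d ((fam n K 1 id).π l ω)) = _
      simp only [hd, iτ l ω])
    (fun ω => by
      have := sum_nonneg (s := univ) fun i _ => sq_nonneg (d ω i)
      rw [sum_act_sq]; simp only [Fintype.card_fin]; push_cast; linarith [n1 ω])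
    (fun ω => by
      have := sum_nonneg (s := univ) fun i _ => sq_nonneg (v ω i)
      rw [sum_act_sq]; simp only [Fintype.card_fin]; push_cast; linarith [n1 ω])
    (fun x y => by rw [dot_inv', ho]) (e := e) (by simp) (by simpa using he) he1
  have gg : ∀ ω, (bg K cl κ top (Fin.cons b fun _ => β) γ).g ω = fun a => gf γ ω a :=
    fun ω => funext fun a => by simp only [Sys.g, gf, hf, sum_div]; rfl
  have E1 : (fun ω => (∑ a, θ a * τ ω a.succ ^ 2) / 2 + ep ω * ∑ a, bh a * τ ω a.succ +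
      (Gx (Fin.cons b fun _ => β) ω + a0 / 2) + ∑ a, (bg K cl κ top (Fin.cons b fun _ => β) γ).g ω a *
        act (emb1 (W * V))⁻¹ (v ω) a) =
      (bg K cl κ top (Fin.cons b fun _ => β) γ).En (U * emb1 V) := funext fun ω => by
    rw [gg, dot_inv, bg, En_gen, tp]
    simp only [act_mul U, id, hc.en, hc.pr, ← act_mul (emb1 W), emb1_mul]
    simp only [act_emb1 V, Fin.tail_cons, Fin.cons_zero, ← act_mul W, hv, mul_add, sum_add_distrib,
      t1, sq (sp _), sp_sq]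
    rw [← congrFun hτ ω]
    have a1 : ∑ x, act (emb1 (W * V)) (fun a => gf γ ω a) x * ((∑ i, ξ i * τ ω i) * ξ x) =
        (∑ x, ξ x * act (emb1 (W * V)) (fun a => gf γ ω a) x) * ∑ x, ξ x * τ ω x := by
      rw [sum_mul _ _ (∑ x, ξ x * τ ω x)]
      exact sum_congr rfl fun i _ => by ring
    have a2 : ∑ x, act (emb1 (W * V)) (fun a => gf γ ω a) x * (Fin.cons 0 fun a =>
        if a ∈ T1 cl A top then act (W * V) (fun a => sp (ω.1 a.succ)) a else 0 :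
          Fin (N + 1) → ℝ) x = ∑ x with cl x.succ = top ∧ x ∉ A,
        act (W * V) (Fin.tail fun a => gf γ ω a) x * act (W * V) (fun a => sp (ω.1 a.succ)) x := by
      simp [Fin.sum_univ_succ, act_emb1, T1, sum_filter]
    rw [a1, a2, ep]
    change _ = (a0 * 1 + 2 * sp (ω.1 0) * ∑ x, bh x * act (W * V) (fun a => sp (ω.1 a.succ)) x +
      ∑ x, θ x * act (W * V) (fun a => sp (ω.1 a.succ)) x ^ 2) / 2 + _ +
      (∑ x with cl x.succ = top ∧ x ∉ A, act (W * V) (Fin.tail fun a => gf γ ω a) x *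
        act (W * V) (fun a => sp (ω.1 a.succ)) x + _)
    ring
  have E2 : (fun ω => (∑ a, θ a * τ ω a.succ ^ 2) / 2 + ep ω * ∑ a, bh a * τ ω a.succ +
      (Gx (Fin.cons b fun _ => β) ω + a0 / 2) + ∑ a, (bg K cl κ top (Fin.cons b fun _ => β) γ).g ω a *
        (act (emb1 (W * V))⁻¹ (v ω) a + act (emb1 (W * V))⁻¹ (d ω) a)) = Y.En (W * V) :=
    funext fun ω => by
      simp only [← Pi.add_apply (act _ _), ← act_add]
      rw [gg, dot_inv, vd, hY, En_cv]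
      simp only [act_emb1, Fin.sum_univ_succ, Fin.cons_zero, Fin.cons_succ, t0, t1, cv, Sys.cav, gen,
        Real.sin_pi_div_two, Real.cos_pi_div_two, mul_ite, mul_zero, sum_ite_mem, univ_inter]
      change _ + (_ + ∑ x ∈ T1 cl A top ∪ A, act (W * V) (fun a => gf γ ω a.succ) x * _) = _
      ring
  rw [E1, E2] at g
  have hP : Y.P = Pa n K _ := by rw [hY]; rfl
  have hρ : Y.ρ = ρa n K _ := by rw [hY]; rfl
  have ht : ∀ ω a, Y.t (W * V) ω a = τ ω a.succ := fun ω a => by rw [hY, t1]; rfl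
  have g3 : Eh n (Tn n (Pa n K _) (Y.En (W * V))) (ρa n K _) 0
      (fun ω => ∑ a, act (emb1 (W * V))⁻¹ (d ω) a ^ 2) ≤
      1 + Eh n (Y.Q (W * V)) Y.ρ 0 fun ω => ∑ a ∈ A, Y.t (W * V) ω a ^ 2 := by
    simp only [ht, Sys.Q, hP, hρ, sum_act_sq]
    exact (Eh_mono n2).trans_eq (by rw [Eh_add, Eh_const])
  have g4 := mul_le_mul_of_nonneg_left g3 (show 0 ≤ 2 * ∑ l, γ l ^ 2 from
    mul_nonneg zero_le_two (sum_nonneg fun _ _ => sq_nonneg _))
  rw [Sys.F0, Sys.F0, hP, hρ]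
  refine ⟨g.1, g.2.trans ?_⟩
  rw [add_assoc, ← hρ]
  exact add_le_add le_rfl (add_le_add (hρ ▸ g4) le_rfl)

theorem bigcav (X C : ℝ) : ∃ M : ℝ, 0 ≤ M ∧ ∀ (n K N : ℕ) (𝒞 : Type) [DecidableEq 𝒞]
    (cl : Fin (N + 1) → 𝒞) (A : Finset (Fin N)) (κ : 𝒞 → ℝ) (top : 𝒞) (γ : Fin (n + 1) → ℝ)
    (U : OG (Fin (N + 1))) (W : OG (Fin N)) (θ bh : Fin N → ℝ) (ξ : Fin (N + 1) → ℝ) (a0 e : ℝ),
    Dat K cl A κ top γ X C → Cor cl A κ top C U W θ bh ξ a0 →
    ((N : ℝ) + 1) ^ 3 ≤ e * Real.sqrt K → e ≤ 1 / 4 → ∀ β b α : Fin (n + 1) → ℝ,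
    |∫ V, (bg K cl κ top (Fin.cons b fun _ => β) γ).F0 (U * emb1 V) ∂(hr (Fin N)) -
      (cv K cl A top θ β γ b (a0 / 2) bh α (Real.pi / 2)).F| ≤ M * (∑ l, γ l ^ 2 + e) := by
  obtain ⟨M, hM, h4⟩ := m4 X (C + C ^ 2)
  refine ⟨3 + 2 * |C| * M + 800, by positivity,
    fun n K N 𝒞 _ cl A κ top γ U W θ bh ξ a0 e h hc he he1 β b α => ?_⟩
  have C0 := h.C0
  have hC : C ≤ C + C ^ 2 := le_add_of_nonneg_right (sq_nonneg _)
  obtain ⟨Y, hY⟩ : ∃ Y : Sys n K (Oa n K (Fin (N + 1))) (Fin N),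
    Y = { cv K cl A top θ β γ b (a0 / 2) bh α (Real.pi / 2) with
      G := fun ω => (cv K cl A top θ β γ b (a0 / 2) bh α (Real.pi / 2)).G ω + gf γ ω 0 * ep ω } :=
    ⟨_, rfl⟩
  have st := h.cv_st (θ := θ) β b α (a0 / 2) (Real.pi / 2) bh
  have ok : Y.Ok (T1 cl A top) (κ top) X (C + C ^ 2) := by
    rw [hY]
    refine (h.mono hC).small (hc.ad.mono hC) ⟨st.ok, st.lv, st.inv_σ, st.inv_b, fun l ω => ?_,
      st.nσ, st.hK, st.hγ⟩ rfl rfl (fun ω a ha => by simp [cv, Sys.cav, hc.b0 a ha])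
      (sum_bh_le (hc.bb.trans (by linarith)) _)
    refine congrArg₂ (· + ·) (st.inv_G l ω) (congrArg₂ (· * ·) ?_ rfl)
    exact sum_congr rfl fun m _ => congrArg _ (hf_inv (c := 1) (c' := 1) (e := Fin.succ)
      (Or.inr fun a => (Fin.succ_ne_zero a).symm) m l ω)
  have h1 := I1_sum_sq_le hM (h4 _ _ _ _ Y _ _ ok) h.hA
  have h2 := fun V => bigpt h hc he he1 β b α V hY
  have h3 := fun V => abs_le.1 (cv_g0 (θ := θ) h β b α (a0 / 2) (Real.pi / 2) bh V)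
  rw [← hY] at h3
  have a1 := F_le_const fun V => sub_le_iff_le_add'.1 (h3 V).2
  have a2 := F_le_const fun V => neg_le_sub_iff_le_add.1 (h3 V).1
  have c1 := Y.cont_F0
  have c2 := (bg K cl κ top (Fin.cons b fun _ => β) γ).cont_F0
  have c3 := cont_emb1 N
  have c4 := Y.cch.Eh n Y.ρ 0 (f := fun U ω => ∑ a ∈ A, Y.t U ω a ^ 2) fun ω =>
    continuous_finsetSum _ fun a _ => (Sys.cont_t' ω a).fun_pow 2
  have a3 := int_mono (hr (Fin N)) (by fun_prop) (by fun_prop) fun V => (h2 V).1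
  obtain ⟨f, hf⟩ : ∃ f : OG (Fin N) → ℝ,
    f = fun U => Eh n (Y.Q U) Y.ρ 0 fun ω => ∑ a ∈ A, Y.t U ω a ^ 2 := ⟨_, rfl⟩
  simp only [← congrFun hf _] at h2
  rw [Sys.I1] at h1
  rw [← hf] at c4 h1
  have a4 := int_mono (hr (Fin N)) (by fun_prop) (by fun_prop) fun V => (h2 V).2
  rw [integral_add (intg _ (by fun_prop)) (integrable_const _),
    integral_mul_left_eq_self Y.F0 W] at a3
  rw [integral_mul_left_eq_self Y.F0 W, integral_add (intg _ (by fun_prop)) (intg _ (by fun_prop)),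
    integral_add (intg _ (by fun_prop)) (integrable_const _), integral_const_mul,
    integral_add (integrable_const _) (intg _ (by fun_prop)), integral_mul_left_eq_self f W] at a4
  simp only [integral_const, probReal_univ, smul_eq_mul, one_mul] at a3 a4
  have e0 : 0 ≤ e := by
    by_contra hn
    nlinarith [Real.sqrt_nonneg K, show (0 : ℝ) < (N + 1) ^ 3 by positivity]
  have g0 : 0 ≤ ∑ l, γ l ^ 2 := sum_nonneg fun _ _ => sq_nonneg _
  have a5 : (∑ l, γ l ^ 2) * ∫ x, f x ∂(hr (Fin N)) ≤ (∑ l, γ l ^ 2) * (C * M) :=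
    mul_le_mul_of_nonneg_left h1 g0
  have a6 : 0 ≤ C * M := by positivity
  rw [show Y.F = ∫ x, Y.F0 x ∂(hr (Fin N)) from rfl] at a1 a2
  rw [abs_of_nonneg C0, abs_le]
  constructor <;> linarith [mul_nonneg a6 e0, mul_nonneg a6 g0]

end Vale.Agent.P166
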