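import Vale.Agent.P166.StepB

/-!
# P166: all systems of the cavity step share one profile
-/

namespace Vale.Agent.P166

open MeasureTheory Finset Vale.Agent.P168 Vale.Agent.P168.PW Vale.Agent.P157 Function Filter Topology
open scoped BigOperators

set_option synthInstance.maxSize 4096

variable {n K N : ℕ} {𝒞 : Type} [DecidableEq 𝒞]
  {cl : Fin (N + 1) → 𝒞} {A : Finset (Fin N)} {κ : 𝒞 → ℝ} {top : 𝒞} {γ : Fin (n + 1) → ℝ}
  {X C : ℝ} {θ : Fin N → ℝ}

/-- The special rows represent the classes. -/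
def Rep (cl : Fin (N + 1) → 𝒞) (A : Finset (Fin N)) : Prop :=
  Bijective fun o : Option A => cl (o.elim 0 fun a => a.1.succ)

theorem cor_ex [Fintype 𝒞] (h : Dat K cl A κ top γ X C) (hA : Rep cl A) (U : OG (Fin (N + 1))) :
    ∃ W θ bh ξ, Cor cl A κ top C U W θ bh ξ (∑ j, om cl 0 U j * κ j) ∧ ∀ x : ℝ, 0 ≤ x →
      ∑ a, bh a ^ 2 * (x / (1 + (κ top - θ a) * x)) = psi (om cl 0 U) (fun j => κ top - κ j) x ∧
      ∑ a ∈ A, Real.log (1 + (κ top - θ a) * x) =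
        Real.log (uf (om cl 0 U) (fun j => κ top - κ j) x) +
          ∑ j, Real.log (1 + (κ top - κ j) * x) := by
  obtain ⟨W, θ, bh, ξ, h1, h2, h3, h4, h5, h6, h7⟩ :=
    corner cl A κ top (fun j => (h.hκ j).1) (fun j => (h.hκ j).2) hA U
  refine ⟨W, θ, bh, ξ, ⟨⟨fun a ha => (h1 a ha).1, h2⟩, fun a ha => (h1 a ha).2.1,
    fun a ha => (h1 a ha).2.2, h3, h4, ?_, h5, h6⟩, h7⟩
  have := om_pv cl 0 U
  refine (abs_sum_le_sum_abs _ _).trans ((sum_le_sum (g := fun j => om cl 0 U j * C)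
    fun j _ => ?_).trans_eq (by rw [← sum_mul, this.2, one_mul]))
  rw [abs_mul, abs_of_nonneg (this.1 j)]
  exact mul_le_mul_of_nonneg_left (h.hκ j).1 (this.1 j)

theorem big_near {Y : Sys n K (Oa n K (Fin (N + 1))) (Fin (N + 1))} {c : ℝ}
    {g : OG (Fin (N + 1)) → ℝ} (hg : Continuous g)
    (h : ∀ U, |∫ V, Y.F0 (U * emb1 V) ∂(hr (Fin N)) - c| ≤ g U) :
    |Y.F - c| ≤ ∫ U, g U ∂(hr (Fin (N + 1))) := by
  have c1 := Y.cont_F0
  have c2 := cont_emb1 N
  have c3 : Continuous fun U => ∫ V, Y.F0 (U * emb1 V) ∂(hr (Fin N)) :=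
    cont_int _ (f := fun U V => Y.F0 (U * emb1 V)) (by fun_prop)
  have e : Y.F - c = ∫ U, (∫ V, Y.F0 (U * emb1 V) ∂(hr (Fin N)) - c) ∂(hr (Fin (N + 1))) := by
    rw [integral_sub (intg _ c3) (integrable_const _), ← avg_right _ _ c2 c1]
    simp [Sys.F]
  rw [e]
  exact abs_integral_le_integral_abs.trans (int_mono _ (by fun_prop) hg h)

theorem close (X C : ℝ) : ∃ M : ℝ, 0 ≤ M ∧ ∀ (n K N : ℕ) (𝒞 : Type) [Fintype 𝒞] [DecidableEq 𝒞]
    (cl : Fin (N + 1) → 𝒞) (A : Finset (Fin N)) (κ : 𝒞 → ℝ) (top : 𝒞) (γ : Fin (n + 1) → ℝ)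
    (e : ℝ), Dat K cl A κ top γ X C → Rep cl A → ((N : ℝ) + 1) ^ 3 ≤ e * Real.sqrt K → e ≤ 1 / 4 →
    ∀ (β b' : Fin (n + 1) → ℝ) (θ : Fin N → ℝ), ∑ l, b' l ^ 2 ≤ 1 → Ad cl A κ top C θ →
      |(mv K cl A top θ β γ).F - (bg K cl κ top (Fin.cons b' fun _ => β) γ).F| ≤ M * Real.sqrt N ∧
      ∀ (b α : Fin (n + 1) → ℝ) (c φ : ℝ) (bh : Fin N → ℝ), ∑ l, b l ^ 2 ≤ 1 → ∑ l, α l ^ 2 ≤ C →
        |c| ≤ C → (∀ a ∉ A, bh a = 0) → ∑ a, bh a ^ 2 ≤ C ^ 2 →
        |(cv K cl A top θ β γ b c bh α φ).F - (bg K cl κ top (Fin.cons b' fun _ => β) γ).F| ≤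
          M * Real.sqrt N := by
  obtain ⟨M1, hM1, h1⟩ := crude X (C + C ^ 2)
  obtain ⟨M2, hM2, h2⟩ := bigcav X C
  refine ⟨3 * M1 + 2 * M2 + 4 * |C| + 2, by positivity,
    fun n K N 𝒞 _ _ cl A κ top γ e h hA he he1 β b' θ hb' hθ => ?_⟩
  have C0 := h.C0
  have hC : C ≤ C + C ^ 2 := le_add_of_nonneg_right (sq_nonneg _)
  have sN : 1 ≤ Real.sqrt N := Real.one_le_sqrt.2 (by exact_mod_cast h.hN)
  have ha : ∀ θ', Ad cl A κ top C θ' →
      |(mv K cl A top θ' β γ).F - (mv K cl A top θ β γ).F| ≤ M1 * Real.sqrt N := fun θ' hθ' => by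
    have := h1 n K _ _ (mv K cl A top θ β γ) _ _ θ' (fun _ _ => 0)
      ((h.mono hC).mv (hθ.mono hC) β) ((h.mono hC).mv (hθ'.mono hC) β) fun i hi => by
        rw [show (mv K cl A top θ β γ).S = T1 cl A top ∪ A from rfl, sdiff_T1] at hi
        exact (hθ'.1 i hi).trans (hθ.1 i hi).symm
    rwa [Fintype.card_fin] at this
  have hb : ∀ θ', Ad cl A κ top C θ' → ∀ (b α : Fin (n + 1) → ℝ) (c φ : ℝ) (bh : Fin N → ℝ),
      ∑ l, b l ^ 2 ≤ 1 → ∑ l, α l ^ 2 ≤ C → |c| ≤ C → (∀ a ∉ A, bh a = 0) →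
      ∑ a, bh a ^ 2 ≤ C ^ 2 → |(cv K cl A top θ' β γ b c bh α φ).F - (mv K cl A top θ' β γ).F| ≤
        M1 * Real.sqrt N + (2 * C + 1) := fun θ' hθ' b α c φ bh b1 b2 b3 b4 b5 => by
    have st := h.cv_st (θ := θ') β b α c φ bh
    have := h1 n K _ _ (cv K cl A top θ' β γ b c bh α φ) _ _ θ' (fun _ _ => 0)
      ((h.mono hC).cv (hθ'.mono hC) β b α c φ b4 (by linarith))
      ((h.mono hC).small (hθ'.mono hC) ⟨st.ok, st.lv, st.inv_σ, fun _ _ => rfl, st.inv_G,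
        st.nσ, st.hK, st.hγ⟩ rfl rfl (fun _ _ _ => rfl) fun _ => by simp; positivity)
      fun _ _ => rfl
    have e := cv_split (K := K) (cl := cl) (A := A) (top := top) (θ := θ') (γ := γ) β b α c φ bh
    rw [Fintype.card_fin] at this
    replace this := e ▸ this
    have p := ps_mem (I := Fin 1) h.hK (fun l => Real.cos φ * α l) b
    have q : ∑ l, (Real.cos φ * α l) ^ 2 ≤ C := (sum_le_sum fun l _ => by
      rw [mul_pow]; exact mul_le_of_le_one_left (sq_nonneg _) (Real.cos_sq_le_one φ)).trans b2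
    simp only [Fintype.card_fin, Nat.cast_one, one_mul] at p
    rw [abs_le] at this b3 ⊢
    constructor <;> linarith [p.1, p.2, this.1, this.2]
  have hc : |(bg K cl κ top (Fin.cons b' fun _ => β) γ).F - (mv K cl A top θ β γ).F| ≤
      2 * M1 * Real.sqrt N + (2 * M2 + 2 * C + 1) := by
    have := big_near (g := fun _ => 2 * M1 * Real.sqrt N + (2 * M2 + 2 * C + 1))
      (Y := bg K cl κ top (Fin.cons b' fun _ => β) γ) (c := (mv K cl A top θ β γ).F)
      continuous_const fun U => by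
      obtain ⟨W, θ', bh, ξ, hc, -⟩ := cor_ex h hA U
      have a1 := abs_le.1 (h2 n K N 𝒞 cl A κ top γ U W θ' bh ξ _ e h hc he he1 β b' 0)
      have a2 := abs_le.1 (hb θ' hc.ad b' 0 ((∑ j, om cl 0 U j * κ j) / 2) (Real.pi / 2) bh hb'
        (by simpa using C0) (by rw [abs_div, abs_two]; linarith [hc.aa]) hc.b0 hc.bb)
      have a3 := abs_le.1 (ha θ' hc.ad)
      have a4 := mul_le_mul_of_nonneg_left (show ∑ l, γ l ^ 2 + e ≤ 2 by linarith [h.hγ]) hM2
      rw [abs_le]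
      constructor <;> linarith
    simpa using this
  have a1 := mul_le_mul_of_nonneg_left sN (show 0 ≤ 2 * M2 + 4 * C + 2 by positivity)
  have a2 := mul_nonneg hM1 (zero_le_one.trans sN)
  rw [abs_of_nonneg C0]
  refine ⟨?_, fun b α c φ bh b1 b2 b3 b4 b5 => ?_⟩
  · rw [abs_sub_comm]; linarith
  · have := abs_le.1 (hb θ hθ b α c φ bh b1 b2 b3 b4 b5)
    rw [abs_le] at hc ⊢
    constructor <;> linarith

theorem bg_pert {I : Type} [Fintype I] [DecidableEq I] (cl : I → 𝒞) (B : I → Fin (n + 1) → ℝ)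
    (δ : Option (Fin (n + 1)) → ℝ) : (bg K cl κ top B γ).pert δ =
      bg K cl (ka κ top (δ none)) top B fun l => γ l + δ (some l) := by
  simp only [bg, Sys.pert, gen]
  congr 1
  funext i
  simp [ka, tp]

theorem sd_nonneg {Ω I : Type} [Fintype Ω] [Fintype I] [DecidableEq I] (Y : Sys n K Ω I) (s : ℝ) :
    0 ≤ sd (fun δ => (Y.pert δ).F) s := by
  refine sum_nonneg fun j _ => ?_
  have h : ∀ U, 2 * Y.F0 U ≤ (Y.pert (Pi.single j s)).F0 U + (Y.pert (Pi.single j (-s))).F0 U :=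
    fun U => by
      have a := Fr_cvx (n := n) (P := Y.P) (ρ := Y.ρ) (Y.En U) ((Y.pert (Pi.single j s)).En U)
      have b := Fr_cvx (n := n) (P := Y.P) (ρ := Y.ρ) (Y.En U) ((Y.pert (Pi.single j (-s))).En U)
      have e : (fun ω => (Y.pert (Pi.single j (-s))).En U ω - Y.En U ω) =
          fun ω => -((Y.pert (Pi.single j s)).En U ω - Y.En U ω) := funext fun ω => by
        simp only [Sys.En_pert, Pi.single_neg, Pi.neg_apply, neg_mul, sum_neg_distrib]
        ring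
      rw [e, Eh_neg] at b
      change Y.F0 U + _ ≤ (Y.pert (Pi.single j s)).F0 U at a
      change Y.F0 U + _ ≤ (Y.pert (Pi.single j (-s))).F0 U at b
      linarith
  have c0 := Y.cont_F0
  have c1 := (Y.pert (Pi.single j s)).cont_F0
  have c2 := (Y.pert (Pi.single j (-s))).cont_F0
  have := int_mono (hr I) (by fun_prop) (by fun_prop) h
  rw [integral_add (intg _ c1) (intg _ c2), integral_const_mul] at this
  simp only [Sys.pert_zero]
  exact sub_nonneg.2 this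

/-- The data of a cavity step with room for perturbations. -/
structure Dat2 (K : ℕ) (cl : Fin (N + 1) → 𝒞) (A : Finset (Fin N)) (κ : 𝒞 → ℝ) (top : 𝒞)
    (γ : Fin (n + 1) → ℝ) (X C η s e : ℝ) : Prop extends Dat K cl A κ top γ X C where
  rep : Rep cl A
  gap : ∀ j, j ≠ top → κ j + s ≤ κ top
  s0 : 0 < s
  s1 : s ≤ 1
  η0 : 0 < η
  η1 : η ≤ 1
  hη : ∀ l, η ≤ γ l
  hγ' : ∀ (j : Option (Fin (n + 1))) (a : ℝ), |a| ≤ s →
    ∑ l, (γ l + (Pi.single j a : Option (Fin (n + 1)) → ℝ) (some l)) ^ 2 ≤ 1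
  he : ((N : ℝ) + 1) ^ 3 ≤ e * Real.sqrt K
  he1 : e ≤ 1 / 64
  one : (A.card : ℝ) + 1 ≤ e * (tp cl top).card

variable {η s e : ℝ}

theorem abs_single_le (j : Option (Fin (n + 1))) {a : ℝ} (h : |a| ≤ s) :
    |(Pi.single j a : Option (Fin (n + 1)) → ℝ) none| ≤ s := by
  rw [Pi.single_apply]
  split_ifs
  · exact h
  · simpa using (abs_nonneg _).trans h

theorem Dat2.pert (h : Dat2 K cl A κ top γ X C η s e) (j : Option (Fin (n + 1))) {a x : ℝ}
    (ha : |a| ≤ s) (hx : |x| ≤ s) : Dat K cl A (ka κ top x) top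
      (fun l => γ l + (Pi.single j a : Option (Fin (n + 1)) → ℝ) (some l)) X (C + 1) := by
  refine ⟨h.hK, h.hN, h.hγ' j a ha, fun i => ?_, by linarith [h.hA], h.hX0, h.hX⟩
  have := h.hκ i
  have := h.s1
  simp only [ka, if_true]
  split_ifs with hi
  · exact ⟨(abs_add_le _ _).trans (by linarith), by rw [hi]⟩
  · rw [add_zero]
    exact ⟨by linarith, by linarith [h.gap i hi, (abs_le.1 hx).1]⟩

theorem Dat2.ad (h : Dat2 K cl A κ top γ X C η s e) (hθ : Ad cl A κ top C θ) {x : ℝ}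
    (hx : |x| ≤ s) : Ad cl A (ka κ top x) top (C + 1)
      fun a => θ a + if a ∈ T1 cl A top ∪ A then x else 0 := by
  refine ⟨fun a ha => by simp [ka, T1, ha, hθ.1 a ha], fun a => ?_⟩
  have := hθ.2 a
  have := h.s1
  simp only [ka, if_true]
  split_ifs with ha
  · exact ⟨(abs_add_le _ _).trans (by linarith), by linarith⟩
  · simp only [T1, mem_union, mem_filter, mem_univ, true_and, not_or, not_and, not_not] at ha
    have := h.gap _ fun h' => ha.2 (ha.1 h')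
    rw [add_zero]
    exact ⟨by linarith, by linarith [hθ.1 a ha.2, (abs_le.1 hx).1]⟩

theorem Dat.card_le (h : Dat K cl A κ top γ X C) (j : 𝒞) :
    (N : ℝ) + 1 ≤ X * (tp cl j).card ∧ (1 : ℝ) ≤ (tp cl j).card := by
  have := h.hX j
  have a := Nat.cast_nonneg (α := ℝ) A.card
  have b := Nat.cast_nonneg (α := ℝ) N
  have c := h.hX0
  refine ⟨this.trans (mul_le_mul_of_nonneg_left (by linarith) c), ?_⟩
  by_contra hn
  nlinarith

theorem Dat2.nz1 (h : Dat2 K cl A κ top γ X C η s e) :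
    Sys.Nz K (Fin N) (T1 cl A top) X (tp cl top).card e := by
  obtain ⟨a, b⟩ := h.toDat.card_le top
  have c := card_T1 cl A top
  have c1 : ((T1 cl A top).card : ℝ) ≤ (tp cl top).card := by exact_mod_cast c.1
  have c2 : ((tp cl top).card : ℝ) ≤ (T1 cl A top).card + A.card + 1 := by exact_mod_cast c.2
  have d := Nat.cast_nonneg (α := ℝ) A.card
  refine ⟨by linarith, by simp; linarith, abs_le.2 ⟨by linarith [h.one], by linarith [h.one]⟩,
    by linarith [h.one], le_trans ?_ h.he⟩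
  rw [Fintype.card_fin]
  gcongr
  linarith

theorem Dat2.nz (h : Dat2 K cl A κ top γ X C η s e) :
    Sys.Nz K (Fin (N + 1)) (tp cl top) X (tp cl top).card e := by
  obtain ⟨a, b⟩ := h.toDat.card_le top
  have d := Nat.cast_nonneg (α := ℝ) A.card
  exact ⟨by linarith, by simpa using a, by simp; linarith [h.one], by linarith [h.one],
    by simpa using h.he⟩

theorem cons_self (β : Fin (n + 1) → ℝ) :
    (Fin.cons β fun _ => β : Fin (N + 1) → Fin (n + 1) → ℝ) = fun _ => β :=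
  funext fun i => Fin.cases rfl (fun _ => rfl) i

theorem dvs (X C θ0 : ℝ) (hθ0 : 0 < θ0) : ∃ n0 : ℕ, ∀ n, n0 ≤ n → ∃ M : ℝ, 0 ≤ M ∧
    ∀ (K N : ℕ) (𝒞 : Type) [Fintype 𝒞] [DecidableEq 𝒞] (cl : Fin (N + 1) → 𝒞)
      (A : Finset (Fin N)) (κ : 𝒞 → ℝ) (top : 𝒞) (γ β : Fin (n + 1) → ℝ) (η s e Δ : ℝ)
      (r : ℕ → ℝ), Dat2 K cl A κ top γ X C η s e → ∑ l, β l ^ 2 ≤ 1 →
      r = (bg K cl κ top (fun _ => β) γ).prf (tp cl top).card →
      θ0 + M * ((sd (fun δ => ((bg K cl κ top (fun _ => β) γ).pert δ).F) s + Real.sqrt N) /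
        (s * η * (tp cl top).card) + e) ≤ Δ →
      (bg K cl κ top (fun _ => β) γ).dv (tp cl top).card r ≤ Δ ∧ ∀ θ, Ad cl A κ top C θ →
        (mv K cl A top θ β γ).dv (tp cl top).card r ≤ Δ ∧
        ∀ (b α : Fin (n + 1) → ℝ) (c φ : ℝ) (bh : Fin N → ℝ), ∑ l, b l ^ 2 ≤ 1 →
          ∑ l, α l ^ 2 ≤ C → |c| ≤ C → (∀ a ∉ A, bh a = 0) → ∑ a, bh a ^ 2 ≤ C ^ 2 →
          (cv K cl A top θ β γ b c bh α φ).dv (tp cl top).card r ≤ Δ := by
  obtain ⟨M1, hM1, h1⟩ := close X (C + 1)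
  obtain ⟨M2, hM2, h2⟩ := hc X (C + 1 + (C + 1) ^ 2)
  obtain ⟨n0, h3⟩ := near X θ0 hθ0
  refine ⟨n0, fun n hn => ?_⟩
  obtain ⟨M3, hM3, h3⟩ := h3 n hn
  refine ⟨M3 * (5 * (n + 2) * (2 * M2 + M1) + 1), by positivity,
    fun K N 𝒞 _ _ cl A κ top γ β η s e Δ r h hβ hr hΔ => ?_⟩
  have C0 := h.toDat.C0
  have hC : C + 1 ≤ C + 1 + (C + 1) ^ 2 := le_add_of_nonneg_right (sq_nonneg _)
  have N1 : (1 : ℝ) ≤ N := by exact_mod_cast h.hN
  have sN : 1 ≤ Real.sqrt N := Real.one_le_sqrt.2 N1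
  have k1 : 64 * ((N : ℝ) + 1) ^ 3 ≤ Real.sqrt K := by
    nlinarith [h.he, h.he1, Real.sqrt_nonneg K]
  have k2 : 64 * (N : ℝ) ^ 3 ≤ Real.sqrt K := le_trans (by gcongr; linarith) k1
  have s2 : Real.sqrt (N + 1) ≤ 2 * Real.sqrt N := Real.sqrt_le_iff.2 ⟨by positivity, by
    rw [mul_pow, Real.sq_sqrt (by positivity)]; linarith⟩
  obtain ⟨Z, hZ⟩ : ∃ Z, Z = bg K cl κ top (fun _ => β) γ := ⟨_, rfl⟩
  have pZ : ∀ δ, Z.pert δ = bg K cl (ka κ top (δ none)) top (Fin.cons β fun _ => β)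
      fun l => γ l + δ (some l) := fun δ => by rw [hZ, bg_pert, cons_self]
  have fZ : ∀ j a, |a| ≤ s → (Z.pert (Pi.single j a)).fl (Z.pert (Pi.single j a)).F ≤
      (2 * M2 + M1) * Real.sqrt N := fun j a ha => by
    rw [pZ]
    refine (fl_le rfl rfl _).trans ?_
    have := h2 n K _ _ _ _ _ (((h.pert j ha (abs_single_le j ha)).mono hC).big (Fin.cons β fun _ => β))
      (by simpa using k1)
    simp only [Fintype.card_fin, Nat.cast_add, Nat.cast_one] at this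
    rw [sub_self, abs_zero]
    nlinarith [mul_le_mul_of_nonneg_left s2 hM2]
  have key : ∀ (I' I : Type) [Fintype I'] [DecidableEq I'] [Fintype I] [DecidableEq I]
      (Y : Sys n K (Oa n K I') I), Y.St → Y.γ = γ → Fintype.card I ≤ N + 1 → 0 < Fintype.card I →
      (∀ j a, |a| ≤ s → (Y.pert (Pi.single j a)).fl (Z.pert (Pi.single j a)).F ≤
        (2 * M2 + M1) * Real.sqrt N) → Y.dv (tp cl top).card r ≤ Δ :=
    fun I' I _ _ _ _ Y st hγ hI hI0 hf => by
      have hI' : (Fintype.card I : ℝ) ≤ N + 1 := by exact_mod_cast hI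
      obtain ⟨a, b⟩ := h.toDat.card_le top
      have := h3 K _ _ _ _ Y Z (tp cl top).card η s _ e (fun δ => (Z.pert δ).F) st
        (hZ ▸ bg_st _ h.hK h.hγ) (hZ ▸ hγ) b (hI'.trans a) (by simpa using a) hI0 (by simp) h.η0
        h.η1 (hγ ▸ h.hη) h.s0 (le_trans (by gcongr) h.he) (by simpa using h.he)
        (by linarith [h.he1]) fun j a ha => ⟨hf j a ha, fZ j a ha⟩
      rw [hr, ← hZ]
      refine this.trans (le_trans (add_le_add le_rfl ?_) (hZ ▸ hΔ))
      have e0 : 0 ≤ e := by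
        by_contra hn
        nlinarith [h.one, Nat.cast_nonneg (α := ℝ) A.card]
      have d0 := sd_nonneg Z s
      have p0 : 0 < s * η * (tp cl top).card := by have := h.s0; have := h.η0; positivity
      have q0 : 0 ≤ 5 * (n + 2 : ℝ) * (2 * M2 + M1) := by positivity
      rw [mul_assoc M3, mul_add (_ + 1) _ e, mul_div_assoc', mul_comm s η, mul_comm η s]
      refine mul_le_mul_of_nonneg_left (add_le_add (div_le_div_of_nonneg_right ?_ p0.le) ?_) hM3
      · nlinarith [mul_nonneg q0 d0]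
      · nlinarith [mul_nonneg q0 e0]
  refine ⟨key _ _ _ (bg_st _ h.hK h.hγ) rfl (by simp) (by simp) (hZ ▸ fZ), fun θ hθ => ⟨?_,
    fun b α c φ bh b1 b2 b3 b4 b5 => ?_⟩⟩
  · refine key _ _ _ (h.toDat.mv hθ β).toSt rfl (by simp) (by simpa using h.hN) fun j a ha => ?_
    have d := h.pert j ha (abs_single_le j ha)
    have ad := h.ad hθ (abs_single_le j ha)
    have a1 := h2 n K _ _ _ _ _ ((d.mono hC).mv (ad.mono hC) β) (by simpa using k2)
    have a2 := (h1 n K N 𝒞 cl A _ top _ e d h.rep h.he (by linarith [h.he1]) β β _ hβ ad).1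
    rw [← pZ] at a2
    rw [Fintype.card_fin] at a1
    refine (fl_le rfl rfl _).trans ((add_le_add a1 a2).trans ?_)
    nlinarith
  · refine key _ _ _ (h.toDat.cv_st β b α c φ bh) rfl (by simp) (by simpa using h.hN)
      fun j a ha => ?_
    have d := h.pert j ha (abs_single_le j ha)
    have ad := h.ad hθ (abs_single_le j ha)
    have a1 := h2 n K _ _ _ _ _ ((d.mono hC).cv (ad.mono hC) β b α c φ b4 (by nlinarith))
      (by simpa using k2)
    have a2 := (h1 n K N 𝒞 cl A _ top _ e d h.rep h.he (by linarith [h.he1]) β β _ hβ ad).2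
      b α c φ bh b1 (by linarith) (by linarith) b4 (by nlinarith)
    rw [← pZ] at a2
    rw [Fintype.card_fin] at a1
    refine (fl_le rfl rfl _).trans ((add_le_add a1 a2).trans ?_)
    nlinarith

end Vale.Agent.P166
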