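import Vale.Agent.P166.StepC
import Vale.Agent.P166.Fn
import Vale.Agent.P166.Greedy

/-!
# P166: the two-sided cavity formula
-/

namespace Vale.Agent.P166

open MeasureTheory Finset Vale.Agent.P168 Vale.Agent.P168.PW Vale.Agent.P157 Function Filter Topology
open scoped BigOperators

set_option synthInstance.maxSize 4096

variable {n K N : ℕ} {𝒞 : Type} [DecidableEq 𝒞]
  {cl : Fin (N + 1) → 𝒞} {A : Finset (Fin N)} {κ : 𝒞 → ℝ} {top : 𝒞} {γ : Fin (n + 1) → ℝ}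
  {X C : ℝ} {θ : Fin N → ℝ}

omit [DecidableEq 𝒞] in
theorem rm_off (o : Option A) {a : Fin N} (ha : a ∉ A) :
    rm cl (o.elim 0 fun a => a.1.succ) a = cl a.succ := by
  rw [rm, Equiv.swap_apply_of_ne_of_ne (Fin.succ_ne_zero a)]
  rcases o with _ | o
  · exact Fin.succ_ne_zero a
  · exact fun h => ha (Fin.succ_injective N h ▸ o.2)

omit [DecidableEq 𝒞] in
theorem rm_sum [Fintype 𝒞] (hA : Rep cl A) (o : Option A) (g : 𝒞 → ℝ) :
    ∑ a ∈ A, g (rm cl (o.elim 0 fun a => a.1.succ) a) + g (cl (o.elim 0 fun a => a.1.succ)) =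
      ∑ j, g j := by
  rw [← hA.sum_comp g, Fintype.sum_option, ← sum_coe_sort A]
  rcases o with _ | o
  · simp [rm, add_comm]
  · rw [← add_sum_erase _ _ (mem_univ o), ← add_sum_erase _ (fun a : A => g (cl _)) (mem_univ o),
      sum_congr rfl (g := fun a : A => g (cl a.1.succ)) fun a ha => by
        rw [rm, Option.elim_some, Equiv.swap_apply_of_ne_of_ne (Fin.succ_ne_zero _) fun h =>
          ne_of_mem_erase ha (Subtype.ext (Fin.succ_injective N h))]]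
    simp only [rm, Option.elim, Equiv.swap_apply_right]
    ring

omit [DecidableEq 𝒞] in
theorem Rep.card [Fintype 𝒞] (hA : Rep cl A) : Fintype.card 𝒞 = A.card + 1 := by
  rw [← Fintype.card_of_bijective hA, Fintype.card_option, Fintype.card_coe]

theorem bg_cnt [Fintype 𝒞] {i i' : Fin (N + 1)} (h : cl i = cl i') (β : Fin (n + 1) → ℝ) :
    (bg K (rm cl i) κ top (fun _ => β) γ).F = (bg K (rm cl i') κ top (fun _ => β) γ).F := by
  have := sy_cnt (K := K) (cl := rm cl i) (cl' := rm cl i') (fun j => by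
    have a := cntG_rm cl i j
    rw [h, ← cntG_rm] at a
    simpa [cntG, tp] using a) κ top (fun _ => β) fun o => o.elim 0 γ
  simpa [sy_eq_bg, show ka κ top 0 = κ from funext fun j => by simp [ka]] using this

theorem Dat.ad_rm (h : Dat K cl A κ top γ X C) (o : Option A) :
    Ad cl A κ top C fun a => κ (rm cl (o.elim 0 fun a => a.1.succ) a) :=
  ⟨fun _ ha => congrArg κ (rm_off o ha), fun _ => h.hκ _⟩

theorem mv_rm (X C : ℝ) : ∃ M : ℝ, 0 ≤ M ∧ ∀ (n K N : ℕ) (𝒞 : Type) [DecidableEq 𝒞]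
    (cl : Fin (N + 1) → 𝒞) (A : Finset (Fin N)) (κ : 𝒞 → ℝ) (top : 𝒞) (γ β : Fin (n + 1) → ℝ)
    (e : ℝ) (o : Option A), Dat K cl A κ top γ X C → ((N : ℝ) + 1) ^ 3 ≤ e * Real.sqrt K →
    e ≤ 1 / 4 → |(mv K cl A top (fun a => κ (rm cl (o.elim 0 fun a => a.1.succ) a)) β γ).F -
      (bg K (rm cl (o.elim 0 fun a => a.1.succ)) κ top (fun _ => β) γ).F| ≤
      M * (∑ l, γ l ^ 2 + e) := by
  obtain ⟨M, hM, h4⟩ := m4 X C
  refine ⟨2 * |C| * M + 800, by positivity, fun n K N 𝒞 _ cl A κ top γ β e o h he he1 => ?_⟩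
  have C0 := h.C0
  have ok := h.mv (h.ad_rm o) β
  have hS : tp (rm cl (o.elim 0 fun a => a.1.succ)) top ⊆ T1 cl A top ∪ A := fun a ha => by
    by_cases hA : a ∈ A
    · exact mem_union_right _ hA
    · have := (mem_filter.1 ha).2
      rw [rm_off o hA] at this
      exact mem_union_left _ (mem_filter.2 ⟨mem_univ _, this, hA⟩)
  have he' : (Fintype.card (Fin N) : ℝ) ^ 3 ≤ e * Real.sqrt K := by
    refine le_trans ?_ he
    rw [Fintype.card_fin]
    gcongr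
    linarith
  have h1 := chgS (bg_st (cl := rm cl (o.elim 0 fun a => a.1.succ)) (κ := κ) (top := top)
    (fun _ => β) h.hK h.hγ) hS (by simpa using h.hN) he' he1
  have h2 := I1_sum_sq_le hM (h4 _ _ _ _ _ _ _ ok)
    (A := (T1 cl A top ∪ A) \ tp (rm cl (o.elim 0 fun a => a.1.succ)) top) (C := C)
    (le_trans (by
      refine Nat.cast_le.2 (card_le_card fun a ha => ?_)
      by_contra hA
      rw [Finset.mem_sdiff, mem_union] at ha
      exact ha.2 (mem_filter.2 ⟨mem_univ _, by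
        rw [rm_off o hA]; exact (mem_filter.1 (ha.1.resolve_right hA)).2.1⟩)) h.hA)
  generalize hY : mv K cl A top (fun a => κ (rm cl (o.elim 0 fun a => a.1.succ) a)) β γ = Y at *
  have a1 := F_le_const (Y' := Y) (c := 800 * e)
    (Y := bg K (rm cl (o.elim 0 fun a => a.1.succ)) κ top (fun _ => β) γ)
    fun U => by subst hY; exact (h1 U).1
  have c1 := Y.cch.Eh n Y.ρ 0 (f := fun U ω => ∑ i ∈ (T1 cl A top ∪ A) \
    tp (rm cl (o.elim 0 fun a => a.1.succ)) top, Y.t U ω i ^ 2) fun ω =>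
      continuous_finsetSum _ fun a _ => (Sys.cont_t' ω a).fun_pow 2
  have a2 := F_le_of (Y := Y) (Y' := bg K (rm cl (o.elim 0 fun a => a.1.succ)) κ top (fun _ => β) γ)
    (g := fun U => 2 * (∑ l, γ l ^ 2) * Eh n (Y.Q U) Y.ρ 0 (fun ω => ∑ i ∈ (T1 cl A top ∪ A) \
      tp (rm cl (o.elim 0 fun a => a.1.succ)) top, Y.t U ω i ^ 2) + 800 * e) (by fun_prop)
    fun U => by subst hY; exact (h1 U).2.trans_eq (add_assoc _ _ _)
  rw [integral_add (intg _ (by fun_prop)) (integrable_const _), integral_const_mul] at a2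
  simp only [integral_const, probReal_univ, smul_eq_mul, one_mul] at a2
  have e0 : 0 ≤ e := by
    by_contra hn
    nlinarith [Real.sqrt_nonneg K, show (0 : ℝ) < (N + 1) ^ 3 by positivity]
  have g0 : 0 ≤ ∑ l, γ l ^ 2 := sum_nonneg fun _ _ => sq_nonneg _
  have a5 := mul_le_mul_of_nonneg_left h2 g0
  have a6 : 0 ≤ C * M := by positivity
  rw [Sys.I1] at a5
  rw [abs_of_nonneg C0, abs_le]
  constructor <;> linarith [mul_nonneg a6 e0, mul_nonneg a6 g0]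

theorem s2_ok : (s2 n K N).Ok (Pa n K _) (ρa n K _) := (ok_famU _ _).comap fun a b h => by
  simp only [Prod.mk.injEq, true_and] at h
  exact Prod.ext h.1 h.2

theorem sum_al {q : ℕ → ℝ} (hq : Mono n q) (h : q (n + 1) = 0) :
    ∑ l : Fin (n + 1), Real.sqrt (vr n q l) ^ 2 = q 0 := by
  rw [← sum_vr (n := n) q, sum_range_succ, ← Fin.sum_univ_eq_sum_range (vr n q)]
  simp only [vr, if_neg (Nat.not_succ_le_self n), h, add_zero]
  exact sum_congr rfl fun l _ => Real.sq_sqrt (vr_nonneg hq l.2.le)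

theorem Dat.gap (h : Dat K cl A κ top γ X C) (j : 𝒞) :
    0 ≤ κ top - κ j ∧ κ top - κ j ≤ 2 * C := by
  constructor <;> linarith [h.hκ j, abs_le.1 (h.hκ j).1, abs_le.1 (h.hκ top).1]

omit [DecidableEq 𝒞] in
theorem Ad.mix {θ' : Fin N → ℝ} (h : Ad cl A κ top C θ) (h' : Ad cl A κ top C θ') {t : ℝ}
    (t0 : 0 ≤ t) (t1 : t ≤ 1) : Ad cl A κ top C fun a => θ a + t * (θ' a - θ a) :=
  ⟨fun a ha => by simp only [h.1 a ha, h'.1 a ha]; ring, fun a => by
    have u1 := h.2 a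
    have u2 := h'.2 a
    rw [abs_le] at u1 u2 ⊢
    refine ⟨⟨?_, ?_⟩, ?_⟩ <;> nlinarith⟩

theorem mvpt (X C θ0 : ℝ) (hθ0 : 0 < θ0) : ∃ M : ℝ, 0 ≤ M ∧
    ∀ (n K N : ℕ) (𝒞 : Type) [Fintype 𝒞] [DecidableEq 𝒞] (cl : Fin (N + 1) → 𝒞)
      (A : Finset (Fin N)) (κ : 𝒞 → ℝ) (top : 𝒞) (γ β : Fin (n + 1) → ℝ) (η s e Δ : ℝ)
      (r : ℕ → ℝ) (θ : Fin N → ℝ) (u : ℝ → ℝ) (o : Option A), Dat2 K cl A κ top γ X C η s e →
      Pr n X r → (∀ θ, Ad cl A κ top C θ → (mv K cl A top θ β γ).dv (tp cl top).card r ≤ Δ) →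
      Ad cl A κ top C θ → (∀ x, 0 ≤ x → ∑ a ∈ A, Real.log (1 + (κ top - θ a) * x) =
        u x + ∑ j, Real.log (1 + (κ top - κ j) * x)) →
      |(mv K cl A top (fun a => κ (rm cl (o.elim 0 fun a => a.1.succ) a)) β γ).F -
        (mv K cl A top θ β γ).F - (fc n u r 0 + fc n (fun x =>
          Real.log (1 + (κ top - κ (cl (o.elim 0 fun a => a.1.succ))) * x)) r 0) / 2| ≤
        θ0 + M * (Δ + e) := by
  obtain ⟨M, hM, h3⟩ := move X C θ0 hθ0
  refine ⟨M, hM, fun n K N 𝒞 _ _ cl A κ top γ β η s e Δ r θ u o h hr hdv hθ hx => ?_⟩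
  have ad := h.toDat.ad_rm o
  have b4 := h3 n K _ _ (mv K cl A top θ β γ) (T1 cl A top) (κ top) _ e Δ r
    (fun a => κ (rm cl (o.elim 0 fun a => a.1.succ) a)) (h.toDat.mv hθ β) (h.toDat.mv ad β)
    h.nz1 hr (fun _ _ => rfl) (fun a ha => by
      rw [show (mv K cl A top θ β γ).S = T1 cl A top ∪ A from rfl, sdiff_T1] at ha
      exact (ad.1 a ha).trans (hθ.1 a ha).symm) fun t t0 t1 => hdv _ (hθ.mix ad t0 t1)
  rw [show (mv K cl A top θ β γ).S = T1 cl A top ∪ A from rfl, sdiff_T1,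
    fc_congr hr (g := fun x => -1 * (u x +
      Real.log (1 + (κ top - κ (cl (o.elim 0 fun a => a.1.succ))) * x))) (fun x x0 _ => by
      have u1 := hx x x0
      have u2 := rm_sum h.rep o fun j => Real.log (1 + (κ top - κ j) * x)
      rw [sum_sub_distrib]
      change _ - ∑ a ∈ A, Real.log (1 + (κ top - θ a) * x) = _
      linarith), fc_const_mul, fc_add, neg_one_mul, neg_div, ← sub_eq_add_neg] at b4
  exact b4

theorem cvpt (X C C' θ0 : ℝ) (hθ0 : 0 < θ0) : ∃ M : ℝ, 0 ≤ M ∧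
    ∀ (n K N : ℕ) (𝒞 : Type) [DecidableEq 𝒞] (cl : Fin (N + 1) → 𝒞)
      (A : Finset (Fin N)) (κ : 𝒞 → ℝ) (top : 𝒞) (γ β b : Fin (n + 1) → ℝ) (η s e Δ D c : ℝ)
      (r q : ℕ → ℝ) (θ bh : Fin N → ℝ), Dat2 K cl A κ top γ X C η s e → Pr n X r →
      1 + C + C ^ 2 ≤ C' → C' * e ≤ 1 / 2 → Pr n C' q → Ad cl A κ top C θ → (∀ a ∉ A, bh a = 0) →
      ∑ a, bh a ^ 2 ≤ C ^ 2 →
      (∀ j, j ≤ n + 1 → |q j - ∑ a, bh a ^ 2 * zc n (κ top - θ a) r j| ≤ D) →
      (∀ φ, (cv K cl A top θ β γ b c bh (fun l => Real.sqrt (vr n q l)) φ).dv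
        (tp cl top).card r ≤ Δ) →
      |(cv K cl A top θ β γ b c bh (fun l => Real.sqrt (vr n q l)) (Real.pi / 2)).F -
        ((mv K cl A top θ β γ).F + c + ps K (Fin 1) (fun l => Real.sqrt (vr n q l)) b)| ≤
        θ0 + M * (Δ + e + D) := by
  obtain ⟨M, hM, h2⟩ := cavi X C' θ0 hθ0
  refine ⟨M, hM, fun n K N 𝒞 _ cl A κ top γ β b η s e Δ D c r q θ bh h hr hC' hCe hq hθ b0 bb hD
    hdv => ?_⟩
  have C0 := h.toDat.C0
  have hC : C ≤ C' := by nlinarith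
  rw [← cv_zero β b _ c bh]
  exact h2 n K _ _ (gen Fin.succ θ (T1 cl A top ∪ A) (fun ω =>
      Gx (Fin.cons b fun _ => β) ω + c) γ) (T1 cl A top) (κ top) _ e Δ
    D r q ep bh (s2 n K N) (fun l => Real.sqrt (vr n q l))
    (fun φ => (h.toDat.mono hC).cv (hθ.mono hC) β b _ _ φ b0 (by linarith))
    h.nz1 hr hq (by nlinarith) hCe (fun ω => by rw [ep, sq, sp_sq])
    (fun a ha => b0 a (by rwa [show (gen Fin.succ θ (T1 cl A top ∪ A) _ γ).S =
      T1 cl A top ∪ A from rfl, sdiff_T1] at ha)) (by linarith) s2_ok (fun _ _ => rfl)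
    (fun _ _ => rfl) (fun l ω => congrArg (· + _)
      (Gx_inv (c := 2) (by simp) (fun _ : Fin 1 => 0) _ (l.1, 0, l.2) ω)) (fun _ _ => rfl)
    (fun m l ω => fam_π_snd 2 (fun _ : Fin 1 => 0) (l.1, 0, l.2) ω
      (m := (1, m.1, m.2.1.succ, m.2.2)) (Or.inl (by simp)))
    (fun l => by rw [Real.sq_sqrt (vr_nonneg hq.mono l.2.le), vr, if_pos (Nat.lt_succ_iff.1 l.2)])
    hD hdv

theorem star (X C C' θ0 : ℝ) (hθ0 : 0 < θ0) : ∃ M : ℝ, 0 ≤ M ∧
    ∀ (n K N : ℕ) (𝒞 : Type) [Fintype 𝒞] [DecidableEq 𝒞] (cl : Fin (N + 1) → 𝒞)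
      (A : Finset (Fin N)) (κ : 𝒞 → ℝ) (top : 𝒞) (γ β : Fin (n + 1) → ℝ) (η s e Δ : ℝ)
      (r q : ℕ → ℝ), Dat2 K cl A κ top γ X C η s e → Pr n X r → 1 + C + C ^ 2 ≤ C' →
      C' * e ≤ 1 / 2 → q = fc n (psi (fq cl) fun j => κ top - κ j) r → q 0 ≤ C' →
      (∀ θ, Ad cl A κ top C θ → (mv K cl A top θ β γ).dv (tp cl top).card r ≤ Δ ∧
        ∀ (b : Fin (n + 1) → ℝ) (c φ : ℝ) (bh : Fin N → ℝ), ∑ l, b l ^ 2 ≤ 1 → |c| ≤ C →
          (∀ a ∉ A, bh a = 0) → ∑ a, bh a ^ 2 ≤ C ^ 2 →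
          (cv K cl A top θ β γ b c bh (fun l => Real.sqrt (vr n q l)) φ).dv
            (tp cl top).card r ≤ Δ) →
      ∀ (i : Fin (N + 1)) (b : Fin (n + 1) → ℝ), ∑ l, b l ^ 2 ≤ 1 →
        |(bg K cl κ top (Fin.cons b fun _ => β) γ).F -
          ((bg K (rm cl i) κ top (fun _ => β) γ).F - fc n (fun x =>
            Real.log (uf (fq cl) (fun j => κ top - κ j) x) +
              Real.log (1 + (κ top - κ (cl i)) * x)) r 0 / 2 + (∑ j, fq cl j * κ j) / 2 +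
            ps K (Fin 1) (fun l => Real.sqrt (vr n q l)) b)| ≤
          θ0 + M * (Δ + e + ∑ l, γ l ^ 2 + 1 / Real.sqrt N) := by
  obtain ⟨M1, hM1, h1⟩ := bigcav X C
  obtain ⟨M2, hM2, h2⟩ := cvpt X C C' (θ0 / 2) (by positivity)
  obtain ⟨M3, hM3, h3⟩ := mvpt X C (θ0 / 2) (by positivity)
  obtain ⟨M4, hM4, h4⟩ := mv_rm X C
  obtain ⟨L, hL, h5⟩ := fn_lip (2 * C) X
  obtain ⟨M5, hM5⟩ : ∃ M5, M5 = M2 * (L * |X|) + L * |X| + |C| := ⟨_, rfl⟩
  have M50 : 0 ≤ M5 := by rw [hM5]; positivity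
  refine ⟨M1 + M2 + M3 + M4 + M5 * (3 * (|C| + 1)), by positivity,
    fun n K N 𝒞 _ _ cl A κ top γ β η s e Δ r q h hr hC' hCe hq hq0 hdv i b hb => ?_⟩
  have C0 := h.toDat.C0
  have X0 := h.hX0
  rw [abs_of_nonneg C0, abs_of_nonneg X0] at hM5
  have he1 : e ≤ 1 / 4 := by linarith [h.he1]
  obtain ⟨o, ho⟩ := h.rep.2 (cl i)
  dsimp only at ho
  rw [bg_cnt ho.symm, ← ho]
  have hc := h.toDat.gap
  have pa := fq_pv (Nat.succ_pos N) cl
  have qm : Pr n C' q := ⟨hq ▸ fc_mono hr fun x y hx hxy _ =>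
    psi_mono pa (fun j => (hc j).1) hx hxy, hq ▸ fc_top _ _, hq0⟩
  have D0 : 0 ≤ Δ := (Sys.dv_nonneg _ _).trans (hdv _ (h.toDat.ad_rm o)).1
  have e0 : 0 ≤ e := by
    by_contra hn
    nlinarith [h.one, Nat.cast_nonneg (α := ℝ) A.card, Nat.cast_nonneg (α := ℝ) (tp cl top).card]
  have g0 : 0 ≤ ∑ l, γ l ^ 2 := sum_nonneg fun _ _ => sq_nonneg _
  have co : ∀ j, Continuous fun U => |om cl 0 U j - fq cl j| := fun j =>
    ((continuous_finsetSum _ fun i _ =>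
      (Sys.cont_entry id continuous_id i 0).fun_pow 2).sub continuous_const).abs
  have a0 := abs_le.1 (h4 n K N 𝒞 cl A κ top γ β e o h.toDat h.he he1)
  replace h3 := fun θ u => h3 n K N 𝒞 cl A κ top γ β η s e Δ r θ u o h hr fun θ hθ => (hdv θ hθ).1
  rw [fc_add]
  generalize (mv K cl A top (fun a => κ (rm cl (o.elim 0 fun a => a.1.succ) a)) β γ).F = Fm at *
  generalize fc n (fun x => Real.log (1 + (κ top - κ (cl (o.elim 0 fun a => a.1.succ))) * x)) r 0 =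
    f1 at *
  have key := big_near (Y := bg K cl κ top (Fin.cons b fun _ => β) γ)
    (c := Fm - (fc n (fun x => Real.log (uf (fq cl) (fun j => κ top - κ j) x)) r 0 + f1) / 2 +
      (∑ j, fq cl j * κ j) / 2 + ps K (Fin 1) (fun l => Real.sqrt (vr n q l)) b)
    (g := fun U => θ0 + M1 * (∑ l, γ l ^ 2 + e) + (M2 + M3) * (Δ + e) +
      M5 * ∑ j, |om cl 0 U j - fq cl j|) (by fun_prop) fun U => by
    obtain ⟨W, θ, bh, ξ, hcr, hx⟩ := cor_ex h.toDat h.rep U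
    obtain ⟨S, hS⟩ : ∃ S, S = ∑ j, |om cl 0 U j - fq cl j| := ⟨_, rfl⟩
    have lp := h5 𝒞 (om cl 0 U) (fq cl) _ _ (om_pv cl 0 U) pa hc hc
    simp only [sub_self, abs_zero, sum_const_zero, add_zero, ← hS] at lp
    have S0 : 0 ≤ S := hS ▸ sum_nonneg fun _ _ => abs_nonneg _
    have c2 : |(∑ j, om cl 0 U j * κ j) / 2| ≤ C := by
      rw [abs_div, abs_two]; linarith [hcr.aa]
    have b1 := h1 n K N 𝒞 cl A κ top γ U W θ bh ξ _ e h.toDat hcr h.he he1 β b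
      fun l => Real.sqrt (vr n q l)
    have b2 := h2 n K N 𝒞 cl A κ top γ β b η s e Δ (L * S * X) _ r q θ bh h hr hC' hCe qm hcr.ad
      hcr.b0 hcr.bb (fun j hj => by
        have : ∑ a, bh a ^ 2 * zc n (κ top - θ a) r j =
            fc n (psi (om cl 0 U) fun j => κ top - κ j) r j := by
          simp only [zc, ← fc_const_mul, ← fc_sum]
          exact fc_congr hr (fun x h0 _ => (hx x h0).1) j
        rw [this, hq, abs_sub_comm, ← fc_sub]
        exact (fc_lip hr (fun x y a b c => (lp x y a b c).2.2.1) hj).trans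
          (mul_le_mul_of_nonneg_left (hr.mem hj).2 (by positivity)))
      fun φ => (hdv θ hcr.ad).2 b _ φ bh hb c2 hcr.b0 hcr.bb
    have b4 := h3 θ _ hcr.ad fun x x0 => (hx x x0).2
    have b5 := (fc_lip hr (fun x y a b c => (lp x y a b c).2.2.2) (Nat.zero_le _)).trans
      (mul_le_mul_of_nonneg_left hr.le (by positivity))
    have b6 : |∑ j, om cl 0 U j * κ j - ∑ j, fq cl j * κ j| ≤ C * S := by
      rw [← sum_sub_distrib, hS, mul_sum]
      refine (abs_sum_le_sum_abs _ _).trans (sum_le_sum fun j _ => ?_)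
      rw [← sub_mul, abs_mul, mul_comm]
      exact mul_le_mul_of_nonneg_right (h.hκ j).1 (abs_nonneg _)
    rw [fc_sub] at b5
    rw [← hS, hM5]
    rw [abs_le] at b1 b2 b4 b5 b6 ⊢
    have b7 := mul_nonneg (mul_nonneg hL S0) X0
    have b8 := mul_nonneg C0 S0
    constructor <;> linarith only [b1, b2, b4, b5, b6, b7, b8]
  rw [integral_add (integrable_const _) (intg _ (by fun_prop)), integral_const_mul,
    integral_finsetSum _ fun j _ => intg _ (co j)] at key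
  simp only [integral_const, probReal_univ, smul_eq_mul, one_mul] at key
  have N0 : (0 : ℝ) < N := by exact_mod_cast h.hN
  have a3 : 0 ≤ 1 / Real.sqrt N := by positivity
  have a1 : ∑ j, ∫ U, |om cl 0 U j - fq cl j| ∂(P166.hr (Fin (N + 1))) ≤
      3 * (C + 1) * (1 / Real.sqrt N) := by
    refine (sum_le_card_nsmul _ _ (3 * (1 / Real.sqrt N)) fun j _ =>
      (om_close cl 0 j).trans ?_).trans ?_
    · rw [mul_one_div, Fintype.card_fin]
      gcongr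
      simp
    · rw [card_univ, h.rep.card, nsmul_eq_mul]
      push_cast
      linarith only [mul_le_mul_of_nonneg_right h.hA a3]
  have a2 := mul_le_mul_of_nonneg_left a1 M50
  have a4 : 0 ≤ M5 * (3 * (C + 1)) := by positivity
  rw [abs_of_nonneg C0]
  rw [abs_le] at key ⊢
  constructor <;> linarith only [mul_nonneg hM1 D0, mul_nonneg hM1 a3, mul_nonneg hM2 g0,
    mul_nonneg hM2 a3, mul_nonneg hM3 g0, mul_nonneg hM3 a3, mul_nonneg hM4 D0, mul_nonneg hM4 a3,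
    mul_nonneg a4 D0, mul_nonneg a4 e0, mul_nonneg a4 g0, a0, a2, key]

end Vale.Agent.P166
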