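import Vale.Agent.P166.StepD
import Vale.Agent.P166.LB1
import Vale.Agent.P157.LB
import Vale.Agent.P157.Ising

/-!
# P166: consistency of the profile in the cavity step
-/

namespace Vale.Agent.P166

open MeasureTheory Finset Vale.Agent.P168 Vale.Agent.P168.PW Vale.Agent.P157 Function Filter Topology
open scoped BigOperators

set_option synthInstance.maxSize 4096

theorem exists_rep {N : ℕ} {𝒞 : Type} {cl : Fin (N + 1) → 𝒞} (h : Surjective cl) :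
    ∃ A, Rep cl A := by
  classical
  obtain ⟨rep, h1, h2⟩ : ∃ rep : 𝒞 → Fin (N + 1), (∀ j, cl (rep j) = j) ∧ rep (cl 0) = 0 :=
    ⟨fun j => if j = cl 0 then 0 else surjInv h j, fun j => by
      dsimp only
      split_ifs with hj
      exacts [hj.symm, surjInv_eq h j], if_pos rfl⟩
  refine ⟨univ.filter fun a => rep (cl a.succ) = a.succ, fun o o' e => ?_, fun j => ?_⟩
  · have f : ∀ o : Option (univ.filter fun a : Fin N => rep (cl a.succ) = a.succ),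
        rep (cl (o.elim 0 fun a => a.1.succ)) = o.elim 0 fun a => a.1.succ := by
      rintro (_ | a)
      exacts [h2, (mem_filter.1 a.2).2]
    replace e := (f o).symm.trans ((congrArg rep e).trans (f o'))
    rcases o with _ | a <;> rcases o' with _ | a'
    exacts [rfl, absurd e.symm (Fin.succ_ne_zero _), absurd e (Fin.succ_ne_zero _),
      congrArg some (Subtype.ext (Fin.succ_injective N e))]
  · have := h1 j
    revert this
    refine Fin.cases (motive := fun i => rep j = i → cl i = j → ∃ o : Option (univ.filter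
      fun a : Fin N => rep (cl a.succ) = a.succ), cl (o.elim 0 fun a => a.1.succ) = j)
      (fun _ e => ⟨none, e⟩) (fun a e e' => ⟨some ⟨a, by simp [e', e]⟩, e'⟩) (rep j) rfl

section rho
variable {n K : ℕ} {Ω I 𝒞 : Type} [Fintype Ω] [Fintype I] [DecidableEq I] {Y : Sys n K Ω I}

theorem rho_mem (h : Y.St) (hI : 0 < Fintype.card I) (j : ℕ) :
    0 ≤ Y.I2 j (Y.R univ (Fintype.card I)) ∧ Y.I2 j (Y.R univ (Fintype.card I)) ≤ 1 := by
  have hN : (0 : ℝ) < Fintype.card I := by exact_mod_cast hI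
  exact ⟨integral_nonneg fun U => prof_nonneg (u := fun i ω => Y.t U ω i) hN.le j,
    int_le_const _ (Y.cont_E2A (Sys.cont_R _ _) j) fun U => E2_le_const fun x y =>
      (le_abs_self _).trans (Sys.abs_R_le h _ hN (one_mul _).ge U x y)⟩

theorem rho_zero (h : ∀ ω, ∑ a, Y.σ ω a ^ 2 = Fintype.card I) (hI : 0 < Fintype.card I) :
    Y.I2 0 (Y.R univ (Fintype.card I)) = 1 := by
  have hN : (0 : ℝ) < Fintype.card I := by exact_mod_cast hI
  simp only [Sys.I2, E2_zeroA, Sys.R, ← sq, Sys.t, sum_act_sq, h, div_self hN.ne', Eh_const]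
  simp

theorem rho_sum [Fintype 𝒞] [DecidableEq 𝒞] {cl : I → 𝒞} (h : ∀ j, 0 < (tp cl j).card) (l : ℕ) :
    Y.I2 l (Y.R univ (Fintype.card I)) =
      ∑ j, fq cl j * Y.I2 l (Y.R (tp cl j) (tp cl j).card) := by
  simp only [Sys.I2, ← integral_const_mul]
  rw [← integral_finsetSum _ fun j _ => intg _ ((Y.cont_E2A (Sys.cont_R _ _) l).const_mul _)]
  refine integral_congr_ae (ae_of_all _ fun U => ?_)
  simp only [← E2_const_mul, ← E2_sum]
  refine E2_congr fun x y => ?_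
  rw [Sys.R, ← sum_fiberwise univ cl, sum_div]
  refine sum_congr rfl fun j _ => ?_
  have : ((tp cl j).card : ℝ) ≠ 0 := by exact_mod_cast (h j).ne'
  rw [Sys.R, fq]
  change _ = ((tp cl j).card : ℝ) / _ * _
  rw [div_mul_div_comm, mul_comm (Fintype.card I : ℝ), mul_div_mul_left _ _ this]
  rfl

end rho

theorem cons_own {n K N : ℕ} {𝒞 : Type} [DecidableEq 𝒞] (cl : Fin (N + 1) → 𝒞) (κ : 𝒞 → ℝ)
    (top : 𝒞) (b : ℕ → ℝ) (π : Option (Fin (n + 1)) → ℝ) (hK : 0 < K)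
    (hB : 1 / Real.sqrt K ≤ 1 / 2) {l0 : ℕ} (hl : l0 ≤ n) (hb : |b l0| ≤ 1) (t : ℝ) :
    t * (b l0 * (1 - cum n (fun j => (sy K cl κ top (fun _ l => b l) π).I2 j
      ((sy K cl κ top (fun _ l => b l) π).R univ (Fintype.card (Fin (N + 1))))) l0)) -
      |t| * (100 * (1 / Real.sqrt K)) ≤
    (sy K cl κ top (Fin.cons (fun l => update b l0 (b l0 + t) l) fun _ l => b l) π).F -
      (sy K cl κ top (fun _ l => b l) π).F := by
  have h1 := ibp_own cl κ top (fun l => b l) π ⟨l0, Nat.lt_succ_of_le hl⟩ hK 0 hb hB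
  have h2 := F_cvxP (sy K cl κ top (fun _ l => b l) π)
    (sy K cl κ top (Fin.cons (fun l => update b l0 (b l0 + t) l) fun _ l => b l) π) rfl rfl
  have e : (fun U ω => (sy K cl κ top (Fin.cons (fun l => update b l0 (b l0 + t) l)
      fun _ l => b l) π).En U ω - (sy K cl κ top (fun _ l => b l) π).En U ω) =
      fun _ ω => t * own ⟨l0, Nat.lt_succ_of_le hl⟩ 0 ω := funext fun U => funext fun ω => by
    have := sum_upd hl (fun l y => if h : l < n + 1 then y * own ⟨l, h⟩ (0 : Fin (N + 1)) ω else 0)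
      b (b l0 + t)
    simp only [Fin.is_lt, dif_pos, Fin.eta, Nat.lt_succ_of_le hl, own] at this
    simp only [sy, En_gen, Gx, Fin.sum_univ_succ (n := N), Fin.cons_zero, Fin.cons_succ, this, own]
    ring
  rw [e] at h2
  simp only [Sys.I1, Eh_const_mul, integral_const_mul] at h2
  have h3 := abs_le.1 (abs_mul_le' (le_refl |t|) h1)
  rw [Sys.I1] at h3
  linarith

theorem abs_orth_le {R : ℝ → ℝ} {β C : ℝ} (hβ : 0 ≤ β) (h : ∀ y, |R y| ≤ C) (n : ℕ) (p : ℕ → ℝ) :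
    orth R β n p ≤ β / 2 * C := by
  refine mul_le_mul_of_nonneg_left ((le_abs_self _).trans ?_) (by positivity)
  simpa using intervalIntegral.norm_integral_le_of_norm_le_const (a := 0) (b := 1) (C := C)
    (f := fun q => R (β * chiq n p q)) fun q _ => h _

theorem stepS_num {h η ω ε0 y x : ℝ} (hh : 0 < h) (hη : 0 < η) (h1 : h ≤ 1 / 2) (hx : 0 ≤ x)
    (a3 : h ≤ ω * η / 2) (a5 : ε0 ≤ ω * (h * η) / 8) (a7 : y ≤ ω * η / 4)
    (a8 : x ≤ ω * (h * η) / 12) : (h * (y + x) + h ^ 2 / 2 + 2 * ε0 + 2 * x) / (h * η) ≤ ω := by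
  rw [div_le_iff₀ (by positivity)]
  nlinarith [mul_le_mul_of_nonneg_left a3 hh.le, mul_le_mul_of_nonneg_left a7 hh.le,
    mul_le_mul_of_nonneg_right h1 hx]

theorem stepS {𝒞 : Type} [Fintype 𝒞] {w lam : 𝒞 → ℝ} {top : 𝒞} (h : Cls w lam top) {β : ℝ}
    (hβ : 0 ≤ β) (X : ℝ) {V Λ ε : ℝ} (hV : 0 ≤ V) (hΛ : ∀ j, |lam j| ≤ Λ) (hε : 0 < ε) :
    ∃ e0 : ℝ, 0 < e0 ∧ ∃ ω : ℝ, 0 < ω ∧ ∀ η1 : ℝ, 0 < η1 → ∃ x0 : ℝ, 0 < x0 ∧ x0 ≤ ε ∧
    ∀ n : ℕ, ∃ K0 : ℕ, ∀ K, K0 ≤ K → ∀ (b r q ρ : ℕ → ℝ) (a κ : 𝒞 → ℝ) (Φ : (ℕ → ℝ) → ℝ)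
      (Z x : ℝ), Pr n X r → Pv a → (∀ j, κ j ≤ κ top) →
      q = fc n (psi a fun j => κ top - κ j) r → q 0 ≤ V → ∑ l : Fin (n + 1), b l ^ 2 ≤ 1 / 4 →
      (∀ l, l ≤ n + 1 → ∃ l0, l0 ≤ l ∧ l0 ≤ n ∧ η1 ≤ b l0 ∧ ((l : ℝ) - l0) * wt n ≤ ω) →
      (∀ b' : ℕ → ℝ, ∑ l : Fin (n + 1), b' l ^ 2 ≤ 1 →
        |Φ b' - (Z + ps K (Fin 1) (fun l : Fin (n + 1) => Real.sqrt (vr n q l)) fun l => b' l)| ≤ x) →
      ∀ L ∈ lowerBounds (trial (Rf w lam (lam top)) β n), L - β / 2 * Λ - x0 - x ≤ Φ b - Z ∧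
        (x ≤ x0 → (∀ j, |a j - w j| ≤ e0) → (∀ j, |κ j - β * lam j| ≤ e0) →
          nm n (fun l => ρ l - ∑ j, a j * zc n (κ top - κ j) r l) ≤ e0 → ρ 0 = 1 →
          (∀ j, 0 ≤ ρ j ∧ ρ j ≤ 1) → (∀ l0, l0 ≤ n → |b l0| ≤ 1 → ∀ t : ℝ,
            t * (b l0 * (1 - cum n ρ l0)) - |t| * (100 * (1 / Real.sqrt K)) ≤
              Φ (update b l0 (b l0 + t)) - Φ b) →
          L - ε ≤ Φ b - Z + ((∑ j, a j * κ j) / 2 -
            fc n (fun x => Real.log (uf a (fun j => κ top - κ j) x) +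
              ∑ j, a j * Real.log (1 + (κ top - κ j) * x)) r 0 / 2)) := by
  obtain ⟨e0, he0, hl⟩ := lb1 h hβ X (show 0 < ε / 4 by positivity)
  obtain ⟨ω, hω, a1, a2⟩ : ∃ ω : ℝ, 0 < ω ∧ ω ≤ e0 / 2 ∧ ω ≤ ε / 4 / (V + 1) :=
    ⟨min _ _, by positivity, min_le_left _ _, min_le_right _ _⟩
  rw [le_div_iff₀ (by positivity)] at a2
  refine ⟨e0, he0, ω, hω, fun η hη => ?_⟩
  obtain ⟨s, hs, a3, a4⟩ : ∃ s : ℝ, 0 < s ∧ s ≤ 1 / 2 ∧ s ≤ ω * η / 2 :=
    ⟨min _ _, by positivity, min_le_left _ _, min_le_right _ _⟩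
  obtain ⟨x0, hx0, a5, a6⟩ : ∃ x0 : ℝ, 0 < x0 ∧ x0 ≤ ε / 4 ∧ x0 ≤ ω * (s * η) / 12 :=
    ⟨min _ _, by positivity, min_le_left _ _, min_le_right _ _⟩
  refine ⟨x0, hx0, by linarith, fun n => ?_⟩
  obtain ⟨K1, hK1⟩ := psi_limIsing n (V + 1) x0 hx0
  obtain ⟨K2, hK2⟩ := largeKUB 100 (ω * η / 4) (by positivity)
  refine ⟨K1 + K2, fun K hK b r q ρ a κ Φ Z x hr ha hκ hq hq0 hb hco hΦ L hL => ?_⟩
  have a7 := (hK2 K (by omega)).2
  rw [← mul_one_div] at a7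
  have qm : Mono n q := hq ▸ fc_mono hr fun x y hx hxy _ =>
    psi_mono ha (fun j => sub_nonneg.2 (hκ j)) hx hxy
  have qt : vr n q (n + 1) = 0 := by rw [vr, if_neg (by omega), hq, fc_top]
  have hv : ∀ l, l ≤ n + 1 → 0 ≤ vr n q l := fun l hl => vr_nonneg qm hl
  have hc : ∀ b' : ℕ → ℝ, ∑ l : Fin (n + 1), b' l ^ 2 ≤ 1 →
      |Φ b' - Z - Cas n (tv n (vr n q) b') lc| ≤ x0 + x := fun b' hb' => by
    have u1 := sum_tv_mul n (vr n q) b' fun _ => 1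
    simp only [mul_one, sum_vr] at u1
    have u2 := hK1 K (by omega) K (by omega) _ b' hv (by linarith) 1
    have u3 := hΦ b' hb'
    rw [ps_eq qt] at u3
    simp only [Nat.cast_one, one_mul] at u2
    rw [abs_le] at u2 u3 ⊢
    constructor <;> linarith
  obtain ⟨p, p1, p2⟩ := conc n _ (tv_nonnegIsing hv b)
  have t0 := hL ⟨p, _, p1, fun q hq => (spinI_eqIsing n p q).trans_le
    (p2 _ fun l hl => vr_nonneg hq hl), rfl⟩
  have c0 := abs_le.1 (hc b (by linarith))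
  have x0' : 0 ≤ x := (abs_nonneg _).trans (hΦ b (by linarith))
  refine ⟨?_, fun hx b1 b2 b3 b4 b5 b6 => ?_⟩
  · have u1 := abs_orth_le hβ (abs_Rf_le h hΛ) n p
    have u2 : 0 ≤ pen n p (tv n (vr n q) b) := div_nonneg (sum_nonneg fun l hl => by
      have hl := Nat.lt_succ_iff.1 (mem_range.1 hl)
      exact mul_nonneg (tv_nonnegIsing hv b l hl) (sub_nonneg.2 (cum_mem p1.mem hl).2)) zero_le_two
    linarith
  have hcum := st2_cum (s := ω) p1.mem (fun j _ _ => b5 j) hco fun l0 hl0 hb0 => by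
    have c1 : b l0 ^ 2 ≤ 1 / 4 := (single_le_sum (f := fun l : Fin (n + 1) => b l ^ 2)
      (fun _ _ => sq_nonneg _) (mem_univ ⟨l0, by omega⟩)).trans hb
    have c2 : |b l0| ≤ 1 := abs_le_of_sq_le_sq' (by linarith) zero_le_one |> abs_le.mpr
    refine le_trans (st2_num1 (d := 1) (ε0 := x0) (y := 100 * (1 / Real.sqrt K)) le_rfl hs hη hb0 x0'
      (cum_mem p1.mem (by omega)) fun t ht => ?_)
      (stepS_num hs hη a3 x0' a4 (by linarith [show 0 < ω * (s * η) by positivity]) a7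
        (hx.trans a6))
    have c3 : ∑ l : Fin (n + 1), update b l0 (b l0 + t) l ^ 2 ≤ 1 := by
      rw [sum_upd hl0 (fun _ y => y ^ 2)]
      exact st2_num2 hb c1 ht a3
    have c4 := p2 _ (tv_nonnegIsing hv (update b l0 (b l0 + t)))
    have c5 : pen n p (tv n (vr n q) (update b l0 (b l0 + t))) = pen n p (tv n (vr n q) b) +
        ((b l0 + t) ^ 2 - b l0 ^ 2) * (1 - cum n p l0) / 2 := by
      rw [pen, pen, sum_tv_mul, sum_tv_mul, sum_upd hl0 (fun l y => y ^ 2 * (1 - cum n p l))]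
      ring
    have c6 := (abs_le.1 (hc _ c3)).2
    have c7 := b6 l0 hl0 c2 t
    have c8 := mul_nonneg (abs_nonneg t) x0'
    rw [c5] at c4
    linarith
  have d1 := hl n p r ρ a κ p1 hr ha b1 (fun j => ⟨hκ j, b2 j⟩) b3 b4
    fun l hl => (hcum l hl).trans (by linarith)
  have d2 := st2_pen (β := b) p1 qm hq0 (by positivity) hcum
  rw [← hq] at d1
  linarith

end Vale.Agent.P166
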