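import Vale.Agent.P166.Star

/-!
# P166: three-replica laws and the response of two-replica averages
-/

namespace Vale.Agent.P166.W

open Vale.Agent.P157 Vale.Agent.P168 Vale.Agent.P168.PW Finset
open scoped BigOperators

variable {Ω : Type} [Fintype Ω]

/-- Three replicas: the first two branch at height `j`, the third at height `l`. -/
noncomputable def E3 (n : ℕ) (P : Ch Ω) (ρ : PW Ω) (j l : ℕ) (Φ : Ω → Ω → Ω → ℝ) : ℝ :=
  Eh n P ρ l fun ω => A P 0 l (fun c => A P j l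
    (fun ω' => A P 0 j (fun a => A P 0 j (fun b => Φ a b c) ω') ω') ω) ω

/-- The response of a two-replica average at height `l`; the third argument carries the tilt. -/
noncomputable def Rp (n : ℕ) (P : Ch Ω) (ρ : PW Ω) (l : ℕ) (Φ : Ω → Ω → Ω → ℝ) : ℝ :=
  E3 n P ρ 0 l (fun a b c => Φ a c b) + E3 n P ρ 0 l (fun a b c => Φ c a b) -
    wt n * ∑ j ∈ Icc 1 l, E3 n P ρ j l (fun a b c => Φ a c b) -
    wt n * ∑ j ∈ Icc 1 l, E3 n P ρ j l (fun a b c => Φ c a b) - ze n l * E3 n P ρ l l Φ -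
    wt n * ∑ j ∈ Icc (l + 1) (n + 1), E3 n P ρ l j Φ

variable {n j l : ℕ} {P : Ch Ω} {ρ : PW Ω}

theorem E3_add (Φ Ψ : Ω → Ω → Ω → ℝ) : E3 n P ρ j l (fun a b c => Φ a b c + Ψ a b c) =
    E3 n P ρ j l Φ + E3 n P ρ j l Ψ := by simp only [E3, A_add, Eh_add]

theorem E3_sub (Φ Ψ : Ω → Ω → Ω → ℝ) : E3 n P ρ j l (fun a b c => Φ a b c - Ψ a b c) =
    E3 n P ρ j l Φ - E3 n P ρ j l Ψ := by simp only [E3, A_sub, Eh_sub]

theorem E3_const_mul (t : ℝ) (Φ : Ω → Ω → Ω → ℝ) :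
    E3 n P ρ j l (fun a b c => t * Φ a b c) = t * E3 n P ρ j l Φ := by
  simp only [E3, A_const_mul, Eh_const_mul]

theorem E3_sum {ι : Type} (s : Finset ι) (Φ : ι → Ω → Ω → Ω → ℝ) :
    E3 n P ρ j l (fun a b c => ∑ i ∈ s, Φ i a b c) = ∑ i ∈ s, E3 n P ρ j l (Φ i) := by
  simp only [E3, A_sum, Eh_sum]

theorem E3_mono {Φ Ψ : Ω → Ω → Ω → ℝ} (h : ∀ a b c, Φ a b c ≤ Ψ a b c) :
    E3 n P ρ j l Φ ≤ E3 n P ρ j l Ψ :=
  Eh_mono fun ω => A_mono (fun c => A_mono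
    (fun ω' => A_mono (fun a => A_mono (fun b => h a b c) ω') ω') ω) ω

theorem abs_E3_le {Φ Ψ : Ω → Ω → Ω → ℝ} (h : ∀ a b c, |Φ a b c| ≤ Ψ a b c) :
    |E3 n P ρ j l Φ| ≤ E3 n P ρ j l Ψ := by
  have h1 := E3_mono (n := n) (P := P) (ρ := ρ) (j := j) (l := l) fun a b c => (abs_le.mp (h a b c)).2
  have h2 := E3_mono (n := n) (P := P) (ρ := ρ) (j := j) (l := l)
    (Φ := fun a b c => -1 * Ψ a b c) (Ψ := Φ) fun a b c => by linarith [(abs_le.mp (h a b c)).1]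
  rw [E3_const_mul] at h2
  exact abs_le.mpr ⟨by linarith, h1⟩

theorem E2_swap (F : Ω → Ω → ℝ) : E2 n P ρ j (fun x y => F y x) = E2 n P ρ j F :=
  Eh_congr fun _ => E_comm _ _ _

theorem E3_12 (hj : j ≤ l) (hl : l ≤ n + 1) (F : Ω → Ω → ℝ) :
    E3 n P ρ j l (fun a b _ => F a b) = E2 n P ρ j F := by
  simp only [E3, A_const']
  exact Eh_A hj hl _

theorem E3_31 (hj : j ≤ l) (F : Ω → Ω → ℝ) :
    E3 n P ρ j l (fun a _ c => F c a) = E2 n P ρ l F := by
  simp only [E3, A_const', A_A' (Nat.zero_le j) hj]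
  rfl

theorem E3_32 (hj : j ≤ l) (F : Ω → Ω → ℝ) :
    E3 n P ρ j l (fun _ b c => F c b) = E2 n P ρ l F := by
  simp only [E3, A_const', A_A' (Nat.zero_le j) hj]
  rfl

theorem E3_13 (hj : j ≤ l) (F : Ω → Ω → ℝ) :
    E3 n P ρ j l (fun a _ c => F a c) = E2 n P ρ l F :=
  (E3_31 hj fun c a => F a c).trans (E2_swap F)

theorem E3_23 (hj : j ≤ l) (F : Ω → Ω → ℝ) :
    E3 n P ρ j l (fun _ b c => F b c) = E2 n P ρ l F :=
  (E3_32 hj fun c a => F a c).trans (E2_swap F)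

theorem E3_mul (F G H : Ω → ℝ) : E3 n P ρ j l (fun a b c => F a * G b * H c) =
    Eh n P ρ l fun ω => A P j l (fun x => A P 0 j F x * A P 0 j G x) ω * A P 0 l H ω := by
  simp only [E3, A_mul_const, A_const_mul]

theorem Rp_add (Φ Ψ : Ω → Ω → Ω → ℝ) : Rp n P ρ l (fun a b c => Φ a b c + Ψ a b c) =
    Rp n P ρ l Φ + Rp n P ρ l Ψ := by simp only [Rp, E3_add, sum_add_distrib]; ring

theorem Rp_sub (Φ Ψ : Ω → Ω → Ω → ℝ) : Rp n P ρ l (fun a b c => Φ a b c - Ψ a b c) =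
    Rp n P ρ l Φ - Rp n P ρ l Ψ := by simp only [Rp, E3_sub, sum_sub_distrib]; ring

theorem Rp_const_mul (t : ℝ) (Φ : Ω → Ω → Ω → ℝ) :
    Rp n P ρ l (fun a b c => t * Φ a b c) = t * Rp n P ρ l Φ := by
  simp only [Rp, E3_const_mul, ← mul_sum]; ring

theorem Rp_sum {ι : Type} (s : Finset ι) (Φ : ι → Ω → Ω → Ω → ℝ) :
    Rp n P ρ l (fun a b c => ∑ i ∈ s, Φ i a b c) = ∑ i ∈ s, Rp n P ρ l (Φ i) := by
  simp only [Rp, E3_sum, sum_sub_distrib, sum_add_distrib, ← mul_sum]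
  rw [sum_comm (s := s), sum_comm (s := s), sum_comm (s := s)]

theorem Rp_congr {Φ Ψ : Ω → Ω → Ω → ℝ} (h : ∀ a b c, Φ a b c = Ψ a b c) :
    Rp n P ρ l Φ = Rp n P ρ l Ψ := by
  rw [show Φ = Ψ from funext fun a => funext fun b => funext (h a b)]

theorem Rs_lo (F G : Ω → ℝ) (hl : l ≤ n + 1) (ω : Ω) :
    Rs (al n) P 0 F G l ω = A P 0 l (fun x => F x * G x) ω -
      wt n * ∑ j ∈ Icc 1 l, A P j l (fun x => A P 0 j F x * A P 0 j G x) ω -
      ze n l * (A P 0 l F ω * A P 0 l G ω) := by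
  cases l with
  | zero => simp [Rs_self, A_of_le, ze_zero]
  | succ p =>
    rw [Rs_al F G (show p ≤ n by omega), sum_Icc_succ_top (Nat.le_add_left 1 p),
      A_of_le (le_refl (p + 1)), al_eq_ze (show p ≤ n by omega), ze_succ]
    ring

theorem Rs_hi (F G : Ω → ℝ) (hl : l ≤ n + 1) (ω : Ω) :
    Rs (al n) P l F G (n + 1) ω = ze n l * A P l (n + 1) (fun x => F x * G x) ω -
      wt n * ∑ j ∈ Icc (l + 1) (n + 1),
        A P j (n + 1) (fun x => A P l j F x * A P l j G x) ω := by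
  rcases hl.eq_or_lt with rfl | hl
  · simp [Rs_self, ze_top]
  · have h1 : ∑ j ∈ Icc (l + 1) n, A P j (n + 1) (fun x => A P l j F x * A P l j G x) ω =
        ∑ i ∈ Ico l n, A P (i + 1) (n + 1)
          (fun x => A P l (i + 1) F x * A P l (i + 1) G x) ω := by
      rw [← Ico_add_one_right_eq_Icc, ← sum_Ico_add' _ l n 1]
    rw [Rs, sum_Ico_succ_top (show l ≤ n by omega), sum_Icc_succ_top (show l + 1 ≤ n + 1 by omega),
      h1, al_top', al_top, al_eq_ze (show l ≤ n by omega), mul_add, mul_sum,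
      sum_congr rfl fun i hi => by rw [al_sub (mem_Ico.mp hi).2], A_of_le (le_refl (n + 1))]
    ring

theorem hasDerivAt_Eh {ψ f : ℝ → Ω → ℝ} {ψ' f' : Ω → ℝ} {s : ℝ}
    (h : ∀ x, HasDerivAt (fun t => ψ t x) (ψ' x) s)
    (hf : ∀ x, HasDerivAt (fun t => f t x) (f' x) s) :
    HasDerivAt (fun t => Eh n (Tn n P (ψ t)) ρ 0 (f t))
      (Eh n (Tn n P (ψ s)) ρ 0 f' + (Eh n (Tn n P (ψ s)) ρ 0 (fun x => f s x * ψ' x) -
        wt n * ∑ j ∈ Icc 1 (n + 1), E2 n (Tn n P (ψ s)) ρ j fun x y => f s x * ψ' y)) s := by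
  refine (hasDerivAt_E ρ (hasDerivAt_A_T (al_pos n) h hf le_rfl (n + 1) (by omega))).congr_deriv ?_
  simp only [A_of_le (le_refl 0), Rs_top, E_add, E_sub, E_const_mul, E_sum, E2_mul]
  rfl

theorem hasDerivAt_Fr {ψ : ℝ → Ω → ℝ} {ψ' : Ω → ℝ} {s : ℝ}
    (h : ∀ x, HasDerivAt (fun t => ψ t x) (ψ' x) s) :
    HasDerivAt (fun t => Fr n P ρ (ψ t)) (Eh n (Tn n P (ψ s)) ρ 0 ψ') s :=
  hasDerivAt_E ρ (hasDerivAt_X (al_pos n) h (n + 1))

theorem hasDerivAt_E2 {ψ f g : ℝ → Ω → ℝ} {ψ' f' g' : Ω → ℝ} {s : ℝ} (hl : l ≤ n + 1)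
    (h : ∀ x, HasDerivAt (fun t => ψ t x) (ψ' x) s)
    (hf : ∀ x, HasDerivAt (fun t => f t x) (f' x) s)
    (hg : ∀ x, HasDerivAt (fun t => g t x) (g' x) s) :
    HasDerivAt (fun t => E2 n (Tn n P (ψ t)) ρ l fun x y => f t x * g t y)
      (E2 n (Tn n P (ψ s)) ρ l (fun x y => f' x * g s y + f s x * g' y) +
        Rp n (Tn n P (ψ s)) ρ l fun x y z => f s x * g s y * ψ' z) s := by
  simp only [E2_mul]
  have h1 := fun x => (hasDerivAt_A_T (P := P) (al_pos n) h hf le_rfl l (Nat.zero_le l) x).fun_mul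
    (hasDerivAt_A_T (P := P) (al_pos n) h hg le_rfl l (Nat.zero_le l) x)
  refine (hasDerivAt_E ρ (hasDerivAt_A_T (al_pos n) h h1 (Nat.zero_le l) (n + 1) hl)).congr_deriv ?_
  have e1 : ∀ j, E3 n (Tn n P (ψ s)) ρ j l (fun a b c => f s a * g s c * ψ' b) =
      E3 n (Tn n P (ψ s)) ρ j l (fun a b c => f s a * ψ' b * g s c) := fun j => by
    congr 1; funext a b c; ring
  have e2 : ∀ j, E3 n (Tn n P (ψ s)) ρ j l (fun a b c => f s c * g s a * ψ' b) =
      E3 n (Tn n P (ψ s)) ρ j l (fun a b c => g s a * ψ' b * f s c) := fun j => by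
    congr 1; funext a b c; ring
  rw [Rp, E2_add]
  simp only [e1, e2, E3_mul, E2_mul, A_of_le (le_refl 0), A_of_le (le_refl l), Rs_lo _ _ hl,
    Rs_hi _ _ hl]
  change ρ.E (fun ω => A (Tn n P (ψ s)) l (n + 1) _ ω + _) = _
  rw [E_add, E_sub, E_const_mul, E_const_mul, E_sum]
  change Eh n (Tn n P (ψ s)) ρ l _ + (ze n l * Eh n (Tn n P (ψ s)) ρ l _ -
    wt n * ∑ j ∈ _, Eh n (Tn n P (ψ s)) ρ j _) = _
  simp only [Tn, ← Eh_sum, ← Eh_const_mul]
  rw [← Eh_add, ← Eh_add, ← Eh_sub, ← Eh_sub, ← Eh_sub, ← add_sub_assoc, ← Eh_add,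
    ← add_sub_assoc, ← Eh_add]
  congr 1
  · refine Eh_congr fun ω => ?_
    simp only [← sum_mul]
    ring
  · congr 1
    refine sum_congr rfl fun j hj => Eh_congr fun ω => ?_
    rw [A_A (Nat.zero_le l) _ j (by have := mem_Icc.mp hj; omega)]

theorem comb_le {x0 y0 c τ Dl D0 S : ℝ} {x y z D : ℕ → ℝ} (hl : l ≤ n + 1)
    (hx0 : |x0| ≤ τ + Dl) (hy0 : |y0| ≤ τ + D0) (hx : ∀ j ∈ Icc 1 l, |x j| ≤ τ + Dl)
    (hy : ∀ j ∈ Icc 1 l, |y j| ≤ τ + D j) (hc : |c| ≤ τ + Dl)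
    (hz : ∀ j ∈ Icc (l + 1) (n + 1), |z j| ≤ τ + D j)
    (hS : wt n * ∑ j ∈ Icc 1 (n + 1), D j = S) :
    |x0 + y0 - wt n * ∑ j ∈ Icc 1 l, x j - wt n * ∑ j ∈ Icc 1 l, y j - ze n l * c -
      wt n * ∑ j ∈ Icc (l + 1) (n + 1), z j| ≤ 4 * τ + (D0 + 2 * Dl + S) := by
  have b : ∀ (s : Finset ℕ) (u v : ℕ → ℝ), (∀ j ∈ s, |u j| ≤ v j) →
      |wt n * ∑ j ∈ s, u j| ≤ wt n * ∑ j ∈ s, v j := fun s u v h =>
    abs_mul_le' (abs_of_pos (wt_pos n)).le ((abs_sum_le_sum_abs _ _).trans (sum_le_sum h))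
  have h1 := b _ _ _ hx
  have h2 := b _ _ _ hy
  have h3 := b _ _ _ hz
  have h4 : |ze n l * c| ≤ ze n l * (τ + Dl) := abs_mul_le' (abs_of_nonneg (ze_nonneg hl)).le hc
  have h7 : ∑ j ∈ Icc 1 (n + 1), D j = ∑ j ∈ Icc 1 l, D j + ∑ j ∈ Icc (l + 1) (n + 1), D j := by
    rw [← sum_union (by simp [disjoint_left]; omega)]
    congr 1; ext j; simp; omega
  simp only [sum_add_distrib, sum_const, Nat.card_Icc, nsmul_eq_mul, Nat.add_sub_cancel,
    Nat.add_sub_add_right] at h1 h2 h3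
  rw [Nat.cast_sub hl] at h3
  push_cast at h3
  rw [h7] at hS
  rw [ze_eq] at h4 ⊢
  have hw := wt_mul n
  have e : wt n * ((n + 1 - l) * τ) = τ - l * wt n * τ := by
    rw [← mul_assoc, mul_sub, hw]; ring
  rw [mul_add, e] at h3
  rw [abs_le] at hx0 hy0 h1 h2 h3 h4 ⊢
  constructor <;> nlinarith [hx0.1, hx0.2, hy0.1, hy0.2, h1.1, h1.2, h2.1, h2.2, h3.1, h3.2,
    h4.1, h4.2]

/-- Crude bound of a response. -/
theorem abs_Rp_le (hl : l ≤ n + 1) {Φ : Ω → Ω → Ω → ℝ} {F G H : Ω → ℝ}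
    (h : ∀ x y z, |Φ x y z| ≤ F x + G y + H z) :
    |Rp n P ρ l Φ| ≤ 4 * (Eh n P ρ 0 F + Eh n P ρ 0 G + Eh n P ρ 0 H) := by
  have k : ∀ {i j} {Ψ : Ω → Ω → Ω → ℝ} {F G H : Ω → ℝ}, i ≤ j → j ≤ n + 1 →
      (∀ x y z, |Ψ x y z| ≤ F x + G y + H z) →
      |E3 n P ρ i j Ψ| ≤ Eh n P ρ 0 F + Eh n P ρ 0 G + Eh n P ρ 0 H := fun hi hj h => by
    refine (abs_E3_le h).trans_eq ?_
    rw [E3_add, E3_add, E3_13 hi fun x _ => _, E3_23 hi fun x _ => _, E3_31 hi fun x _ => _,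
      E2_fst hj, E2_fst hj, E2_fst hj]
  have := comb_le (n := n) (τ := Eh n P ρ 0 F + Eh n P ρ 0 G + Eh n P ρ 0 H) (Dl := 0) (D0 := 0)
    (D := fun _ => 0) (S := 0) hl
    (x0 := E3 n P ρ 0 l fun a b c => Φ a c b) (y0 := E3 n P ρ 0 l fun a b c => Φ c a b)
    (x := fun j => E3 n P ρ j l fun a b c => Φ a c b)
    (y := fun j => E3 n P ρ j l fun a b c => Φ c a b) (c := E3 n P ρ l l Φ)
    (z := fun j => E3 n P ρ l j Φ)
    ((k (F := F) (G := H) (H := G) (Nat.zero_le l) hl fun x y z => by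
      linarith [h x z y]).trans_eq (by ring))
    ((k (F := G) (G := H) (H := F) (Nat.zero_le l) hl fun x y z => by
      linarith [h z x y]).trans_eq (by ring))
    (fun j hj => (k (F := F) (G := H) (H := G) (mem_Icc.mp hj).2 hl fun x y z => by
      linarith [h x z y]).trans_eq (by ring))
    (fun j hj => (k (F := G) (G := H) (H := F) (mem_Icc.mp hj).2 hl fun x y z => by
      linarith [h z x y]).trans_eq (by ring))
    ((k le_rfl hl h).trans_eq (by ring))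
    (fun j hj => (k (by have := mem_Icc.mp hj; omega) (mem_Icc.mp hj).2 h).trans_eq (by ring))
    (by simp)
  simpa [Rp] using this

/-- Factorisation of a response along a concentrated overlap. -/
theorem Rp_fac (hl : l ≤ n + 1) (F R : Ω → Ω → ℝ) (r : ℕ → ℝ) {τ M : ℝ} (hτ : 0 < τ)
    (hM : ∀ j, j ≤ n + 1 → E2 n P ρ j (fun x y => F x y ^ 2) ≤ M) :
    |Rp n P ρ l (fun x y z => F x z * R y z) - star n (prof n P ρ F) r l| ≤ 4 * (τ * M) +
      (E2 n P ρ 0 (fun x y => (R x y - r 0) ^ 2) + 2 * E2 n P ρ l (fun x y => (R x y - r l) ^ 2) +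
        wt n * ∑ j ∈ Icc 1 (n + 1), E2 n P ρ j fun x y => (R x y - r j) ^ 2) / (4 * τ) := by
  have k : ∀ {i j} (f g : Ω → Ω → Ω → ℝ) (q : ℝ),
      |E3 n P ρ i j (fun a b c => f a b c * g a b c) - E3 n P ρ i j f * q| ≤
        τ * E3 n P ρ i j (fun a b c => f a b c ^ 2) +
          E3 n P ρ i j (fun a b c => (g a b c - q) ^ 2) / (4 * τ) := fun f g q => by
    rw [mul_comm _ q, ← E3_const_mul, ← E3_sub, div_eq_inv_mul, ← E3_const_mul, ← E3_const_mul,
      ← E3_add]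
    refine abs_E3_le fun a b c => ?_
    have e : ∀ u v : ℝ, u * v ≤ τ * u ^ 2 + (4 * τ)⁻¹ * v ^ 2 := fun u v => by
      have : τ * u ^ 2 + (4 * τ)⁻¹ * v ^ 2 - u * v = (4 * τ)⁻¹ * (2 * τ * u - v) ^ 2 := by
        field_simp; ring
      have : 0 ≤ (4 * τ)⁻¹ * (2 * τ * u - v) ^ 2 := by positivity
      linarith
    rw [show f a b c * g a b c - q * f a b c = f a b c * (g a b c - q) by ring, abs_mul]
    simpa only [sq_abs] using e |f a b c| |g a b c - q|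
  set D : ℕ → ℝ := fun j => E2 n P ρ j (fun x y => (R x y - r j) ^ 2) / (4 * τ) with hD
  have kx : ∀ j, j ≤ l → |E3 n P ρ j l (fun a b c => F a b * R c b) - prof n P ρ F j * r l| ≤
      τ * M + D l := fun j hj => by
    have := k (i := j) (j := l) (fun a b _ => F a b) (fun _ b c => R c b) (r l)
    rw [E3_12 hj hl, E3_12 hj hl fun a b => F a b ^ 2,
      E3_32 hj fun c b => (R c b - r l) ^ 2] at this
    exact this.trans (add_le_add (mul_le_mul_of_nonneg_left (hM j (by omega)) hτ.le) le_rfl)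
  have ky : ∀ j, j ≤ l → |E3 n P ρ j l (fun a b c => F c b * R a b) - prof n P ρ F l * r j| ≤
      τ * M + D j := fun j hj => by
    have := k (i := j) (j := l) (fun _ b c => F c b) (fun a b _ => R a b) (r j)
    rw [E3_32 hj, E3_32 hj fun a b => F a b ^ 2,
      E3_12 hj hl fun c b => (R c b - r j) ^ 2] at this
    exact this.trans (add_le_add (mul_le_mul_of_nonneg_left (hM l hl) hτ.le) le_rfl)
  have kz : ∀ j, l ≤ j → j ≤ n + 1 → |E3 n P ρ l j (fun a b c => F a c * R b c) -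
      prof n P ρ F j * r j| ≤ τ * M + D j := fun j hj hj' => by
    have := k (i := l) (j := j) (fun a _ c => F a c) (fun _ b c => R b c) (r j)
    rw [E3_13 hj, E3_13 hj fun a b => F a b ^ 2,
      E3_23 hj fun c b => (R c b - r j) ^ 2] at this
    exact this.trans (add_le_add (mul_le_mul_of_nonneg_left (hM j hj') hτ.le) le_rfl)
  have := comb_le (D := D) hl
    (kx 0 (Nat.zero_le l)) (ky 0 (Nat.zero_le l)) (fun j hj => kx j (mem_Icc.mp hj).2)
    (fun j hj => ky j (mem_Icc.mp hj).2) (kz l le_rfl hl)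
    (fun j hj => kz j (by have := mem_Icc.mp hj; omega) (mem_Icc.mp hj).2) rfl
  convert this using 2
  · simp only [Rp, star, cum, sum_sub_distrib, ← sum_mul, ← mul_sum]
    ring
  · simp only [hD, ← sum_div]
    ring

/-! ### Comonotone responses -/

theorem E_comono (μ : PW Ω) {F G : Ω → ℝ} (h : ∀ x y, 0 ≤ (F x - F y) * (G x - G y)) :
    μ.E F * μ.E G ≤ μ.E fun x => F x * G x := by
  have h1 : 0 ≤ μ.E fun x => μ.E fun y => (F x - F y) * (G x - G y) :=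
    E_nonneg _ fun x => E_nonneg _ fun y => h x y
  simp only [sub_mul, mul_sub, E_sub, E_const, E_const_mul, E_mul_const] at h1
  linarith

theorem resp_comono {F G : Ω → ℝ} (h : ∀ x y, 0 ≤ (F x - F y) * (G x - G y)) :
    wt n * ∑ j ∈ Icc 1 (n + 1), E2 n P ρ j (fun x y => F x * G y) ≤
      Eh n P ρ 0 fun x => F x * G x := by
  rw [← wt_sum n (Eh n P ρ 0 _)]
  refine mul_le_mul_of_nonneg_left (sum_le_sum fun j hj => ?_) (wt_pos n).le
  rw [E2_mul, ← Eh_A (Nat.zero_le j) (mem_Icc.mp hj).2]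
  exact Eh_mono fun ω => E_comono _ h

/-! ### Continuity in a parameter -/

section cont
variable {Y : Type} [TopologicalSpace Y]

theorem cont_E' {m : Y → PW Ω} {f : Y → Ω → ℝ} (hm : ∀ ω, Continuous fun x => (m x).w ω)
    (hf : ∀ ω, Continuous fun x => f x ω) : Continuous fun x => (m x).E (f x) :=
  continuous_finsetSum _ fun ω _ => (hm ω).mul (hf ω)

theorem cont_X {a : ℕ → ℝ} {G : Y → Ω → ℝ} (hG : ∀ ω, Continuous fun x => G x ω) (p : ℕ) :
    ∀ ω, Continuous fun x => X a P 0 (G x) p ω := by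
  induction p with
  | zero => exact hG
  | succ p ih =>
    intro ω
    simp only [X_succ (Nat.zero_le p), lam]
    refine (Continuous.log (cont_E' (fun _ => continuous_const) fun ω => ?_) fun x =>
      (E_pos _ fun _ => Real.exp_pos _).ne').div_const _
    have := ih ω
    fun_prop

/-- A continuous family of chains. -/
def CC (Q : Y → Ch Ω) : Prop := ∀ p ω ω', Continuous fun x => (Q x p ω).w ω'

theorem cc_Tn {G : Y → Ω → ℝ} (hG : ∀ ω, Continuous fun x => G x ω) :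
    CC fun x => Tn n P (G x) := fun p ω ω' => by
  simp only [Tn, T_of_le (Nat.zero_le p), tilt]
  have h := cont_X (P := P) (a := al n) hG p
  refine Continuous.div (by have := h ω'; fun_prop) (cont_E' (fun _ => continuous_const)
    fun ω => by have := h ω; fun_prop) fun x => (E_pos _ fun _ => Real.exp_pos _).ne'

variable {Q : Y → Ch Ω}

theorem CC.A (h : CC Q) {F : Y → Ω → ℝ} (hF : ∀ ω, Continuous fun x => F x ω) (j p : ℕ) :
    ∀ ω, Continuous fun x => A (Q x) j p (F x) ω := by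
  induction p using ht_induction (j := j) with
  | h0 p hp => simpa only [A_of_le hp] using hF
  | hs p hp ih => intro ω; simp only [A_succ hp]; exact cont_E' (h p ω) ih

theorem cont_Fr {G : Y → Ω → ℝ} (hG : ∀ ω, Continuous fun x => G x ω) :
    Continuous fun x => Fr n P ρ (G x) :=
  cont_E' (fun _ => continuous_const) (cont_X hG _)

theorem CC.Eh (h : CC Q) {F : Y → Ω → ℝ} (hF : ∀ ω, Continuous fun x => F x ω) (j : ℕ) :
    Continuous fun x => Eh n (Q x) ρ j (F x) :=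
  cont_E' (fun _ => continuous_const) (h.A hF _ _)

theorem CC.E2 (h : CC Q) {F : Y → Ω → Ω → ℝ} (hF : ∀ a b, Continuous fun x => F x a b) (j : ℕ) :
    Continuous fun x => E2 n (Q x) ρ j (F x) :=
  h.Eh (fun ω => h.A (fun a => h.A (hF a) _ _ ω) _ _ ω) j

theorem CC.E3 (h : CC Q) {F : Y → Ω → Ω → Ω → ℝ} (hF : ∀ a b c, Continuous fun x => F x a b c)
    (j l : ℕ) : Continuous fun x => E3 n (Q x) ρ j l (F x) :=
  h.Eh (fun ω => h.A (fun c => h.A (fun ω' => h.A (fun a => h.A (fun b => hF a b c) _ _ ω')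
    _ _ ω') _ _ ω) _ _ ω) l

theorem CC.Rp (h : CC Q) {F : Y → Ω → Ω → Ω → ℝ} (hF : ∀ a b c, Continuous fun x => F x a b c)
    (l : ℕ) : Continuous fun x => Rp n (Q x) ρ l (F x) := by
  have h1 := fun j => h.E3 (n := n) (ρ := ρ) (F := fun x a b c => F x a c b)
    (fun a b c => hF a c b) j l
  have h2 := fun j => h.E3 (n := n) (ρ := ρ) (F := fun x a b c => F x c a b)
    (fun a b c => hF c a b) j l
  have h3 := fun j => h.E3 (n := n) (ρ := ρ) hF l j
  exact (((((h1 0).add (h2 0)).sub (continuous_const.mul (continuous_finsetSum _ fun j _ =>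
    h1 j))).sub (continuous_const.mul (continuous_finsetSum _ fun j _ => h2 j))).sub
    (continuous_const.mul (h3 l))).sub (continuous_const.mul (continuous_finsetSum _ fun j _ =>
    h3 j))

theorem CC.dev (h : CC Q) {F : Y → ℕ → Ω → Ω → ℝ} (hF : ∀ j a b, Continuous fun x => F x j a b) :
    Continuous fun x => dev n (Q x) ρ (F x) := by
  have h1 := fun j => h.E2 (n := n) (ρ := ρ) (F := fun x a b => |F x j a b|)
    (fun a b => (hF j a b).abs) j
  exact continuous_const.mul (continuous_finsetSum _ fun j _ => h1 j)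

end cont

/-- The law of the bottom state. -/
noncomputable def law (n : ℕ) (P : Ch Ω) (ρ : PW Ω) : PW Ω := ρ.bind (B P 0 (n + 1))

theorem law_E (F : Ω → ℝ) : (law n P ρ).E F = Eh n P ρ 0 F := E_bind _ _ _

theorem CC.law {Y : Type} [TopologicalSpace Y] {Q : Y → Ch Ω} (h : CC Q) (ω : Ω) :
    Continuous fun x => (law n (Q x) ρ).w ω := by
  simp only [w_eq_E, law_E]
  exact h.Eh (fun _ => by exact continuous_const) 0

end Vale.Agent.P166.W
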