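import Vale.Agent.P166.UBb
import Vale.Agent.P157.Ising

/-!
# P166: the upper bound
-/

namespace Vale.Agent.P166

open MeasureTheory Finset Vale.Agent.P168 Vale.Agent.P168.PW Vale.Agent.P157 Function Filter Topology
open scoped BigOperators
open UBa

set_option synthInstance.maxSize 4096

namespace UBa

/-- interpolation times -/
noncomputable def tm (M m : ℕ) : ℝ := (min m M : ℕ) / M

theorem tm_mem (M m : ℕ) : 0 ≤ tm M m ∧ tm M m ≤ 1 :=
  ⟨by unfold tm; positivity, div_le_one_of_le₀ (by exact_mod_cast min_le_right m M)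
    (Nat.cast_nonneg _)⟩

theorem tm_step (M m : ℕ) : |tm M (m + 1) - tm M m| ≤ 1 / M := by
  rw [tm, tm, ← sub_div, abs_div, Nat.abs_cast]
  refine div_le_div_of_nonneg_right ?_ (Nat.cast_nonneg _)
  have : |((min (m + 1) M : ℕ) : ℤ) - (min m M : ℕ)| ≤ 1 := by
    rw [abs_le]
    omega
  exact_mod_cast this

theorem tm_le {M m : ℕ} (h : m ≤ M) : tm M m = m / M := by rw [tm, min_eq_left h]

theorem win_zero {J : Type} (b : J → ℝ) (z : J → Fin 1) : win b 0 z = b := by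
  funext j
  simp [win]

theorem wz_lip {n K R : ℕ} [NeZero R] {I 𝒞 : Type} [Fintype I] [DecidableEq I] [DecidableEq 𝒞]
    (hK : 0 < K) (cl : I → 𝒞) (κ : 𝒞 → ℝ) (top : 𝒞) (B : I → Fin (n + 1) → ℝ) {η : ℝ}
    (hη : 0 ≤ η) (h1 : (n + 1) * (2 * η) ^ 2 ≤ 1) (z : Option (Fin (n + 1)) → Fin R) :
    |(unif (Option (Fin (n + 1)) → Fin R)).E (fun z => (sy K cl κ top B (wz η z)).F) -
      (sy K cl κ top B (wz η z)).F| ≤ Fintype.card I * (3 * ((n + 2) * η)) := by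
  have h0 : 0 ≤ η / R := by positivity
  have m : ∀ z : Option (Fin (n + 1)) → Fin R, ∑ l, wz η z (some l) ^ 2 ≤ 1 := fun z =>
    (sum_sq_le_of_mem (η := η) fun j => by
      constructor <;> linarith [wz_mem hη z j]).trans h1
  rw [← E_sub_const]
  refine abs_E_le_const _ fun z' => (sy_lip hK cl κ top B (m z) (m z')).trans ?_
  have : ∑ j, |wz η z' j - wz η z j| ≤ (n + 2) * η := by
    refine (sum_le_card_nsmul _ _ η fun j _ => abs_le.2 ?_).trans_eq (by simp; left; ring)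
    constructor <;> linarith [wz_mem hη z j, wz_mem hη z' j]
  rw [mul_comm 3, mul_assoc]
  gcongr

theorem core {𝒞 : Type} [Fintype 𝒞] [DecidableEq 𝒞] {lam : 𝒞 → ℝ} {top : 𝒞} {n N K M R : ℕ}
    [NeZero R] (cl : Fin N → 𝒞) (O : ℝ → ℝ) {p : ℕ → ℝ} {β Λ η c s ε e η' B h δ : ℝ}
    (hK : 0 < K) (hN : 0 < N) (hM : 0 < M) (hβ : 0 ≤ β) (hΛ : ∀ j, |lam j| ≤ Λ) (hp : Adm n p)
    (hc : ∀ j, 0 < (tp cl j).card) (hη : 0 ≤ η) (hη1 : (n + 1) * (2 * η) ≤ 1) (hη2 : 2 * η ≤ ε)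
    (hO0 : O 0 = 0) (hO : ∀ m, |O (tm M (m + 1)) - O (tm M m)| ≤ c / 2) (hc1 : β * Λ / M ≤ c)
    (he0 : 0 ≤ e) (he1 : e ≤ 1) (he : 2 * e ≤ δ / 4) (hη' : 0 < η') (hη'1 : η' ≤ 1)
    (hη'2 : (n + 1) * (3 / 2 * η' ^ 2) ≤ ε) (hB : 1 ≤ B) (hh : 0 < h) (hh1 : h ≤ 1)
    (hh2 : 3 / 2 * h ≤ δ / 4 * η') (hB2 : s + 3 * ε + 2 * M * c + 2 * c ≤ e * (B - 1) ^ 2)
    (k0 : h + N * (3 * c + 6 * ((n + 2) * η)) ≤ δ / 2 * (η' * h) * N)
    (k1 : B * (1 / Real.sqrt K) ≤ 1 / 2) (k2 : N * (100 * B ^ 2 * (1 / Real.sqrt K)) ≤ 1)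
    (hps : ∀ b : Fin (n + 1) → ℝ, (∀ l, 0 ≤ b l ∧ b l ≤ B + 1) →
      ps K (Fin N) 0 b ≤ N * (s + ε) + N / 2 * ∑ l, b l ^ 2 * (1 - cum n p l))
    (hst : ∀ m < M, ∀ b : Fin (n + 1) → ℝ, (∀ (z : Option (Fin (n + 1)) → Fin R) l, l ≤ n →
      cum n p l ≤ cum n (fun l => ∑ j, fq cl j * rc (sy K cl
        (fun j => ((m : ℝ) + 1) / M * β * lam j) top (fun _ => b) (wz η z)) cl j l) l + δ) →
      (unif (Option (Fin (n + 1)) → Fin R)).E (fun z => (∑ j, fq cl j * (β * lam j) * rc (sy K cl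
        (fun j => ((m : ℝ) + 1) / M * β * lam j) top (fun _ => b) (wz η z)) cl j 0) / 2 / M) ≤
        O (((m : ℝ) + 1) / M) - O ((m : ℝ) / M) + 2 * ε / M) :
    ∫ U, press β (fun i => lam (cl i)) U ∂(hr (Fin N)) ≤ O 1 + s + 5 * ε := by
  have hN' : (0 : ℝ) < N := by exact_mod_cast hN
  have hM' : (0 : ℝ) < M := by exact_mod_cast hM
  have hI : 0 < Fintype.card (Fin N) := by simpa using hN
  have hΛ0 : 0 ≤ Λ := (abs_nonneg _).trans (hΛ top)
  have hc0 : 0 ≤ c := le_trans (by positivity) hc1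
  have hε : 0 ≤ ε := le_trans (by positivity) hη2
  have hη3 : (n + 1) * (2 * η) ^ 2 ≤ 2 * η := by
    rw [sq, ← mul_assoc]
    exact mul_le_of_le_one_left (by positivity) hη1
  have hη4 : 2 * η ≤ 1 := le_trans (le_mul_of_one_le_left (by positivity) (by simp)) hη1
  have h0 : 0 ≤ η / R := by positivity
  have wm : ∀ (z : Option (Fin (n + 1)) → Fin R) j, 0 ≤ wz η z j ∧ wz η z j ≤ 2 * η :=
    fun z j => by constructor <;> linarith [wz_mem hη z j]
  have wg : ∀ z : Option (Fin (n + 1)) → Fin R, ∑ l, wz η z (some l) ^ 2 ≤ 2 * η := fun z =>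
    (sum_sq_le_of_mem (wm z)).trans hη3
  have cp : ∀ l, l ≤ n + 1 → 0 ≤ cum n p l ∧ cum n p l ≤ 1 := fun l hl =>
    ⟨cum_nonnegUB fun j _ hj => hp.2.nonneg (hj.trans hl),
      cum_le_oneUB hl fun j _ hj => hp.le_one (hj.trans hl)⟩
  obtain ⟨F, hF⟩ : ∃ F : ℕ → (Fin (n + 1) → ℝ) → (Option (Fin (n + 1)) → Fin R) → ℝ,
      ∀ m b z, F m b z = (sy K cl (fun j => tm M m * β * lam j) top (fun _ => b) (wz η z)).F :=
    ⟨_, fun _ _ _ => rfl⟩
  have F1 : ∀ m b z, |F (m + 1) b z - F m b z| ≤ N * c / 2 := fun m b z => by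
    rw [hF, hF]
    refine (F_κ_abs (d := c) _ fun j => ?_).trans_eq (by rw [Fintype.card_fin])
    rw [← sub_mul, ← sub_mul, abs_mul, abs_mul, abs_of_nonneg hβ]
    refine le_trans ?_ hc1
    rw [mul_assoc, div_eq_inv_mul, ← one_div]
    exact mul_le_mul (tm_step M m) (mul_le_mul_of_nonneg_left (hΛ j) hβ) (by positivity)
      (by positivity)
  have F0 := fun b z => (hF 0 b z).symm ▸ F_zero (cl := cl) (top := top) (b := b)
    (κ := fun j => tm M 0 * β * lam j) hK ((wg z).trans hη4) (wm z none).1 fun j => by simp [tm]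
  have t0 : tm M 0 = 0 := by simp [tm]
  have t1 : tm M M = 1 := by rw [tm_le le_rfl, div_self hM'.ne']
  have hs : N * ((n + 1) * (3 / 2 * η' ^ 2)) ≤ N * ε := mul_le_mul_of_nonneg_left hη'2 hN'.le
  have main := optUB (R := 1) (fun m b => (unif _).E (F m b) - N * O (tm M m))
    (fun l => 1 - cum n p l) M (c := N * c) (A := N * (s + 2 * ε)) (N := N) (e := e) (η := η')
    (B := B) (h := h) (g := 0) (Lp := ∑ ω : Oa n K (Fin N), ∑ l, |∑ i, own l i ω|)
    (φ := N * (2 * ε / M)) hN'.le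
    (fun l => by constructor <;> linarith only [cp l l.2.le]) he0 he1 hη'.le (hη'1.trans hB) hB
    hh.le hh1 le_rfl (by simp) (by positivity)
    (le_trans (neg_nonpos.2 (by positivity)) (by positivity)) (fun m b => ?_) (fun b => ?_)
    (fun b hb => ?_) (fun b => ?_) (fun m b b' _ => ?_) ?_ fun m hm b hb H => ?_
  · simp only [zero_mul, mul_zero, Fintype.card_fin, ne_eq, OfNat.ofNat_ne_zero, not_false_eq_true,
      zero_pow, zero_div, add_zero, zero_add, t1] at main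
    push_cast at main
    have a1 := const_le_E (unif _) (F := F M 0) fun z => (hF M 0 z).symm ▸
      press_le (κ := fun j => tm M M * β * lam j) (top := top) hN hK β lam cl ((wg z).trans hη4)
        (wm z none).1 fun j => by rw [t1, one_mul]
    have a2 : M * (N * (2 * ε / M)) = N * (2 * ε) := by field_simp
    refine le_of_mul_le_mul_left ?_ hN'
    linarith only [main, a1, a2, hs]
  · have a1 := abs_le.1 (abs_E_sub_le_const (unif _) (F1 m b))
    have a2 := abs_le.1 (hO m)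
    have a3 := mul_le_mul_of_nonneg_left a2.1 hN'.le
    have a4 := mul_le_mul_of_nonneg_left a2.2 hN'.le
    rw [abs_le]
    constructor <;> linarith only [a1.1, a1.2, a3, a4]
  · rw [t0, hO0, mul_zero, sub_zero]
    exact E_nonneg _ fun z => (F0 b z).1
  · rw [t0, hO0, mul_zero, sub_zero]
    refine E_le_const _ fun z => (F0 b z).2.trans ?_
    have a1 := mul_le_mul_of_nonneg_left (add_le_add ((wm z none).2.trans hη2)
      ((wg z).trans hη2)) hN'.le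
    rw [Fintype.card_fin]
    linarith only [a1, hps b hb]
  · refine sub_le_sub_right (E_mono _ fun z => ?_) _
    rw [hF, hF]
    exact F_b_zero
  · rw [sub_sub_sub_cancel_right, ← E_sub]
    refine E_le_const _ fun z => ?_
    rw [hF, hF]
    exact F_b_lip
  · simp only [zero_mul, mul_zero, Fintype.card_fin, ne_eq, OfNat.ofNat_ne_zero, not_false_eq_true,
      zero_pow, zero_div, add_zero, zero_add]
    push_cast
    linarith only [hs, mul_le_mul_of_nonneg_left hB2 hN'.le]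
  simp only [win_zero, E_const, zero_mul, mul_zero, add_zero, forall_const,
    sub_sub_sub_cancel_right] at H ⊢
  have e1 : tm M (m + 1) = ((m : ℝ) + 1) / M := by rw [tm_le hm]; push_cast; rfl
  have e0 : tm M m = (m : ℝ) / M := tm_le hm.le
  have lip : ∀ b z, |(unif _).E (F m b) - F m b z| ≤ N * (3 * ((n + 2) * η)) := fun b z => by
    rw [funext (hF m b)]
    simpa only [Fintype.card_fin] using wz_lip hK cl _ top _ hη (hη3.trans hη4) z
  have a1 := hst m hm b fun z l hl => by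
    rw [← e1, funext (rc_sum _ hc)]
    refine cum_le hK hI ((wg z).trans hη4) k1 (by simpa only [Fintype.card_fin] using k2)
      ⟨l, Nat.lt_succ_of_le hl⟩ (hb _) hh hη' (cp l (by omega)).1 he1 he hh2
      (E := N * (3 * c + 6 * ((n + 2) * η))) (by simpa only [Fintype.card_fin] using k0) ?_
    rw [← hF, ← hF, Fintype.card_fin]
    linarith only [H ⟨l, Nat.lt_succ_of_le hl⟩, (abs_le.1 (lip b z)).2,
      (abs_le.1 (lip (b + Pi.single ⟨l, Nat.lt_succ_of_le hl⟩ h) z)).1, (abs_le.1 (F1 m b z)).1,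
      (abs_le.1 (F1 m (b + Pi.single ⟨l, Nat.lt_succ_of_le hl⟩ h) z)).2]
  have a2 : ∀ z, F (m + 1) b z ≤ F m b z + N * ((∑ j, fq cl j * (β * lam j) * rc (sy K cl
      (fun j => ((m : ℝ) + 1) / M * β * lam j) top (fun _ => b) (wz η z)) cl j 0) / 2 / M) :=
    fun z => by
      rw [hF, hF, e1, e0]
      refine (inc (κ := fun j => (m : ℝ) / M * β * lam j) _ hI hc).trans (le_of_eq ?_)
      rw [Fintype.card_fin, div_right_comm, sum_div _ _ (M : ℝ)]
      refine congrArg (_ + ·) (congrArg (fun x => (N : ℝ) * (x / 2)) (sum_congr rfl fun j _ => ?_))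
      ring
  have a3 := E_mono (unif _) a2
  rw [E_add, E_const_mul] at a3
  rw [e1, e0]
  linarith only [a3, mul_le_mul_of_nonneg_left a1 hN'.le]

end UBa

theorem ubF {𝒞 : Type} [Fintype 𝒞] [DecidableEq 𝒞] {w lam : 𝒞 → ℝ} {top : 𝒞}
    (h : Cls w lam top) {β : ℝ} (hβ : 0 ≤ β) {ε : ℝ} (hε : 0 < ε) : ∃ n0 : ℕ, ∀ n, n0 ≤ n →
    ∀ t ∈ trial (Rf w lam (lam top)) β n, ∀ cl : ∀ N : ℕ, Fin N → 𝒞,
      (∀ j, Tendsto (fun N => fq (cl N) j) atTop (𝓝 (w j))) →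
      ∀ᶠ N in atTop, ∫ U, press β (fun i => lam (cl N i)) U ∂(hr (Fin N)) ≤ t + ε := by
  obtain ⟨ε, rfl⟩ : ∃ ε' : ℝ, ε = 5 * ε' := ⟨ε / 5, by ring⟩
  replace hε : 0 < ε := by linarith
  obtain ⟨Λ, hΛ⟩ : ∃ Λ : ℝ, ∀ j, |lam j| ≤ Λ :=
    ⟨_, fun j => single_le_sum (f := fun j => |lam j|) (fun _ _ => abs_nonneg _) (mem_univ j)⟩
  have hΛ0 : 0 ≤ Λ := (abs_nonneg _).trans (hΛ top)
  obtain ⟨w0, hw0, hw⟩ : ∃ w0 : ℝ, 0 < w0 ∧ ∀ j, w0 ≤ w j := by
    obtain ⟨j, -, hj⟩ := exists_min_image univ w ⟨top, mem_univ _⟩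
    exact ⟨w j, h.pos j, fun i => hj i (mem_univ i)⟩
  obtain ⟨X, hX0, hX⟩ : ∃ X : ℝ, 0 < X ∧ X * w0 = 4 := ⟨4 / w0, by positivity, by field_simp⟩
  obtain ⟨δ, hδ, M0, hub⟩ := ub1 h hβ X hε
  obtain ⟨MW, hMW, hgood⟩ := good X (β * Λ)
  obtain ⟨τ, hτ, hτ1, hτ2, hτ3⟩ : ∃ τ : ℝ, 0 < τ ∧ τ ≤ 1 ∧ τ ≤ δ ∧ MW * (3 * τ) ≤ δ := by
    obtain ⟨x, hx, H⟩ := smallUB (MW * 3) δ hδ
    have : 0 < min (min 1 δ) x := by positivity
    exact ⟨_, this, (min_le_left _ _).trans (min_le_left _ _),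
      (min_le_left _ _).trans (min_le_right _ _),
      (mul_assoc _ _ _).ge.trans (H _ this.le (min_le_right _ _))⟩
  obtain ⟨θ, hθ, hθ1, hθ2⟩ : ∃ θ : ℝ, 0 < θ ∧ θ ≤ τ ∧ β * Λ * θ ≤ ε * τ := by
    obtain ⟨x, hx, H⟩ := smallUB (β * Λ) (ε * τ) (by positivity)
    have : 0 < min τ x := by positivity
    exact ⟨_, this, min_le_left _ _, H _ this.le (min_le_right _ _)⟩
  obtain ⟨n0, hav⟩ := avdv X (β * Λ) θ hθ
  obtain ⟨n1, hn1⟩ := exists_nat_gt (1 / δ)
  refine ⟨max n0 n1, fun n hn => ?_⟩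
  rintro _ ⟨p, s, hp, hs, rfl⟩ cl hcl
  have hwt : wt n ≤ δ := by
    have : (n1 : ℝ) ≤ n := by exact_mod_cast le_of_max_le_right hn
    rw [div_lt_iff₀ hδ] at hn1
    rw [wt, div_le_iff₀ (by positivity)]
    nlinarith
  obtain ⟨e, he0, he1, he⟩ : ∃ e : ℝ, 0 < e ∧ e ≤ 1 ∧ 2 * e ≤ δ / 4 :=
    ⟨min 1 (δ / 8), by positivity, min_le_left _ _, by linarith [min_le_right 1 (δ / 8)]⟩
  obtain ⟨η', hη', hη'1, hη'2⟩ : ∃ η : ℝ, 0 < η ∧ η ≤ 1 ∧ (n + 1) * (3 / 2 * η ^ 2) ≤ ε := by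
    obtain ⟨x, hx, h⟩ := smallUB ((n + 1) * (3 / 2)) ε hε
    refine ⟨min 1 x, by positivity, min_le_left _ _, ?_⟩
    rw [← mul_assoc]
    refine h _ (by positivity) (le_trans ?_ (min_le_right 1 x))
    exact pow_le_of_le_one (by positivity) (min_le_left _ _) two_ne_zero
  obtain ⟨g, hg, hg1, hg2⟩ : ∃ g : ℝ, 0 < g ∧ g ≤ 1 ∧ 3 / 2 * g ≤ δ / 4 * η' := by
    obtain ⟨x, hx, h⟩ := smallUB (3 / 2) (δ / 4 * η') (by positivity)
    exact ⟨min 1 x, by positivity, min_le_left _ _, h _ (by positivity) (min_le_right _ _)⟩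
  obtain ⟨c, hc, hc'⟩ : ∃ c : ℝ, 0 < c ∧ δ / 2 * (η' * g) = 5 * c :=
    ⟨δ / 2 * (η' * g) / 5, by positivity, by ring⟩
  obtain ⟨η, hη, hη1, hη2, hη3⟩ : ∃ η : ℝ, 0 < η ∧ (n + 1) * (2 * η) ≤ τ ∧ 2 * η ≤ ε ∧
      6 * ((n + 2) * η) ≤ c := by
    obtain ⟨x, hx, h⟩ := smallUB (6 * (n + 2)) (min τ (min ε c)) (by positivity)
    have h1 := h x hx.le le_rfl
    have h2 : 0 ≤ n * x := by positivity
    simp only [le_min_iff] at h1
    exact ⟨x, hx, by linarith [h1.1], by linarith [h1.2.1], by linarith [h1.2.2]⟩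
  have hη4 : 2 * η ≤ τ := le_trans (le_mul_of_one_le_left (by positivity) (by simp)) hη1
  have hη5 : (n + 1) * (2 * η) ^ 2 ≤ τ ^ 2 := by
    rw [sq, ← mul_assoc, sq]
    exact mul_le_mul hη1 hη4 (by positivity) hτ.le
  obtain ⟨R, _, N0, hav⟩ := hav n (le_of_max_le_left hn) η hη (hη5.trans (pow_le_one₀ hτ.le hτ1))
  obtain ⟨d, hd, huc⟩ := orth_uc h hβ hp (half_pos hc)
  obtain ⟨M1, hM1⟩ := exists_nat_gt (max (1 / d) (β * Λ / c))
  obtain ⟨M, hMa, hMb⟩ : ∃ M, M0 ≤ M ∧ M1 ≤ M := ⟨_, le_max_left _ _, le_max_right _ _⟩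
  replace hM1 := hM1.trans_le (Nat.cast_le.2 hMb)
  have hM : (0 : ℝ) < M := lt_of_le_of_lt (le_max_of_le_left (by positivity)) hM1
  obtain ⟨B, hB, hB2⟩ : ∃ B : ℝ, 1 ≤ B ∧ s + 3 * ε + 2 * M * c + 2 * c ≤ e * (B - 1) ^ 2 := by
    generalize s + 3 * ε + 2 * M * c + 2 * c = t
    refine ⟨max 1 (t / e) + 1, by linarith [le_max_left 1 (t / e)], ?_⟩
    rw [add_sub_cancel_right, ← div_le_iff₀' he0]
    exact (le_max_right 1 _).trans (le_self_pow₀ (le_max_left _ _) two_ne_zero)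
  obtain ⟨K1, hK1⟩ := psi_limIsing n ((n + 1) * (B + 1) ^ 2) ε hε
  have hfq : ∀ᶠ N in atTop, ∀ j, |fq (cl N) j - w j| ≤ min δ (w0 / 2) :=
    eventually_all.2 fun j => ((Metric.tendsto_nhds.1 (hcl j)) _ (by positivity)).mono
      fun N hN => hN.le
  filter_upwards [hfq, eventually_ge_atTop N0,
    tendsto_natCast_atTop_atTop.eventually_gt_atTop (max (X / τ) (g / c))] with N a1 a2 a3
  have a4 : X < τ * N := (div_lt_iff₀' hτ).1 ((le_max_left _ _).trans_lt a3)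
  have a5 : g < c * N := (div_lt_iff₀' hc).1 ((le_max_right _ _).trans_lt a3)
  have hN : (0 : ℝ) < N := lt_of_le_of_lt (le_max_of_le_left (by positivity)) a3
  have a6 : X < N := a4.trans_le (mul_le_of_le_one_left hN.le hτ1)
  have a7 : ∀ j, (N : ℝ) ≤ X * ((tp (cl N) j).card - 1) := fun j => by
    have b1 := (abs_le.1 ((a1 j).trans (min_le_right _ _))).1
    have b2 : w0 / 2 ≤ ((tp (cl N) j).card : ℝ) / N := by
      have : fq (cl N) j = ((tp (cl N) j).card : ℝ) / N := by rw [fq, Fintype.card_fin]; rfl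
      linarith only [b1, this, hw j]
    rw [le_div_iff₀ hN] at b2
    have b3 := mul_le_mul_of_nonneg_left b2 hX0.le
    have b4 : X * (w0 / 2 * N) = 2 * N := by rw [← mul_assoc, ← mul_div_assoc, hX]; ring
    linarith only [b3, b4, a6]
  obtain ⟨K0, hav⟩ := hav N a2
  obtain ⟨K2, hK2⟩ := largeKUB B (1 / 2) (by positivity)
  obtain ⟨K3, hK3⟩ := largeKUB (N * (100 * B ^ 2)) 1 one_pos
  obtain ⟨K4, hK4⟩ := largeKUB ((N : ℝ) ^ 3) τ hτ
  obtain ⟨K, k0, k1, k2, k3, k4⟩ : ∃ K, K0 ≤ K ∧ K1 ≤ K ∧ K2 ≤ K ∧ K3 ≤ K ∧ K4 ≤ K :=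
    ⟨K0 + K1 + K2 + K3 + K4, by omega⟩
  obtain ⟨hK, hK2⟩ := hK2 K k2
  replace hK3 := (hK3 K k3).2
  replace hK4 := (div_le_iff₀ (Real.sqrt_pos.2 (by exact_mod_cast hK))).1 (hK4 K k4).2
  have hX1 : |X| < N := by rwa [abs_of_pos hX0]
  have hcl' : ∀ j, 0 < (tp (cl N) j).card := fun j => by
    exact_mod_cast one_pos.trans_le (cls_size hX1 (Nat.cast_nonneg _) (a7 j)).2.1
  have := core (K := K) (M := M) (R := R) (top := top) (cl N)
    (fun t => orth (Rf w lam (lam top)) (t * β) n p) (s := s) hK (by exact_mod_cast hN)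
    (by exact_mod_cast hM) hβ hΛ hp hcl' hη.le (hη1.trans hτ1) hη2 (by simp [orth])
    (fun m => huc _ _ (tm_mem _ _).1 (tm_mem _ _).2 (tm_mem _ _).1 (tm_mem _ _).2
      ((tm_step M m).trans_lt ((one_div_lt hM hd).2 ((le_max_left _ _).trans_lt hM1))))
    ((div_le_comm₀ hM hc).2 ((le_max_right _ _).trans hM1.le)) he0.le he1 he hη' hη'1 hη'2 hB hg
    hg1 hg2 hB2 (by rw [hc']; linarith only [a5, mul_le_mul_of_nonneg_left hη3 hN.le])
    (by rwa [mul_one_div]) (by rwa [mul_one_div, ← mul_div_assoc]) (fun b hb => ?_)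
    fun m hm b H => ?_
  · rwa [one_mul] at this
  · have b1 := ps_eq (n := n) (K := K) (I := Fin N) (v := fun _ => 0) rfl (UBB.ext0 b)
    have b2 : (fun l : Fin (n + 1) => UBB.ext0 b l) = b := funext fun l => dif_pos l.2
    have b3 := (abs_le.1 (hK1 K k1 K k1 _ (UBB.ext0 b) (fun _ _ => le_rfl) (by
      have := UBB.sum_tv b fun _ => 1
      simp only [mul_one] at this
      rw [this]
      refine (sum_le_sum fun l _ => pow_le_pow_left₀ (hb l).1 (hb l).2 2).trans (le_of_eq ?_)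
      simp) N)).2
    have b4 := spin_leIsing hs (tv_nonnegIsing (v := fun _ => 0) (fun _ _ => le_rfl) (UBB.ext0 b))
    rw [pen, UBB.sum_tv b fun l => 1 - cum n p l] at b4
    rw [b2, Real.sqrt_zero] at b1
    rw [← b1] at b3
    change ps K (Fin N) 0 b - _ ≤ _ at b3
    linarith only [b3, mul_le_mul_of_nonneg_left b4 hN.le]
  have c1 : 0 ≤ ((m : ℝ) + 1) / M * β := by positivity
  have c2 : ((m : ℝ) + 1) / M * β ≤ β :=
    mul_le_of_le_one_left hβ ((div_le_one hM).2 (by exact_mod_cast hm))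
  have hκ : ∀ j, |((m : ℝ) + 1) / M * β * lam j| ≤ β * Λ ∧
      ((m : ℝ) + 1) / M * β * lam j ≤ ((m : ℝ) + 1) / M * β * lam top := fun j =>
    ⟨by rw [abs_mul, abs_of_nonneg c1]; exact mul_le_mul c2 (hΛ j) (abs_nonneg _) hβ,
      mul_le_mul_of_nonneg_left (h.le j) c1⟩
  have hI : 0 < Fintype.card (Fin N) := by simpa using hN
  have h0 : 0 ≤ η / R := by positivity
  have wm : ∀ (z : Option (Fin (n + 1)) → Fin R) j, 0 ≤ wz η z j ∧ wz η z j ≤ 2 * η :=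
    fun z j => by constructor <;> linarith only [wz_mem hη.le z j, hη, h0]
  refine (markov _ (L := β * Λ / 2 / M) (Δ := orth (Rf w lam (lam top)) ((m + 1) / M * β) n p -
    orth (Rf w lam (lam top)) (m / M * β) n p + ε / M) hτ hθ1 (fun z => ?_)
    (fun z => Sys.dv_nonneg _ _) (hav K k0 𝒞 (cl N) _ top (fun _ => b) hκ a7)
    fun z hz => ?_).trans ?_
  · rw [abs_div, abs_div, abs_of_pos hM, abs_two]
    gcongr
    exact abs_D (fun j => by unfold fq; positivity) (fun j => rc_nonneg _ j) (rc_one _ hI hcl')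
      fun j => by rw [abs_mul, abs_of_nonneg hβ]; exact mul_le_mul_of_nonneg_left (hΛ j) hβ
  · obtain ⟨d1, d2⟩ := hgood n K (Fin N) 𝒞 (cl N) _ top (fun _ => b) (wz η z) τ τ hK
      ((sum_sq_le_of_mem (wm z)).trans hη5) hτ.le hτ1 (wm z none).1
      ((wm z none).2.trans (hη4.trans hτ1)) hκ (by simpa only [Fintype.card_fin] using hX1)
      (by simpa only [Fintype.card_fin] using a7) hτ.le
      (by simpa only [Fintype.card_fin] using a4.le) (by simpa only [Fintype.card_fin] using hK4)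
    refine hub M hMa m hm n p _ _ _ _ hp d1 hwt (fun j => (a1 j).trans (min_le_left _ _))
      (fun j => ⟨sub_nonneg.2 (ka_ok hκ (wm z none).1 ((wm z none).2.trans (hη4.trans hτ1)) j).2,
        ?_⟩) (fun j => (d2 j).trans (le_trans ?_ hτ3)) (rc_one _ hI hcl') (H z)
    · have d3 := ka_ge (κ := fun j => ((m : ℝ) + 1) / M * β * lam j) (top := top) _ (wm z none).1 j
      have d4 := ka_ge (κ := fun j => ((m : ℝ) + 1) / M * β * lam j) (top := top) _ (wm z none).1 top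
      rw [abs_le]
      constructor <;> linarith only [d3.1, d3.2, d4.1, d4.2, (wm z none).2, hη4, hτ2]
    · exact mul_le_mul_of_nonneg_left (by linarith only [hz]) hMW
  · have : 2 * (β * Λ / 2 / M) * θ / τ ≤ ε / M := by
      rw [div_le_iff₀ hτ, div_mul_eq_mul_div ε]
      exact le_trans (le_of_eq (by ring)) (div_le_div_of_nonneg_right hθ2 hM.le)
    rw [two_mul ε, add_div ε]
    linarith only [this]

end Vale.Agent.P166
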