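import Vale.Agent.P166.Conv
import Vale.Agent.P166.Fn

/-!
# P166: the scalar inequality of the upper bound
-/

namespace Vale.Agent.P166

open MeasureTheory Finset Vale.Agent.P168 Vale.Agent.P168.PW Vale.Agent.P157 Function Filter Topology
open scoped BigOperators

theorem chiq_wtUB1 (n : ℕ) (p : ℕ → ℝ) (q : ℝ) :
    chiq n p q = 1 - q - wt n * ∑ j ∈ Icc 1 (n + 1), max (p j - q) 0 := by
  rw [chiq, wt]; ring

theorem lin_sumUB1 (n l : ℕ) (p : ℕ → ℝ) (q : ℝ) :
    1 - cum n p l - ze n l * q = 1 - q - wt n * ∑ j ∈ Icc 1 l, (p j - q) := by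
  simp only [cum, W.ze_eq, sum_sub_distrib, sum_const, Nat.card_Icc, Nat.add_sub_cancel,
    nsmul_eq_mul]
  ring

theorem chiq_le_linUB1 {n l : ℕ} (p : ℕ → ℝ) (hl : l ≤ n + 1) (q : ℝ) :
    chiq n p q ≤ 1 - cum n p l - ze n l * q := by
  rw [chiq_wtUB1, lin_sumUB1]
  exact sub_le_sub_left (mul_le_mul_of_nonneg_left ((sum_le_sum fun _ _ => le_max_left _ _).trans
    (sum_le_sum_of_subset_of_nonneg (Icc_subset_Icc_right hl) fun _ _ _ => le_max_right _ _))
    (wt_pos n).le) _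

theorem chiq_eqUB1 {n l : ℕ} {p : ℕ → ℝ} (hl : l ≤ n + 1) {q : ℝ}
    (h1 : ∀ j, 1 ≤ j → j ≤ l → q ≤ p j) (h2 : ∀ j, l + 1 ≤ j → j ≤ n + 1 → p j ≤ q) :
    chiq n p q = 1 - cum n p l - ze n l * q := by
  rw [chiq_wtUB1, lin_sumUB1, ← sum_subset (Icc_subset_Icc_right hl) fun j hj hj' => by
    simp only [mem_Icc] at hj hj'
    exact max_eq_right (sub_nonpos.2 (h2 j (by omega) hj.2))]
  rw [sum_congr rfl fun j hj => max_eq_left (sub_nonneg.2 (h1 j (mem_Icc.1 hj).1 (mem_Icc.1 hj).2))]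

theorem chiq_mem {n : ℕ} {p : ℕ → ℝ} (hp : Adm n p) {q : ℝ} (h0 : 0 ≤ q) (h1 : q ≤ 1) :
    0 ≤ chiq n p q ∧ chiq n p q ≤ 1 := by
  have h2 : ∑ j ∈ Icc 1 (n + 1), max (p j - q) 0 ≤ ∑ _j ∈ Icc 1 (n + 1), (1 - q) :=
    sum_le_sum fun j hj => max_le (by linarith [hp.le_one (mem_Icc.1 hj).2]) (by linarith)
  have h3 : 0 ≤ wt n * ∑ j ∈ Icc 1 (n + 1), max (p j - q) 0 :=
    mul_nonneg (wt_pos n).le (sum_nonneg fun _ _ => le_max_right _ _)
  have h4 := mul_le_mul_of_nonneg_left h2 (wt_pos n).le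
  rw [wt_sum] at h4
  rw [chiq_wtUB1]
  constructor <;> linarith

theorem chiq_cont (n : ℕ) (p : ℕ → ℝ) : Continuous (chiq n p) := by
  unfold chiq
  fun_prop

/-- Integral form of the functional calculus. -/
theorem fc_int {n : ℕ} {X : ℝ} {r : ℕ → ℝ} (h : Pr n X r) {f f' : ℝ → ℝ}
    (hf : ContinuousOn f (Set.Icc 0 X)) (hf' : ContinuousOn f' (Set.Icc 0 X))
    (hd : ∀ x, 0 < x → x < X → HasDerivAt f (f' x) x) :
    fc n f r 0 = ∫ q in (0 : ℝ)..r 0, f' (chiq n r q + (r 0 - 1)) := by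
  have key : ∀ l ∈ range (n + 1), IntervalIntegrable (fun q => f' (chiq n r q + (r 0 - 1)))
      volume (r (l + 1)) (r l) ∧ ∫ q in r (l + 1)..r l, f' (chiq n r q + (r 0 - 1)) =
        (f (chi n r (l + 1)) - f (chi n r l)) / ze n l := fun l hl => by
    have hl' : l ≤ n := by simpa [Nat.lt_succ_iff] using hl
    have hz := W.ze_pos hl'
    have hr := h.mono.1 l hl'
    have e0 := chi_eq r (show l ≤ n + 1 by omega)
    have e1 := W.chi_succ (n := n) r l
    have m0 := h.chi_mem (show l ≤ n + 1 by omega)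
    have m1 := h.chi_mem (show l + 1 ≤ n + 1 by omega)
    have e : Set.EqOn (fun q => f' (chiq n r q + (r 0 - 1)))
        (fun q => f' (r 0 - cum n r l - ze n l * q)) (Set.uIcc (r (l + 1)) (r l)) := fun q hq => by
      rw [Set.uIcc_of_le hr] at hq
      simp only
      rw [chiq_eqUB1 (show l ≤ n + 1 by omega) (fun j _ hj => hq.2.trans (h.mono.anti hj (by omega)))
        fun j h1 h2 => (h.mono.anti h1 h2).trans hq.1]
      congr 1
      ring
    have mp : Set.MapsTo (fun q => r 0 - cum n r l - ze n l * q) (Set.Icc (r (l + 1)) (r l))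
        (Set.Icc 0 X) := fun q hq => by
      constructor <;> nlinarith [hq.1, hq.2]
    have hi : IntervalIntegrable (fun q => f' (r 0 - cum n r l - ze n l * q)) volume (r (l + 1))
        (r l) := (hf'.comp (by fun_prop) mp).intervalIntegrable_of_Icc hr
    refine ⟨hi.congr fun q hq => (e (Set.uIoc_subset_uIcc hq)).symm, ?_⟩
    rw [intervalIntegral.integral_congr e, intervalIntegral.integral_eq_sub_of_hasDerivAt_of_le hr
      (f := fun q => -f (r 0 - cum n r l - ze n l * q) / ze n l)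
      ((hf.comp (by fun_prop) mp).neg.div_const _) (fun q hq => ?_) hi, ← e0,
      show r 0 - cum n r l - ze n l * r (l + 1) = chi n r (l + 1) by linarith]
    · ring
    · refine (((hd _ (by nlinarith [hq.1, hq.2]) (by nlinarith [hq.1, hq.2])).comp q
        (((hasDerivAt_id' q).const_mul (ze n l)).const_sub _)).neg.div_const _).congr_deriv ?_
      field_simp
  have h1 := intervalIntegral.sum_integral_adjacent_intervals (a := r) (n := n + 1)
    fun l hl => (key l (mem_range.2 hl)).1.symm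
  rw [h.top] at h1
  rw [intervalIntegral.integral_symm, ← h1, fc, ← sum_neg_distrib, ← Nat.range_succ_eq_Icc_zero]
  exact sum_congr rfl fun l hl => by rw [← intervalIntegral.integral_symm, (key l hl).2]

theorem chiq_le {n : ℕ} {p r : ℕ → ℝ} (hp : Mono n p) {e : ℝ}
    (h : ∀ l, l ≤ n + 1 → cum n p l ≤ cum n r l + e) (q : ℝ) : chiq n r q ≤ chiq n p q + e := by
  have hl := Nat.findGreatest_le (P := fun l => q ≤ p l) (n + 1)
  rw [chiq_eqUB1 (p := p) hl (fun j h1 h2 => le_trans (Nat.findGreatest_of_ne_zero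
    (P := fun l => q ≤ p l) rfl (by omega)) (hp.anti h2 hl)) fun j h1 h2 => (not_le.1
      (Nat.findGreatest_is_greatest (P := fun l => q ≤ p l) h1 h2)).le]
  linarith [chiq_le_linUB1 r hl q, h _ hl]

theorem smallUB1 (K : ℝ) {ε : ℝ} (hε : 0 < ε) : ∀ᶠ e in 𝓝 (0 : ℝ), K * e < ε :=
  (continuous_const_mul K).continuousAt.eventually_lt_const (by simpa)

theorem ucUB1 {f : ℝ → ℝ} (hf : Continuous f) (β : ℝ) {ε : ℝ} (hε : 0 < ε) :
    ∃ δ, (0 < δ ∧ δ ≤ 1) ∧ ∀ x ∈ Set.Icc 0 β, ∀ y, |y - x| ≤ δ → |f y - f x| ≤ ε := by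
  obtain ⟨δ, hδ, h⟩ := Metric.uniformContinuousOn_iff_le.1
    ((isCompact_Icc (a := -1) (b := β + 1)).uniformContinuousOn_of_continuous hf.continuousOn) ε hε
  refine ⟨min δ 1, ⟨lt_min hδ one_pos, min_le_right _ _⟩, fun x hx y hy => ?_⟩
  have := abs_le.1 (hy.trans (min_le_right _ _))
  exact h y ⟨by linarith [hx.1], by linarith [hx.2]⟩ x ⟨by linarith [hx.1], by linarith [hx.2]⟩
    (hy.trans (min_le_left _ _))

theorem int_cmpUB1 {f g : ℝ → ℝ} (hf : Continuous f) (hg : Continuous g) {C ω t : ℝ}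
    (hC : ∀ q, |f q| ≤ C) (h : ∀ q ∈ Set.Icc (0 : ℝ) 1, f q ≤ g q + ω) :
    ∫ q in (0 : ℝ)..t, f q ≤ (∫ q in (0 : ℝ)..1, g q) + ω + C * |t - 1| := by
  rw [← intervalIntegral.integral_add_adjacent_intervals (hf.intervalIntegrable 0 1)
    (hf.intervalIntegrable 1 t)]
  refine add_le_add ((intervalIntegral.integral_mono_on zero_le_one (hf.intervalIntegrable 0 1)
    ((hg.add continuous_const).intervalIntegrable 0 1) h).trans_eq ?_) ((le_abs_self _).trans
    (intervalIntegral.norm_integral_le_of_norm_le_const (f := f) fun q _ => hC q))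
  simp only [Pi.add_apply]
  rw [intervalIntegral.integral_add (hg.intervalIntegrable 0 1) intervalIntegrable_const]
  simp

theorem nm_mixUB1 {n : ℕ} {X : ℝ} {r : ℕ → ℝ} (h : Pr n X r) {a w c c0 e : ℝ} (ha : |a| ≤ 2)
    (hw : |a - w| ≤ e) (hc : 0 ≤ c) (hc0 : 0 ≤ c0) (hcc : |c - c0| ≤ 2 * e) :
    nm n (fun l => a * zc n c r l - w * zc n c0 r l) ≤ (16 * X ^ 2 + 2 * X) * e := by
  refine (nm_le_of_bd (c := 2 * (2 * X ^ 2 * (2 * e)) + e * X) fun j hj => ?_).trans_eq (by ring)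
  rw [show a * zc n c r j - w * zc n c0 r j =
    a * (zc n c r j - zc n c0 r j) + (a - w) * zc n c0 r j by ring]
  refine (abs_add_le _ _).trans (add_le_add ?_ ?_) <;> rw [abs_mul]
  · exact mul_le_mul ha ((zc_lip h hc hc0 hj).trans (by gcongr)) (abs_nonneg _) zero_le_two
  · rw [abs_of_nonneg (zc_mem h hc0 hj).1]
    exact mul_le_mul hw ((zc_mem h hc0 hj).2.trans (h.mem hj).2) (zc_mem h hc0 hj).1
      ((abs_nonneg _).trans hw)

section
variable {𝒞 : Type} [Fintype 𝒞] {w lam : 𝒞 → ℝ} {top : 𝒞}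

theorem r0UB1 {n : ℕ} {X : ℝ} {r : ℕ → ℝ} (hw : Pv w) (h : Pr n X r) {c : 𝒞 → ℝ}
    (hc : ∀ j, 0 ≤ c j) : Pr n X (fc n (fun x => x * uf w c x) r) ∧
      (∀ l, fc n (fun x => x * uf w c x) r l = ∑ j, w j * zc n (c j) r l) ∧
      ∀ f l, fc n f (fc n (fun x => x * uf w c x) r) l = fc n (fun x => f (x * uf w c x)) r l := by
  have h1 : ∀ l, fc n (fun x => x * uf w c x) r l = ∑ j, w j * zc n (c j) r l := fun l => by
    simp only [zc, ← fc_const_mul, ← fc_sum, uf, mul_sum]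
    exact congrArg (fc n · r l) (funext fun x => sum_congr rfl fun j _ => by ring)
  refine ⟨⟨fc_mono h fun x y hx hxy _ => ?_, fc_top _ _, ?_⟩, h1, fun f l => ?_⟩
  · simp only [uf, mul_sum]
    refine sum_le_sum fun j _ => ?_
    rw [← mul_div_assoc, ← mul_div_assoc, div_le_div_iff₀ (denFn (hc j) hx)
      (denFn (hc j) (hx.trans hxy))]
    nlinarith [mul_le_mul_of_nonneg_right hxy (hw.1 j)]
  · rw [h1]
    exact (sum_le_sum fun j _ => mul_le_mul_of_nonneg_left ((zc_mem h (hc j) (by omega)).2.trans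
      h.le) (hw.1 j)).trans_eq (by rw [← sum_mul, hw.2, one_mul])
  · refine sum_congr rfl fun i hi => ?_
    have := mem_Icc.1 hi
    rw [chi_fc _ _ (by omega), chi_fc _ _ (by omega)]
    simp

theorem scaleUB1 (w d : 𝒞 → ℝ) (s x : ℝ) :
    s * (x * uf w (fun j => s * d j) x) = s * x * uf w d (s * x) := by
  simp only [uf, mul_assoc, mul_left_comm s (d _)]

theorem phiUB1 (h : Cls w lam top) {t : ℝ} (ht : 0 ≤ t) :
    t * uf w (fun j => lam top - lam j) t * Rf w lam (lam top)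
      (t * uf w (fun j => lam top - lam j) t) =
        t * ∑ j, w j * lam j / (1 + (lam top - lam j) * t) := by
  have := uf_posFn h.pvFn h.gapFn ht
  rw [Rf_eqFn h, xi_yf h ht]
  field_simp

/-- Second moments of the resolvent weights. -/
noncomputable def m2UB1 (a d : 𝒞 → ℝ) (t : ℝ) : ℝ := ∑ j, a j * ((1 + d j * t)⁻¹ * (1 + d j * t)⁻¹)

/-- The derivative of `y * Rf y`. -/
noncomputable def SfUB1 (w lam : 𝒞 → ℝ) (top : 𝒞) (y : ℝ) : ℝ :=
  m2UB1 (fun j => w j * lam j) (fun j => lam top - lam j)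
      (xi w (fun j => lam top - lam j) (max y 0)) /
    m2UB1 w (fun j => lam top - lam j) (xi w (fun j => lam top - lam j) (max y 0))

theorem m2UB1_pos (h : Cls w lam top) {t : ℝ} (ht : 0 ≤ t) :
    0 < m2UB1 w (fun j => lam top - lam j) t :=
  sum_pos (fun j _ => by have := denFn (h.gapFn j) ht; have := h.pos j; positivity) ⟨top, mem_univ _⟩

theorem m2UB1_deriv (a : 𝒞 → ℝ) {d : 𝒞 → ℝ} (hd : ∀ j, 0 ≤ d j) {t : ℝ} (ht : 0 ≤ t) :
    HasDerivAt (fun t => t * uf a d t) (m2UB1 a d t) t := by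
  refine ((hasDerivAt_id' t).mul (uf_derivFn a hd ht)).congr_deriv ?_
  rw [one_mul, mul_neg, ← sub_eq_add_neg, uf, duFn, m2UB1, mul_sum, ← sum_sub_distrib]
  refine sum_congr rfl fun j _ => ?_
  have := denFn (hd j) ht
  field_simp
  ring

theorem m2UB1_cont (a : 𝒞 → ℝ) {d : 𝒞 → ℝ} (hd : ∀ j, 0 ≤ d j) :
    ContinuousOn (m2UB1 a d) (Set.Ici 0) :=
  continuousOn_finsetSum _ fun j _ => by
    have : ContinuousOn (fun t => (1 + d j * t)⁻¹) (Set.Ici 0) :=
      ContinuousOn.inv₀ (by fun_prop) fun t ht => (denFn (hd j) ht).ne'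
    exact continuousOn_const.mul (this.mul this)

theorem SfUB1_cont (h : Cls w lam top) : Continuous (SfUB1 w lam top) :=
  ((m2UB1_cont _ h.gapFn).div (m2UB1_cont _ h.gapFn) fun _ ht =>
    (m2UB1_pos h ht).ne').comp_continuous ((xi_cont h).comp_continuous (by fun_prop)
      fun y => le_max_right y 0) fun _ => xi_nonneg _ _ _

theorem SfUB1_abs (h : Cls w lam top) {C : ℝ} (hC : ∀ j, |lam j| ≤ C) (y : ℝ) :
    |SfUB1 w lam top y| ≤ C := by
  have h0 := xi_nonneg w (fun j => lam top - lam j) (max y 0)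
  have h1 := m2UB1_pos h h0
  rw [SfUB1, abs_div, abs_of_pos h1, div_le_iff₀ h1, m2UB1, m2UB1, mul_sum]
  refine (abs_sum_le_sum_abs _ _).trans (sum_le_sum fun j _ => ?_)
  have := h.pos j
  rw [abs_mul, abs_mul, abs_of_pos (h.pos j), abs_mul_self, ← mul_assoc C, mul_comm C]
  gcongr
  exacts [mul_self_nonneg _, hC j]

theorem SfUB1_mono (h : Cls w lam top) : Monotone (SfUB1 w lam top) := fun y y' hy => by
  have h0 := xi_nonneg w (fun j => lam top - lam j) (max y 0)
  have h1 := xi_nonneg w (fun j => lam top - lam j) (max y' 0)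
  have h2 : xi w (fun j => lam top - lam j) (max y 0) ≤
      xi w (fun j => lam top - lam j) (max y' 0) := ((yf_strictMono h).le_iff_le h0 h1).1 (by
    simp only [yf_xi h (le_max_right _ _)]
    exact max_le_max hy le_rfl)
  rw [SfUB1, SfUB1, div_le_div_iff₀ (m2UB1_pos h h0) (m2UB1_pos h h1)]
  generalize xi w (fun j => lam top - lam j) (max y 0) = x at *
  generalize xi w (fun j => lam top - lam j) (max y' 0) = x' at *
  refine chebFn (fun j => (h.pos j).le) fun i j => ?_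
  beta_reduce
  have a1 := h.gapFn i
  have a2 := h.gapFn j
  rw [show lam i - lam j = (lam top - lam j) - (lam top - lam i) by ring]
  generalize lam top - lam i = b at *
  generalize lam top - lam j = b' at *
  have a3 := sub_nonneg.2 h2
  rw [show (b' - b) * ((1 + b * x')⁻¹ * (1 + b * x')⁻¹ * ((1 + b' * x)⁻¹ * (1 + b' * x)⁻¹) -
      (1 + b * x)⁻¹ * (1 + b * x)⁻¹ * ((1 + b' * x')⁻¹ * (1 + b' * x')⁻¹)) =
      (b' - b) ^ 2 * (x' - x) * ((1 + b * x) * (1 + b' * x') + (1 + b * x') * (1 + b' * x)) /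
        ((1 + b * x) * (1 + b' * x') * (1 + b * x') * (1 + b' * x)) ^ 2 by field_simp; ring]
  positivity

theorem phi_derivUB1 (h : Cls w lam top) {y : ℝ} (hy : 0 < y) :
    HasDerivAt (fun y => y * Rf w lam (lam top) y) (SfUB1 w lam top y) y := by
  have h0 := xi_nonneg w (fun j => lam top - lam j) y
  have h1 := HasDerivAt.of_local_left_inverse ((xi_cont h).continuousAt (Ici_mem_nhds hy))
    (m2UB1_deriv w h.gapFn h0) (m2UB1_pos h h0).ne'
    (mem_of_superset (Ici_mem_nhds hy) fun y hy => yf_xi h hy)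
  refine (((m2UB1_deriv (fun j => w j * lam j) h.gapFn h0).comp y h1).congr_deriv
    (by rw [SfUB1, max_eq_left hy.le, div_eq_mul_inv])).congr_of_eventuallyEq
    (mem_of_superset (Ici_mem_nhds hy) fun y hy => ?_)
  have := phiUB1 h (xi_nonneg w (fun j => lam top - lam j) y)
  rwa [yf_xi h hy] at this

theorem tangentUB1 (h : Cls w lam top) {s0 s x : ℝ} (h0 : 0 ≤ s0) (hs : s0 < s) (hx : 0 ≤ x) :
    (s - s0) * SfUB1 w lam top (s0 * x) ≤
      s * Rf w lam (lam top) (s * x) - s0 * Rf w lam (lam top) (s0 * x) := by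
  rcases hx.eq_or_lt with rfl | hx
  · have := xi_yf h le_rfl
    rw [zero_mul] at this
    simp [Rf_zero h, SfUB1, this, m2UB1, h.sum, sub_mul]
  have h1 : s0 * x < s * x := by gcongr
  have h2 := mul_nonneg h0 hx.le
  obtain ⟨y, hy, e⟩ := exists_hasDerivAt_eq_slope (fun y => y * Rf w lam (lam top) y) _ h1
    ((continuousOn_id.mul (Rf_cont h)).mono fun y hy => h2.trans hy.1)
    fun y hy => phi_derivUB1 h (h2.trans_lt hy.1)
  have h3 := SfUB1_mono h hy.1.le
  rw [e, le_div_iff₀ (sub_pos.2 h1)] at h3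
  exact le_of_mul_le_mul_right (by linarith) hx

end

theorem ub1 {𝒞 : Type} [Fintype 𝒞] {w lam : 𝒞 → ℝ} {top : 𝒞} (h : Cls w lam top) {β : ℝ}
    (hβ : 0 ≤ β) (X : ℝ) {ε : ℝ} (hε : 0 < ε) : ∃ e0 : ℝ, 0 < e0 ∧ ∃ M0 : ℕ, ∀ M, M0 ≤ M →
    ∀ m < M, ∀ (n : ℕ) (p r : ℕ → ℝ) (a c : 𝒞 → ℝ) (ρ : 𝒞 → ℕ → ℝ), Adm n p → Pr n X r →
      wt n ≤ e0 → (∀ j, |a j - w j| ≤ e0) →
      (∀ j, 0 ≤ c j ∧ |c j - ((m : ℝ) + 1) / M * β * (lam top - lam j)| ≤ e0) →
      (∀ j, nm n (fun l => ρ j l - zc n (c j) r l) ≤ e0) → ∑ j, a j * ρ j 0 = 1 →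
      (∀ l, l ≤ n → cum n p l ≤ cum n (fun l => ∑ j, a j * ρ j l) l + e0) →
      (∑ j, a j * (β * lam j) * ρ j 0) / 2 / M ≤
        orth (Rf w lam (lam top)) (((m : ℝ) + 1) / M * β) n p -
          orth (Rf w lam (lam top)) ((m : ℝ) / M * β) n p + ε / M := by
  rcases hβ.eq_or_lt with rfl | hβ
  · exact ⟨1, one_pos, 0, fun M _ m _ _ _ _ _ _ _ _ _ _ _ _ _ _ _ => by simp [orth]; positivity⟩
  set C := ∑ j, |lam j| with hC'
  have hC : ∀ j, |lam j| ≤ C := fun j => single_le_sum (fun j _ => abs_nonneg (lam j)) (mem_univ j)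
  have hC0 : 0 ≤ C := (abs_nonneg _).trans (hC top)
  obtain ⟨δ, hδ, hu⟩ := ucUB1 (SfUB1_cont h) β (div_pos hε hβ)
  set K := Fintype.card 𝒞 * (2 + (16 * X ^ 2 + 2 * X)) with hK
  obtain ⟨e, ⟨⟨e1, e2⟩, e3⟩, e0⟩ := (((((smallUB1 1 one_pos).and (smallUB1 (β * (2 + 2 * K))
    (half_pos hδ.1))).and (smallUB1 (β * C * K) (half_pos hε))).filter_mono
      nhdsWithin_le_nhds).and (self_mem_nhdsWithin (s := Set.Ioi (0 : ℝ)))).exists
  obtain ⟨M0, hM0⟩ := exists_nat_gt (β / (δ / 2))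
  refine ⟨e, e0, M0, fun M hM m hm n p r a c ρ hp hr hw ha hc hρ h1 h2 => ?_⟩
  have e0 : 0 < e := e0
  have hM1 : (0 : ℝ) < M := by exact_mod_cast (Nat.zero_le m).trans_lt hm
  have hM2 : β / M < δ / 2 := by
    rw [div_lt_iff₀ (half_pos hδ.1)] at hM0
    rw [div_lt_iff₀ hM1]
    nlinarith [(Nat.cast_le (α := ℝ)).2 hM, hδ.1]
  set s := ((m : ℝ) + 1) / M * β with hs'
  set s0 := (m : ℝ) / M * β with hs0'
  have hs0 : 0 ≤ s0 := by positivity
  have hs : 0 < s := by positivity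
  have hss : s - s0 = β / M := by rw [hs', hs0']; ring
  have hsβ : s ≤ β := mul_le_of_le_one_left hβ.le ((div_le_one hM1).2 (by exact_mod_cast hm))
  have hc0 : ∀ j, 0 ≤ s * (lam top - lam j) := fun j => mul_nonneg hs.le (h.gapFn j)
  obtain ⟨hr0, hz, hcomp⟩ := r0UB1 h.pvFn hr hc0
  set r0 := fc n (fun x => x * uf w (fun j => s * (lam top - lam j)) x) r
  have hw1 : ∀ j, w j ≤ 1 := fun j => h.sum ▸ single_le_sum (fun j _ => (h.pos j).le) (mem_univ j)
  have ha2 : ∀ j, |a j| ≤ 2 := fun j => abs_le.2 (by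
    constructor <;> linarith [abs_le.1 (ha j), h.pos j, hw1 j])
  have n1 : ∀ j, nm n (fun l => a j * ρ j l - w j * zc n (s * (lam top - lam j)) r l) ≤
      (2 + (16 * X ^ 2 + 2 * X)) * e := fun j => by
    have t1 := nm_add_le (n := n) (fun l => a j * (ρ j l - zc n (c j) r l))
      fun l => a j * zc n (c j) r l - w j * zc n (s * (lam top - lam j)) r l
    have t2 := nm_mixUB1 hr (ha2 j) (ha j) (hc j).1 (hc0 j) ((hc j).2.trans (by linarith))
    rw [nm_const_mul] at t1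
    have t3 := mul_le_mul (ha2 j) (hρ j) (nm_nonneg _) zero_le_two
    rw [nm_congr (b := fun l => a j * (ρ j l - zc n (c j) r l) + (a j * zc n (c j) r l -
      w j * zc n (s * (lam top - lam j)) r l)) fun l _ => by ring]
    linarith
  have n2 : nm n (fun l => ∑ j, a j * ρ j l - r0 l) ≤ K * e := by
    simp only [hz, ← sum_sub_distrib]
    refine (nm_sum_le _ _).trans ((sum_le_sum fun j _ => n1 j).trans_eq ?_)
    simp [hK, mul_assoc]
  have n3 : |r0 0 - 1| ≤ K * e := by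
    rw [abs_sub_comm, ← h1]
    exact (abs_zero_le_nm (fun l => ∑ j, a j * ρ j l - r0 l)).trans n2
  have n4 : ∀ q, chiq n r0 q ≤ chiq n p q + (2 + K) * e := chiq_le hp.2 fun l hl => by
    have t : ∀ l ≤ n, cum n p l ≤ cum n r0 l + (1 + K) * e := fun l hl => by
      linarith [h2 l hl, (abs_le.1 ((abs_cum_sub_le_nm (fun l => ∑ j, a j * ρ j l) r0
        (show l ≤ n + 1 by omega)).trans n2)).2]
    rcases hl.eq_or_lt with rfl | hl
    · rw [cum_succ, cum_succ, hr0.top]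
      nlinarith [t n le_rfl, hp.le_one le_rfl, wt_pos n]
    · linarith [t l (by omega)]
  have n5 : ∑ j, a j * (β * lam j) * ρ j 0 ≤
      ∑ j, β * lam j * (w j * zc n (s * (lam top - lam j)) r 0) + β * C * K * e := by
    rw [← sub_le_iff_le_add', ← sum_sub_distrib]
    refine (sum_le_sum (g := fun _ => β * C * ((2 + (16 * X ^ 2 + 2 * X)) * e))
      fun j _ => ?_).trans_eq (by simp [hK]; ring)
    refine (le_of_eq (by ring)).trans ((le_abs_self (β * lam j *
      (a j * ρ j 0 - w j * zc n (s * (lam top - lam j)) r 0))).trans ?_)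
    rw [abs_mul, abs_mul, abs_of_pos hβ]
    exact mul_le_mul (mul_le_mul_of_nonneg_left (hC j) hβ.le) ((abs_zero_le_nm fun l =>
      a j * ρ j l - w j * zc n (s * (lam top - lam j)) r l).trans (n1 j)) (abs_nonneg _)
      (by positivity)
  have n6 : ∑ j, β * lam j * (w j * zc n (s * (lam top - lam j)) r 0) =
      β * ∫ q in (0 : ℝ)..r0 0, SfUB1 w lam top (s * (chiq n r0 q + (r0 0 - 1))) := by
    rw [← fc_int hr0 (f := fun y => s * y * Rf w lam (lam top) (s * y) / s)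
      (f' := fun y => SfUB1 w lam top (s * y)) ((((continuousOn_id.mul (Rf_cont h)).comp
        (continuous_const_mul s).continuousOn fun y hy => mul_nonneg hs.le hy.1)).div_const s)
      ((SfUB1_cont h).comp (continuous_const_mul s)).continuousOn fun y hy _ => ?_, hcomp,
      ← fc_const_mul]
    · simp only [zc, ← fc_const_mul, ← fc_sum]
      refine fc_congr hr (fun x hx _ => ?_) 0
      rw [scaleUB1, phiUB1 h (mul_nonneg hs.le hx), mul_assoc, mul_div_cancel_left₀ _ hs.ne',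
        mul_sum, mul_sum]
      exact sum_congr rfl fun j _ => by ring
    · refine (((phi_derivUB1 h (mul_pos hs hy)).comp y
        ((hasDerivAt_id' y).const_mul s)).div_const s).congr_deriv ?_
      field_simp
  have c1 : Continuous fun q => SfUB1 w lam top (s0 * chiq n p q) :=
    (SfUB1_cont h).comp (continuous_const.mul (chiq_cont n p))
  have n7 := int_cmpUB1 (t := r0 0) ((SfUB1_cont h).comp (continuous_const.mul
    ((chiq_cont n r0).add continuous_const))) c1 (fun _ => SfUB1_abs h hC _) (ω := ε / β)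
    (f := fun q => SfUB1 w lam top (s * (chiq n r0 q + (r0 0 - 1)))) fun q hq => by
      have t1 := chiq_mem hp hq.1 hq.2
      have t2 : s * (chiq n r0 q + (r0 0 - 1)) ≤ s * (chiq n p q + (2 + 2 * K) * e) :=
        mul_le_mul_of_nonneg_left (by linarith [n4 q, (abs_le.1 n3).2]) hs.le
      have t3 : 0 ≤ K * e := (abs_nonneg _).trans n3
      have t4 : s * ((2 + 2 * K) * e) ≤ β * ((2 + 2 * K) * e) :=
        mul_le_mul_of_nonneg_right hsβ (by linarith)
      have t5 : (s - s0) * chiq n p q ≤ β / M := hss ▸ mul_le_of_le_one_right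
        (hss ▸ by positivity) t1.2
      have t6 := hu (s0 * chiq n p q) ⟨mul_nonneg hs0 t1.1, by nlinarith [div_pos hβ hM1]⟩
        (s0 * chiq n p q + δ) (by rw [add_sub_cancel_left, abs_of_pos hδ.1])
      exact (SfUB1_mono h (show _ ≤ s0 * chiq n p q + δ by linarith)).trans
        (by linarith [(abs_le.1 t6).2])
  have c2 : ∀ s, 0 ≤ s → IntervalIntegrable (fun q => Rf w lam (lam top) (s * chiq n p q))
      volume 0 1 := fun s hs => ((Rf_cont h).comp (continuous_const.mul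
        (chiq_cont n p)).continuousOn fun q hq =>
          mul_nonneg hs (chiq_mem hp hq.1 hq.2).1).intervalIntegrable_of_Icc zero_le_one
  have n8 := intervalIntegral.integral_mono_on zero_le_one
    ((c1.intervalIntegrable 0 1).const_mul (s - s0))
    (((c2 s hs.le).const_mul s).sub ((c2 s0 hs0).const_mul s0)) fun q hq =>
      tangentUB1 h hs0 (by linarith [div_pos hβ hM1]) (chiq_mem hp hq.1 hq.2).1
  rw [intervalIntegral.integral_sub ((c2 s hs.le).const_mul s) ((c2 s0 hs0).const_mul s0)] at n8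
  simp only [intervalIntegral.integral_const_mul, hss] at n8
  have n9 := mul_le_mul_of_nonneg_left (n7.trans (add_le_add le_rfl
    (mul_le_mul_of_nonneg_left n3 hC0))) hβ.le
  rw [mul_add, mul_add, mul_div_cancel₀ _ hβ.ne'] at n9
  have n10 : (∑ j, a j * (β * lam j) * ρ j 0) / 2 / M ≤
      ((β * ∫ q in (0 : ℝ)..1, SfUB1 w lam top (s0 * chiq n p q)) / 2 + ε) / M := by
    gcongr
    linarith
  rw [add_div] at n10
  simp only [orth]
  refine n10.trans (add_le_add ((le_of_eq (by ring)).trans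
    ((div_le_div_of_nonneg_right n8 zero_le_two).trans_eq (by ring))) le_rfl)

end Vale.Agent.P166
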