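import Vale.Agent.P166.Win
import Vale.Agent.P166.UB1
import Vale.Agent.P157.UBC

/-!
# P166: estimates for the upper bound
-/

namespace Vale.Agent.P166

open MeasureTheory Finset Vale.Agent.P168 Vale.Agent.P168.PW Vale.Agent.P157 Function Filter Topology
open scoped BigOperators

set_option synthInstance.maxSize 4096

namespace UBa

theorem lin_tot {n : ℕ} {Ω I : Type} [Fintype Ω] [Fintype I] {P : Ch Ω} {ρ : PW Ω}
    {s : Fam (Fin (n + 1) × I) Ω} {H : Ω → ℝ} (h : s.Ok (Tn n P H) ρ) {u : I → Ω → ℝ}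
    (hu : ∀ i, s.Inv (u i)) {W : ℝ} (hW : ∀ ω, ∑ i, u i ω ^ 2 ≤ W) (γ : Fin (n + 1) → ℝ) :
    Fr n P ρ H ≤ Fr n P ρ (fun ω => H ω + tot (fld s u) γ ω) ∧
      Fr n P ρ (fun ω => H ω + tot (fld s u) γ ω) ≤ Fr n P ρ H + (∑ l, γ l ^ 2) * W / 2 := by
  have := lin_two h (v := fun q ω => γ q.1 * u q.2 ω) (fun q l ω => by simp only [hu q.2 l ω])
    (W := (∑ l, γ l ^ 2) * W) fun ω => by
      simp only [Fintype.sum_prod_type, mul_pow, ← mul_sum, ← sum_mul]
      exact mul_le_mul_of_nonneg_left (hW ω) (sum_nonneg fun _ _ => sq_nonneg _)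
  have e : (fun ω => H ω + tot (fld s u) γ ω) =
      fun ω => H ω + ∑ q : Fin (n + 1) × I, sp (s.τ q ω) * (γ q.1 * u q.2 ω) := funext fun ω => by
    simp only [tot, fld, Fintype.sum_prod_type, mul_sum]
    exact congrArg _ (sum_congr rfl fun l _ => sum_congr rfl fun i _ => by ring)
  rw [e]
  exact this

theorem F0_H {n K : ℕ} {Ω I : Type} [Fintype Ω] [Fintype I] [DecidableEq I] {Y : Sys n K Ω I}
    (h : Y.St) (U : OG I) : Fr n Y.P Y.ρ (Y.H U) ≤ Y.F0 U ∧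
      Y.F0 U ≤ Fr n Y.P Y.ρ (Y.H U) + (∑ l, Y.γ l ^ 2) * Fintype.card I / 2 :=
  lin_tot (Sys.fs h U).ok (Sys.fs h U).inv (Sys.sum_u_sq h U) Y.γ

theorem I1_mul {n K : ℕ} {Ω I : Type} [Fintype Ω] [Fintype I] [DecidableEq I] (Y : Sys n K Ω I)
    (c : ℝ) (g : OG I → Ω → ℝ) : Y.I1 (fun U ω => c * g U ω) = c * Y.I1 g := by
  simp only [Sys.I1, Eh_const_mul, integral_const_mul]

theorem F_cvx {n K : ℕ} {Ω I : Type} [Fintype Ω] [Fintype I] [DecidableEq I] {Y Y' : Sys n K Ω I}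
    (hP : Y'.P = Y.P) (hρ : Y'.ρ = Y.ρ) {g : OG I → Ω → ℝ} (hg : ∀ ω, Continuous fun U => g U ω)
    (h : ∀ U ω, Y'.En U ω = Y.En U ω + g U ω) : Y.F + Y.I1 g ≤ Y'.F := by
  have c := Y.cch.Eh n Y.ρ 0 hg
  rw [Sys.F, Sys.I1, ← integral_add (intg _ Y.cont_F0) (intg _ c)]
  refine int_mono _ (Y.cont_F0.add c) Y'.cont_F0 fun U => ?_
  have := Fr_cvx (n := n) (P := Y.P) (ρ := Y.ρ) (Y.En U) (Y'.En U)
  simp only [h, add_sub_cancel_left] at this
  rw [Sys.F0, Sys.F0, hP, hρ]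
  exact this

variable {n K : ℕ} {I 𝒞 : Type} [Fintype I] [DecidableEq I] [DecidableEq 𝒞] {cl : I → 𝒞}
  {κ κ' : 𝒞 → ℝ} {top : 𝒞} {π : Option (Fin (n + 1)) → ℝ} {b b' : Fin (n + 1) → ℝ}

theorem sy_P (B : I → Fin (n + 1) → ℝ) : (sy K cl κ top B π).P = Pa n K I := rfl

theorem sy_ρ (B : I → Fin (n + 1) → ℝ) : (sy K cl κ top B π).ρ = ρa n K I := rfl

/-- rotated spins -/
noncomputable def tt (U : OG I) (ω : Oa n K I) : I → ℝ := act U fun a => sp (ω.1 a)

theorem sum_tt (U : OG I) (ω : Oa n K I) : ∑ i, tt U ω i ^ 2 = Fintype.card I := by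
  rw [tt, sum_act_sq]
  simp [sq, sp_sq]

theorem H_sy (B : I → Fin (n + 1) → ℝ) (U : OG I) (ω : Oa n K I) :
    (sy K cl κ top B π).H U ω =
      (∑ i, ka κ top (π none) (cl i) * tt U ω i ^ 2) / 2 + Gx B ω := by
  simp only [Sys.H, sy, gen, zero_mul, sum_const_zero, add_zero]
  rfl

omit [DecidableEq I] in
theorem Gx_own (b : Fin (n + 1) → ℝ) (ω : Oa n K I) :
    Gx (fun _ => b) ω = ∑ l, b l * ∑ i, own l i ω := by
  simp only [Gx, own, mul_sum]
  exact sum_comm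

theorem En_b (U : OG I) (ω : Oa n K I) : (sy K cl κ top (fun _ => b') π).En U ω =
    (sy K cl κ top (fun _ => b) π).En U ω + ∑ l, (b' l - b l) * ∑ i, own l i ω := by
  simp only [sy, En_gen, Gx_own, sub_mul, sum_sub_distrib]
  ring

theorem En_κ (B : I → Fin (n + 1) → ℝ) (U : OG I) (ω : Oa n K I) :
    (sy K cl κ' top B π).En U ω =
      (sy K cl κ top B π).En U ω + (∑ i, (κ' (cl i) - κ (cl i)) * tt U ω i ^ 2) / 2 := by
  simp only [sy, En_gen, ka, sub_mul, add_mul, sum_sub_distrib, sum_add_distrib, tt, id]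
  ring

theorem F_κ_le (B : I → Fin (n + 1) → ℝ) {d : ℝ} (h : ∀ j, κ' j - κ j ≤ d) :
    (sy K cl κ' top B π).F ≤ (sy K cl κ top B π).F + Fintype.card I * d / 2 := by
  refine F_le_const fun U => ?_
  rw [Sys.F0, Sys.F0, ← Fr_add_const]
  refine Fr_mono (P := Pa n K I) (ρ := ρa n K I) fun ω => ?_
  rw [En_κ (κ := κ), ← sum_tt U ω, sum_mul]
  refine add_le_add le_rfl (div_le_div_of_nonneg_right (sum_le_sum fun i _ => ?_) zero_le_two)
  rw [mul_comm]
  exact mul_le_mul_of_nonneg_left (h _) (sq_nonneg _)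

theorem F_κ_abs (B : I → Fin (n + 1) → ℝ) {d : ℝ} (h : ∀ j, |κ' j - κ j| ≤ d) :
    |(sy K cl κ' top B π).F - (sy K cl κ top B π).F| ≤ Fintype.card I * d / 2 := by
  have h1 := F_κ_le (K := K) (cl := cl) (top := top) (π := π) B fun j => (abs_le.1 (h j)).2
  have h2 := F_κ_le (K := K) (cl := cl) (top := top) (π := π) (κ := κ') (κ' := κ) (d := d) B
    fun j => by linarith [(abs_le.1 (h j)).1]
  rw [abs_le]
  constructor <;> linarith

theorem F_b_lip : (sy K cl κ top (fun _ => b) π).F - (sy K cl κ top (fun _ => b') π).F ≤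
    (∑ ω : Oa n K I, ∑ l, |∑ i, own l i ω|) * ∑ l, |b l - b' l| := by
  rw [sub_le_iff_le_add']
  refine F_le_const fun U => ?_
  rw [Sys.F0, Sys.F0, ← Fr_add_const]
  refine Fr_mono (P := Pa n K I) (ρ := ρa n K I) fun ω => ?_
  rw [En_b (b := b'), mul_sum univ (fun l => |b l - b' l|)]
  refine add_le_add le_rfl (sum_le_sum fun l _ => (le_abs_self _).trans ?_)
  rw [abs_mul, mul_comm]
  refine mul_le_mul_of_nonneg_right ?_ (abs_nonneg _)
  exact (single_le_sum (f := fun l => |∑ i, own l i ω|) (fun _ _ => abs_nonneg _)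
    (mem_univ l)).trans (single_le_sum (f := fun ω : Oa n K I => ∑ l, |∑ i, own l i ω|)
      (fun _ _ => sum_nonneg fun _ _ => abs_nonneg _) (mem_univ ω))

theorem Fr_Gx {H : Oa n K I → ℝ} (hH : (fam n K 0 id).Inv H) (b : Fin (n + 1) → ℝ) :
    Fr n (Pa n K I) (ρa n K I) H ≤ Fr n (Pa n K I) (ρa n K I) fun ω => H ω + Gx (fun _ => b) ω := by
  have := (lin_tot (n := n) ((fam_ok 0 injective_id).Tn hH)
    (u := fun q (ω : Oa n K I) => sp (ω.1 q.1) / Real.sqrt K) (fun _ _ _ => rfl)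
    (W := ∑ _q : I × Fin K, (1 / Real.sqrt K) ^ 2)
    (fun ω => le_of_eq (sum_congr rfl fun q _ => by rw [div_pow, div_pow, sq, sp_sq, one_pow])) b).1
  simpa only [tot_Gx] using this

theorem F_b_zero : (sy K cl κ top (fun _ => 0) π).F ≤ (sy K cl κ top (fun _ => b) π).F := by
  refine le_trans (F_le_const (c := 0) fun U => ?_) (add_zero _).le
  rw [add_zero]
  have := Fr_Gx (H := (sy K cl κ top (fun _ => 0) π).En U) (fun m ω => by
    simp only [sy, En_gen, gf, fam_π_fst, Gx, Pi.zero_apply, zero_mul, fun l i =>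
      hf_inv (n := n) (K := K) (c := 0) (c' := 1) (e := id) (i := i) (Or.inl (by simp)) l m ω]) b
  refine this.trans (le_of_eq (congrArg (Fr n (Pa n K I) (ρa n K I)) (funext fun ω => ?_)))
  rw [En_b (b := 0) (b' := b), Gx_own]
  simp

theorem F_b_cvx (l : Fin (n + 1)) (h : ℝ) : (sy K cl κ top (fun _ => b) π).F +
    h * (sy K cl κ top (fun _ => b) π).I1 (fun _ ω => ∑ i, own l i ω) ≤
      (sy K cl κ top (fun _ => b + Pi.single l h) π).F := by
  have e : ∀ U ω, (sy K cl κ top (fun _ => b + Pi.single l h) π).En U ω =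
      (sy K cl κ top (fun _ => b) π).En U ω + h * ∑ i, own l i ω := fun U ω => by
    rw [En_b (b := b)]
    simp only [add_sub_cancel_left, Pi.add_apply, Pi.single_apply, ite_mul, zero_mul, sum_ite_eq',
      mem_univ, if_true]
  have := F_cvx ((sy_P _).trans (sy_P _).symm) ((sy_ρ _).trans (sy_ρ _).symm)
    (g := fun _ ω => h * ∑ i, own l i ω) (fun _ => continuous_const) e
  rw [I1_mul] at this
  exact this

theorem F_κ_cvx (B : I → Fin (n + 1) → ℝ) : (sy K cl κ' top B π).F ≤ (sy K cl κ top B π).F +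
    (sy K cl κ' top B π).I1 (fun U ω => (∑ i, (κ' (cl i) - κ (cl i)) * tt U ω i ^ 2) / 2) := by
  have := F_cvx (Y := sy K cl κ' top B π) (Y' := sy K cl κ top B π)
    (g := fun U ω => -1 * ((∑ i, (κ' (cl i) - κ (cl i)) * tt U ω i ^ 2) / 2))
    ((sy_P _).trans (sy_P _).symm) ((sy_ρ _).trans (sy_ρ _).symm)
    (fun ω => by unfold tt; fun_prop) fun U ω => by
      rw [En_κ (κ := κ) (κ' := κ')]
      ring
  rw [I1_mul] at this
  linarith

theorem ka_ge (s : ℝ) (hs : 0 ≤ s) (j : 𝒞) : κ j ≤ ka κ top s j ∧ ka κ top s j ≤ κ j + s := by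
  unfold ka
  split_ifs <;> constructor <;> linarith

theorem F_zero (hK : 0 < K) (hγ : ∑ l, π (some l) ^ 2 ≤ 1) (hs : 0 ≤ π none) (hκ : ∀ j, κ j = 0) :
    0 ≤ (sy K cl κ top (fun _ => b) π).F ∧ (sy K cl κ top (fun _ => b) π).F ≤
      ps K I 0 b + Fintype.card I * (π none + ∑ l, π (some l) ^ 2) / 2 := by
  have st := sy_st hK cl κ top (fun _ => b) hγ
  have hk : ∀ j, 0 ≤ ka κ top (π none) j ∧ ka κ top (π none) j ≤ π none := fun j => by
    have := ka_ge (κ := κ) (top := top) _ hs j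
    rw [hκ j, zero_add] at this
    exact this
  have e : ps K I 0 b = Fr n (Pa n K I) (ρa n K I) (Gx fun _ => b) := by
    simp [ps]
  constructor
  · refine integral_nonneg fun U => le_trans ?_ (F0_H st U).1
    refine (ps_mem hK 0 b).1.trans (e.le.trans
      (Fr_mono (P := Pa n K I) (ρ := ρa n K I) fun ω => ?_))
    rw [H_sy]
    exact le_add_of_nonneg_left (div_nonneg
      (sum_nonneg fun i _ => mul_nonneg (hk _).1 (sq_nonneg _)) zero_le_two)
  · refine int_le_const _ (Sys.cont_F0 _) fun U => (F0_H st U).2.trans ?_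
    have : Fr n (Pa n K I) (ρa n K I) ((sy K cl κ top (fun _ => b) π).H U) ≤
        ps K I 0 b + Fintype.card I * π none / 2 := by
      rw [e, ← Fr_add_const]
      refine Fr_mono fun ω => ?_
      rw [H_sy, add_comm, ← sum_tt U ω, sum_mul]
      refine add_le_add le_rfl (div_le_div_of_nonneg_right (sum_le_sum fun i _ => ?_) zero_le_two)
      rw [mul_comm]
      exact mul_le_mul_of_nonneg_left (hk _).2 (sq_nonneg _)
    change Fr n (Pa n K I) (ρa n K I) _ + (∑ l, π (some l) ^ 2) * _ / 2 ≤ _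
    linarith

theorem press_le {N : ℕ} (hN : 0 < N) (hK : 0 < K) (β : ℝ) (lam : 𝒞 → ℝ) (cl : Fin N → 𝒞)
    (hγ : ∑ l, π (some l) ^ 2 ≤ 1) (hs : 0 ≤ π none) (hκ : ∀ j, κ j = β * lam j) :
    N * ∫ U, press β (fun i => lam (cl i)) U ∂(hr (Fin N)) ≤
      (sy K cl κ top (fun _ => 0) π).F := by
  rw [← integral_const_mul]
  simp only [press_eq (n := n) (K := K) hN β (fun i => lam (cl i)) ∅]
  refine int_mono _ (Sys.cont_F0 _) (Sys.cont_F0 _) fun U => ?_
  refine le_trans ?_ (F0_H (sy_st hK cl κ top (fun _ => 0) hγ) U).1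
  refine Fr_mono (P := Pa n K (Fin N)) (ρ := ρa n K (Fin N)) fun ω => ?_
  rw [H_sy, En_gen, sum_empty, add_zero]
  refine add_le_add (div_le_div_of_nonneg_right (sum_le_sum fun i _ => ?_) zero_le_two) le_rfl
  exact mul_le_mul_of_nonneg_right (hκ _ ▸ (ka_ge _ hs _).1) (sq_nonneg _)

theorem ka_ok {C s : ℝ} (hκ : ∀ j, |κ j| ≤ C ∧ κ j ≤ κ top) (h0 : 0 ≤ s) (h1 : s ≤ 1) (j : 𝒞) :
    |ka κ top s j| ≤ C + 1 ∧ ka κ top s j ≤ ka κ top s top := by
  have h2 := ka_ge (κ := κ) (top := top) s h0 j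
  have h3 := abs_le.1 (hκ j).1
  refine ⟨abs_le.2 ⟨by linarith, by linarith⟩, h2.2.trans ?_⟩
  rw [ka, if_pos rfl]
  linarith [(hκ j).2]

theorem sy_ok {X C : ℝ} (B : I → Fin (n + 1) → ℝ) (hK : 0 < K) (hγ : ∑ l, π (some l) ^ 2 ≤ 1)
    (h0 : 0 ≤ π none) (h1 : π none ≤ 1) (hκ : ∀ j, |κ j| ≤ C ∧ κ j ≤ κ top)
    (hI : 0 < Fintype.card I) (hX : ∀ j, (Fintype.card I : ℝ) ≤ X * ((tp cl j).card - 1)) :
    (sy K cl κ top B π).Ok (tp cl top) (ka κ top (π none) top) X (C + 1) :=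
  bg_ok B hK hγ (ka_ok hκ h0 h1) hI hX

section cls
variable [Fintype 𝒞] {Ω : Type} [Fintype Ω] (Y : Sys n K Ω I)

theorem sum_cls (hc : ∀ j, 0 < (tp cl j).card) (a : 𝒞 → ℝ) (U : OG I) (x y : Ω) :
    (∑ i, a (cl i) * (Y.t U x i * Y.t U y i)) / Fintype.card I =
      ∑ j, fq cl j * a j * Y.R (tp cl j) (tp cl j).card U x y := by
  rw [← sum_fiberwise univ cl, sum_div]
  refine sum_congr rfl fun j _ => ?_
  have h1 : ((tp cl j).card : ℝ) ≠ 0 := by exact_mod_cast (hc j).ne'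
  rw [sum_congr rfl (g := fun i => a j * (Y.t U x i * Y.t U y i))
    fun i hi => by rw [(mem_filter.1 hi).2], ← mul_sum]
  change a j * (∑ i ∈ tp cl j, _) / _ = ((tp cl j).card : ℝ) / _ * a j * ((∑ i ∈ tp cl j, _) / _)
  field_simp

theorem I2_cls (hc : ∀ j, 0 < (tp cl j).card) (a : 𝒞 → ℝ) (l : ℕ) :
    Y.I2 l (fun U x y => (∑ i, a (cl i) * (Y.t U x i * Y.t U y i)) / Fintype.card I) =
      ∑ j, fq cl j * a j * Y.I2 l (Y.R (tp cl j) (tp cl j).card) := by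
  simp only [sum_cls Y hc, Sys.I2, E2_sum, E2_const_mul]
  rw [integral_finsetSum _ fun j _ => intg _ (by fun_prop)]
  exact sum_congr rfl fun j _ => integral_const_mul _ _

end cls

theorem orth_uc {𝒞 : Type} [Fintype 𝒞] {w lam : 𝒞 → ℝ} {top : 𝒞} (h : Cls w lam top) {β : ℝ}
    (hβ : 0 ≤ β) {n : ℕ} {p : ℕ → ℝ} (hp : Adm n p) {ε : ℝ} (hε : 0 < ε) : ∃ δ : ℝ, 0 < δ ∧
    ∀ s t : ℝ, 0 ≤ s → s ≤ 1 → 0 ≤ t → t ≤ 1 → |s - t| < δ →
      |orth (Rf w lam (lam top)) (s * β) n p - orth (Rf w lam (lam top)) (t * β) n p| ≤ ε := by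
  have c1 : Continuous fun y : ℝ => Rf w lam (lam top) (max y 0) :=
    (Rf_cont h).comp_continuous (continuous_id.max continuous_const) fun y =>
      Set.mem_Ici.2 (le_max_right _ _)
  have c2 : Continuous fun t : ℝ => t * β / 2 *
      ∫ q in (0 : ℝ)..1, Rf w lam (lam top) (max (t * β * chiq n p q) 0) := by
    refine Continuous.mul (by fun_prop)
      (intervalIntegral.continuous_parametric_intervalIntegral_of_continuous' ?_ 0 1)
    have := chiq_cont n p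
    exact c1.comp (f := fun x : ℝ × ℝ => x.1 * β * chiq n p x.2) (by fun_prop)
  have e : ∀ t : ℝ, 0 ≤ t → orth (Rf w lam (lam top)) (t * β) n p = t * β / 2 *
      ∫ q in (0 : ℝ)..1, Rf w lam (lam top) (max (t * β * chiq n p q) 0) := fun t ht => by
    rw [orth]
    refine congrArg _ (intervalIntegral.integral_congr fun q hq => ?_)
    rw [Set.uIcc_of_le zero_le_one] at hq
    rw [max_eq_left (mul_nonneg (mul_nonneg ht hβ) (chiq_mem hp hq.1 hq.2).1)]
  obtain ⟨δ, hδ, H⟩ := Metric.uniformContinuousOn_iff.1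
    (isCompact_Icc.uniformContinuousOn_of_continuous (s := Set.Icc (0 : ℝ) 1) c2.continuousOn) ε hε
  refine ⟨δ, hδ, fun s t s0 s1 t0 t1 hst => ?_⟩
  rw [e s s0, e t t0]
  exact (H s ⟨s0, s1⟩ t ⟨t0, t1⟩ hst).le

theorem exists_le_E {α : Type} [Fintype α] (μ : PW α) (F : α → ℝ) : ∃ a, F a ≤ μ.E F := by
  have := μ.nonempty
  obtain ⟨a, -, ha⟩ := exists_min_image univ F univ_nonempty
  exact ⟨a, μ.const_le_E fun b => ha b (mem_univ b)⟩

theorem cls_size {N X T : ℝ} (hN : |X| < N) (hT : 0 ≤ T) (h : N ≤ X * (T - 1)) :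
    0 < X ∧ 1 ≤ T ∧ N ≤ X * T := by
  have h1 := abs_lt.1 hN
  have h2 := abs_nonneg X
  have h3 : 0 < X := by
    by_contra h4
    nlinarith
  have h4 : 1 ≤ T := by
    by_contra h4
    nlinarith
  exact ⟨h3, h4, by linarith⟩

end UBa

end Vale.Agent.P166
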