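import Vale.Agent.P166.UBa

/-!
# P166: overlap concentration in the window and the interpolation step
-/

namespace Vale.Agent.P166

open MeasureTheory Finset Vale.Agent.P168 Vale.Agent.P168.PW Vale.Agent.P157 Function Filter Topology
open scoped BigOperators
open UBa

set_option synthInstance.maxSize 4096

theorem UBa.num1 {M S a h η T N X R : ℝ} (hM : 0 ≤ M) (hh : 0 < h) (hη : 0 < η) (hN : 0 < N)
    (hX : 0 < X) (hT : N ≤ X * T) (hR : 0 < R) {c : ℝ} (hc : 0 ≤ c) (ha : 0 ≤ a)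
    (hS : S ≤ c * (6 * N * h / R)) :
    M * ((S + a) / (h * η * T)) ≤ M * (6 * c * X / η) / R + M * X / (h * η) * a / N := by
  have hT0 : 0 < T := pos_of_mul_pos_right (hN.trans_le hT) hX.le
  have h1 : (S + a) / (h * η * T) ≤ (c * (6 * N * h / R) + a) / (h * η * (N / X)) := by
    refine div_le_div₀ (by positivity) (by linarith) (by positivity) ?_
    rw [← div_le_iff₀' hX] at hT
    gcongr
  refine (mul_le_mul_of_nonneg_left h1 hM).trans (le_of_eq ?_)
  field_simp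

theorem avdv (X C θ : ℝ) (hθ : 0 < θ) : ∃ n0 : ℕ, ∀ n, n0 ≤ n → ∀ η : ℝ, 0 < η →
    (n + 1) * (2 * η) ^ 2 ≤ 1 → ∃ (R : ℕ) (_ : NeZero R) (N0 : ℕ), ∀ N, N0 ≤ N → ∃ K0 : ℕ,
    ∀ K, K0 ≤ K → ∀ (𝒞 : Type) [DecidableEq 𝒞] (cl : Fin N → 𝒞) (κ : 𝒞 → ℝ) (top : 𝒞)
      (B : Fin N → Fin (n + 1) → ℝ), (∀ j, |κ j| ≤ C ∧ κ j ≤ κ top) →
      (∀ j, (N : ℝ) ≤ X * ((tp cl j).card - 1)) →
      (unif (Option (Fin (n + 1)) → Fin R)).E (fun z =>
        (sy K cl κ top B (wz η z)).dv (tp cl top).card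
          ((sy K cl κ top B (wz η z)).prf (tp cl top).card)) ≤ θ := by
  obtain ⟨n0, H⟩ := near X (θ / 4) (by positivity)
  obtain ⟨M1, hM1, hhc⟩ := hc X (C + 1)
  refine ⟨n0, fun n hn η hη hη1 => ?_⟩
  obtain ⟨M, hM, H⟩ := H n hn
  have hη2 : 2 * η ≤ 1 := by
    have : (0 : ℝ) ≤ n * (2 * η) ^ 2 := by positivity
    nlinarith
  obtain ⟨R, hR⟩ := exists_nat_gt (M * (6 * (n + 2) * |X| / η) / (θ / 4))
  have hR0 : (0 : ℝ) < R := lt_of_le_of_lt (by positivity) hR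
  have : NeZero R := ⟨by rintro rfl; simp at hR0⟩
  have hR1 : (1 : ℝ) ≤ R := by exact_mod_cast Nat.pos_of_ne_zero (NeZero.ne R)
  have hh : 0 < η / R := by positivity
  have hh1 : η / R ≤ η := div_le_self hη.le hR1
  obtain ⟨N1, hN1⟩ := largeNUB (M * |X| / (η / R * η) * (5 * (n + 2) * M1))
    (M * |X| / (η / R * η)) 1 (θ / 4) (by positivity) (by positivity)
  obtain ⟨N0, hN0⟩ := exists_nat_gt (max N1 |X|)
  obtain ⟨x, hx, hx'⟩ := smallUB M (θ / 4) (by positivity)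
  refine ⟨R, this, N0, fun N hN => ?_⟩
  have hN' : max N1 |X| < N := hN0.trans_le (by exact_mod_cast hN)
  obtain ⟨K1, hK1⟩ := largeKUB ((N : ℝ) ^ 3) (min (1 / 64) x) (by positivity)
  refine ⟨K1, fun K hK 𝒞 _ cl κ top B hκ hX => ?_⟩
  obtain ⟨hK0, hK2⟩ := hK1 K hK
  rw [div_le_iff₀ (Real.sqrt_pos.2 (by exact_mod_cast hK0))] at hK2
  have hK3 : 64 * (N : ℝ) ^ 3 ≤ Real.sqrt K := by
    have := mul_le_mul_of_nonneg_right (min_le_left (1 / 64) x) (Real.sqrt_nonneg K)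
    linarith
  obtain ⟨hX0, hT1, hT⟩ := cls_size ((le_max_right _ _).trans_lt hN') (Nat.cast_nonneg _) (hX top)
  have hN2 : (0 : ℝ) < N := (abs_nonneg X).trans_lt ((le_max_right _ _).trans_lt hN')
  have hI : 0 < Fintype.card (Fin N) := by simpa using hN2
  rw [abs_of_pos hX0] at hR hN1
  have key : ∀ z : Option (Fin (n + 1)) → Fin R,
      (sy K cl κ top B (wz η z)).dv (tp cl top).card
        ((sy K cl κ top B (wz η z)).prf (tp cl top).card) ≤ θ / 4 + M *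
          ((sd (fun δ => (sy K cl κ top B (wz η z + δ)).F) (η / R) +
            5 * (n + 2) * (M1 * Real.sqrt N) + 1) / (η / R * η * (tp cl top).card) +
              min (1 / 64) x) := fun z => by
    have m := wz_mem hη.le z
    have st := sy_st hK0 cl κ top B ((sum_sq_le_of_mem (η := η) (π := wz η z) fun j => by
      constructor <;> linarith [m j]).trans hη1)
    have fl : ∀ j a, |a| ≤ η / R → ((sy K cl κ top B (wz η z)).pert (Pi.single j a)).fl
        (sy K cl κ top B (wz η z + Pi.single j a)).F ≤ M1 * Real.sqrt N := fun j a ha => by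
      have m' : ∀ i, 0 ≤ (wz η z + Pi.single j a : Option (Fin (n + 1)) → ℝ) i ∧
          (wz η z + Pi.single j a : Option (Fin (n + 1)) → ℝ) i ≤ 2 * η := fun i => by
        have := abs_le.1 ha
        by_cases h : i = j
        · subst h
          simp only [Pi.add_apply, Pi.single_eq_same]
          constructor <;> linarith [m i]
        · simp only [Pi.add_apply, Pi.single_eq_of_ne h]
          constructor <;> linarith [m i]
      rw [sy_pert]
      refine (fl_le (sy_P _) (sy_ρ _) _).trans ?_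
      rw [sub_self, abs_zero, add_zero]
      have := hhc n K _ _ _ _ _ (sy_ok (K := K) B hK0 ((sum_sq_le_of_mem m').trans hη1) (m' none).1
        ((m' none).2.trans hη2) hκ hI (by simpa using hX)) (by simpa using hK3)
      simpa using this
    exact H K _ _ _ _ _ _ _ η _ _ _ (fun δ => (sy K cl κ top B (wz η z + δ)).F) st st rfl hT1
      (by simpa using hT) (by simpa using hT) hI hI hη (by linarith) (fun l => (m (some l)).1) hh
      (by simpa using hK2) (by simpa using hK2) ((min_le_left _ _).trans (by norm_num))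
      fun j a ha => ⟨fl j a ha, fl j a ha⟩
  refine (E_mono _ key).trans ?_
  simp only [E_add, E_const, E_const_mul, E_div_const]
  have a1 := avsd (R := R) hK0 cl κ top B hη.le hη1
  rw [Fintype.card_fin] at a1
  have a2 := num1 (a := 5 * (n + 2) * (M1 * Real.sqrt N) + 1) hM hh hη hN2 hX0 hT hR0
    (by positivity) (by positivity) a1
  have a3 := hN1 N ((le_max_left _ _).trans hN'.le) N hN2.le (one_mul _).ge
  have a4 := hx' _ (by positivity) (min_le_right (1 / 64) x)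
  rw [div_lt_iff₀ (by positivity), ← div_lt_iff₀' hR0] at hR
  have a5 : M * X / (η / R * η) * (5 * (n + 2) * (M1 * Real.sqrt N) + 1) / N ≤ θ / 4 := by
    rw [div_le_iff₀ hN2]
    exact le_trans (le_of_eq (by ring)) a3
  rw [← add_assoc] at a2
  rw [mul_add]
  linarith

namespace UBa

variable {n K : ℕ} {I 𝒞 : Type} [Fintype I] [DecidableEq I] [DecidableEq 𝒞] [Fintype 𝒞]
  {cl : I → 𝒞} {κ κ' : 𝒞 → ℝ} {top : 𝒞} {π : Option (Fin (n + 1)) → ℝ} {b : Fin (n + 1) → ℝ}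

/-- the profile of a class -/
noncomputable def rc {Ω : Type} [Fintype Ω] (Y : Sys n K Ω I) (cl : I → 𝒞) (j : 𝒞) (l : ℕ) : ℝ :=
  Y.I2 l (Y.R (tp cl j) (tp cl j).card)

theorem rc_sum {Ω : Type} [Fintype Ω] (Y : Sys n K Ω I) (hc : ∀ j, 0 < (tp cl j).card) (l : ℕ) :
    ∑ j, fq cl j * rc Y cl j l = Y.I2 l (Y.R univ (Fintype.card I)) := by
  have := I2_cls Y hc (fun _ => 1) l
  simp only [one_mul, mul_one] at this
  exact this.symm

omit [Fintype 𝒞] in
theorem rc_nonneg {Ω : Type} [Fintype Ω] (Y : Sys n K Ω I) (j : 𝒞) : 0 ≤ rc Y cl j 0 := by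
  refine integral_nonneg fun U => ?_
  rw [E2_zeroA]
  exact Eh_nonneg fun x => div_nonneg (sum_nonneg fun _ _ => mul_self_nonneg _) (Nat.cast_nonneg _)

theorem rc_one (B : I → Fin (n + 1) → ℝ) (hI : 0 < Fintype.card I)
    (hc : ∀ j, 0 < (tp cl j).card) : ∑ j, fq cl j * rc (sy K cl κ top B π) cl j 0 = 1 := by
  have h : (Fintype.card I : ℝ) ≠ 0 := by exact_mod_cast hI.ne'
  have e : ∀ U x, (sy K cl κ top B π).R univ (Fintype.card I) U x x = 1 := fun U x => by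
    rw [Sys.R, div_eq_one_iff_eq h, ← sum_tt U x]
    exact sum_congr rfl fun i _ => (sq _).symm
  rw [rc_sum _ hc, Sys.I2]
  simp [E2_zeroA, e, Eh_const]

theorem inc (B : I → Fin (n + 1) → ℝ) (hI : 0 < Fintype.card I) (hc : ∀ j, 0 < (tp cl j).card) :
    (sy K cl κ' top B π).F ≤ (sy K cl κ top B π).F + Fintype.card I *
      ((∑ j, fq cl j * (κ' j - κ j) * rc (sy K cl κ' top B π) cl j 0) / 2) := by
  have h : (Fintype.card I : ℝ) ≠ 0 := by exact_mod_cast hI.ne'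
  refine (F_κ_cvx (κ := κ) B).trans (add_le_add le_rfl (le_of_eq ?_))
  have := I2_cls (sy K cl κ' top B π) hc (fun j => κ' j - κ j) 0
  unfold rc
  rw [← this, mul_div_left_comm, mul_comm, Sys.I2]
  simp only [E2_zeroA]
  refine Eq.trans (congrArg _ (funext fun U => funext fun ω => ?_)) (I1_mul _ _ _)
  simp only [← sq]
  change (∑ i, _ * tt U ω i ^ 2) / 2 = _ * ((∑ i, _ * tt U ω i ^ 2) / _)
  field_simp

omit [DecidableEq 𝒞] in
theorem abs_D {a lam ρ : 𝒞 → ℝ} {Λ : ℝ} (ha : ∀ j, 0 ≤ a j) (hρ : ∀ j, 0 ≤ ρ j)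
    (h1 : ∑ j, a j * ρ j = 1) (hΛ : ∀ j, |lam j| ≤ Λ) : |∑ j, a j * lam j * ρ j| ≤ Λ := by
  refine (abs_sum_le_sum_abs _ _).trans ((sum_le_sum (g := fun j => Λ * (a j * ρ j))
    fun j _ => ?_).trans (by rw [← mul_sum, h1, mul_one]))
  rw [mul_right_comm, abs_mul, abs_of_nonneg (mul_nonneg (ha j) (hρ j)), mul_comm]
  exact mul_le_mul_of_nonneg_right (hΛ j) (mul_nonneg (ha j) (hρ j))

omit [Fintype 𝒞] in
theorem cum_le (hK : 0 < K) (hI : 0 < Fintype.card I) (hγ : ∑ l, π (some l) ^ 2 ≤ 1)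
    {B h η δ e E a : ℝ} (k1 : B * (1 / Real.sqrt K) ≤ 1 / 2)
    (k2 : Fintype.card I * (100 * B ^ 2 * (1 / Real.sqrt K)) ≤ 1) (l : Fin (n + 1))
    (hb : η ≤ b l ∧ b l ≤ B) (hh : 0 < h) (hη : 0 < η) (ha : 0 ≤ a) (he1 : e ≤ 1)
    (he : 2 * e ≤ δ / 4) (h1 : 3 / 2 * h ≤ δ / 4 * η)
    (h2 : h + E ≤ δ / 2 * (η * h) * Fintype.card I)
    (H : (sy K cl κ top (fun _ => b + Pi.single l h) π).F - (sy K cl κ top (fun _ => b) π).F ≤
      Fintype.card I * ((b l * h + h ^ 2 / 2) * (1 - a + 2 * e)) + E) :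
    a ≤ cum n (fun j => (sy K cl κ top (fun _ => b) π).I2 j
      ((sy K cl κ top (fun _ => b) π).R univ (Fintype.card I))) l + δ := by
  have hN : (0 : ℝ) < Fintype.card I := by exact_mod_cast hI
  have i1 := (abs_le.1 ((ibp_iso cl κ top b π l hK hI (Bm := B)
    (by rw [abs_of_nonneg (hη.le.trans hb.1)]; exact hb.2) k1).trans k2)).1
  have i2 := F_b_cvx (K := K) (cl := cl) (κ := κ) (top := top) (π := π) (b := b) l h
  have i3 : cum n (fun j => (sy K cl κ top (fun _ => b) π).I2 j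
      ((sy K cl κ top (fun _ => b) π).R univ (Fintype.card I))) l ≤ 1 :=
    cum_le_oneUB l.2.le fun j _ _ => int_le_const _ (by fun_prop) fun U => E2_le_const fun x y =>
      (le_abs_self _).trans (Sys.abs_R_le (sy_st hK cl κ top _ hγ) _ hN (one_mul _).ge U x y)
  have := UBB.numUB (a := 1 - a) (E := E) hh hN hη hb.1 le_rfl (sub_nonneg.2 i3) (by linarith) he1 he
    h1 h2 (El := (sy K cl κ top (fun _ => b) π).I1 fun _ ω => ∑ i, own l i ω) (by linarith)
    (by linarith)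
  linarith

omit [Fintype 𝒞] in
theorem good (X C : ℝ) : ∃ M : ℝ, 0 ≤ M ∧ ∀ (n K : ℕ) (I 𝒞 : Type) [Fintype I] [DecidableEq I]
    [DecidableEq 𝒞] (cl : I → 𝒞) (κ : 𝒞 → ℝ) (top : 𝒞) (B : I → Fin (n + 1) → ℝ)
    (π : Option (Fin (n + 1)) → ℝ) (e g : ℝ), 0 < K → ∑ l, π (some l) ^ 2 ≤ g ^ 2 → 0 ≤ g → g ≤ 1 →
    0 ≤ π none → π none ≤ 1 → (∀ j, |κ j| ≤ C ∧ κ j ≤ κ top) → |X| < Fintype.card I →
    (∀ j, (Fintype.card I : ℝ) ≤ X * ((tp cl j).card - 1)) → 0 ≤ e → X ≤ e * Fintype.card I →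
    (Fintype.card I : ℝ) ^ 3 ≤ e * Real.sqrt K →
    Pr n X ((sy K cl κ top B π).prf (tp cl top).card) ∧ ∀ j,
      nm n (fun l => rc (sy K cl κ top B π) cl j l -
        zc n (ka κ top (π none) top - ka κ top (π none) j)
          ((sy K cl κ top B π).prf (tp cl top).card) l) ≤
        M * ((sy K cl κ top B π).dv (tp cl top).card
          ((sy K cl κ top B π).prf (tp cl top).card) + e + g) := by
  obtain ⟨M, hM, H⟩ := wardB X (C + 1)
  refine ⟨M, hM, fun n K I 𝒞 _ _ _ cl κ top B π e g hK hγ g0 g1 h0 h1 hκ hN hX he he1 he2 => ?_⟩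
  have hγ1 : ∑ l, π (some l) ^ 2 ≤ 1 := hγ.trans (pow_le_one₀ g0 g1)
  have hI : 0 < Fintype.card I := by exact_mod_cast (abs_nonneg X).trans_lt hN
  have ok := sy_ok B hK hγ1 h0 h1 hκ hI hX
  have sz := fun j => cls_size hN (Nat.cast_nonneg _) (hX j)
  have pr := prf_pr ok.toSt (one_pos.trans_le (sz top).2.1) (sz top).2.2
  refine ⟨pr, fun j => (H n K _ _ _ _ _ _ e _ ok ⟨one_pos.trans_le (sz top).2.1, (sz top).2.2,
    by simpa using mul_nonneg he (Nat.cast_nonneg _), ?_, he2⟩ pr (tp cl j) _ ?_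
    (fun i hi => ?_) (sz j).2.2).trans ?_⟩
  · refine le_of_mul_le_mul_left ?_ (sz top).1
    have := mul_le_mul_of_nonneg_left (sz top).2.2 he
    linarith
  · by_cases hj : j = top
    · exact Or.inl (by rw [hj])
    · refine Or.inr (disjoint_filter.2 fun i _ a1 a2 => hj (a1.symm.trans a2))
  · exact congrArg (ka κ top (π none)) (mem_filter.1 hi).2
  · gcongr
    exact Real.sqrt_le_iff.2 ⟨g0, hγ⟩

theorem markov {α : Type} [Fintype α] (μ : PW α) {D dv : α → ℝ} {L Δ thr θ : ℝ} (hthr : 0 < thr)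
    (hθ : θ ≤ thr) (hD : ∀ z, |D z| ≤ L) (h0 : ∀ z, 0 ≤ dv z) (hE : μ.E dv ≤ θ)
    (hg : ∀ z, dv z ≤ thr → D z ≤ Δ) : μ.E D ≤ Δ + 2 * L * θ / thr := by
  obtain ⟨z0, hz⟩ := exists_le_E μ dv
  have hL : 0 ≤ L := (abs_nonneg _).trans (hD z0)
  have h1 : -L ≤ Δ := (abs_le.1 (hD z0)).1.trans (hg z0 (hz.trans (hE.trans hθ)))
  have h2 : ∀ z, D z ≤ Δ + 2 * L / thr * dv z := fun z => by
    rcases le_total (dv z) thr with h | h
    · exact (hg z h).trans (le_add_of_nonneg_right (mul_nonneg (by positivity) (h0 z)))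
    · have := mul_le_mul_of_nonneg_left h (show 0 ≤ 2 * L / thr by positivity)
      rw [div_mul_cancel₀ _ hthr.ne'] at this
      linarith [(abs_le.1 (hD z)).2]
  refine (E_mono _ h2).trans ?_
  rw [E_add, E_const, E_const_mul, mul_div_right_comm (2 * L) θ]
  gcongr

end UBa

end Vale.Agent.P166
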