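import Vale.Agent.P166.Gram
import Vale.Agent.P166.Alg
import Vale.Agent.P157.UB
import Vale.Agent.P157.LBA
import Vale.Agent.P157.Conc
import Vale.Agent.P157.Smooth

/-!
# P166: the concrete universe
-/

namespace Vale.Agent.P166

open MeasureTheory Finset Vale.Agent.P168 Vale.Agent.P168.PW Vale.Agent.P157 Function Filter Topology
open scoped BigOperators

set_option synthInstance.maxSize 4096

abbrev La (n K : ℕ) (I : Type) := Fin 3 × Fin (n + 1) × I × Fin K
abbrev Oa (n K : ℕ) (I : Type) := U (I → Bool) (La n K I)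

variable {n K : ℕ} {I I' 𝒞 : Type}

def lva : La n K I → ℕ := fun l => l.2.1

def fam (n K : ℕ) [DecidableEq I'] (c : Fin 3) (e : I → I') :
    Fam (Fin (n + 1) × (I × Fin K)) (Oa n K I') :=
  (famU (I' → Bool) lva).comap fun l => (c, l.1, e l.2.1, l.2.2)

/-- The field of family `c` and level `l` at site `i`. -/
noncomputable def hf (c : Fin 3) (l : Fin (n + 1)) (i : I) (ω : Oa n K I) : ℝ :=
  (∑ k, sp (ω.2 (c, l, i, k))) / Real.sqrt K

variable [Fintype I] [DecidableEq I] [Fintype I'] [DecidableEq I']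

/-- The isotropic field. -/
noncomputable def Gx (B : I → Fin (n + 1) → ℝ) (ω : Oa n K I) : ℝ :=
  ∑ i, ∑ l, B i l * (hf 0 l i ω * sp (ω.1 i))

variable (n K I) in
noncomputable def Pa : Ch (Oa n K I) := PU (unif (I → Bool)) lva

variable (n K I) in
noncomputable def ρa : PW (Oa n K I) := ρU (unif (I → Bool)) _

/-- A system on the universe of `I'` whose spins are the sites in the range of `e`. -/
noncomputable def gen (e : I → I') (κ : I → ℝ) (S : Finset I) (G : Oa n K I' → ℝ)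
    (γ : Fin (n + 1) → ℝ) : Sys n K (Oa n K I') I where
  P := Pa n K I'
  ρ := ρa n K I'
  σ := fun ω a => sp (ω.1 (e a))
  b := fun _ _ => 0
  G := G
  κ := κ
  S := S
  s := fam n K 1 e
  γ := γ

omit [Fintype I] [DecidableEq I] in
theorem fam_ok (c : Fin 3) {e : I → I'} (he : Injective e) :
    (fam n K c e).Ok (Pa n K I') (ρa n K I') := by
  exact (ok_famU _ _).comap fun a b h => by
    simp only [Prod.mk.injEq, true_and, he.eq_iff] at h
    exact Prod.ext h.1 (Prod.ext h.2.1 h.2.2)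

omit [Fintype I] [DecidableEq I] [Fintype I'] in
theorem fam_π_fst (c : Fin 3) (e : I → I') (l : Fin (n + 1) × (I × Fin K)) (ω : Oa n K I') :
    ((fam n K c e).π l ω).1 = ω.1 := rfl

omit [Fintype I] [DecidableEq I] [Fintype I'] in
theorem fam_π_snd (c : Fin 3) (e : I → I') (l : Fin (n + 1) × (I × Fin K)) (ω : Oa n K I')
    {m : La n K I'} (h : m.1 ≠ c ∨ ∀ a, m.2.2.1 ≠ e a) : ((fam n K c e).π l ω).2 m = ω.2 m := by
  refine update_of_ne ?_ _ _
  rintro rfl
  rcases h with h | h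
  · exact h rfl
  · exact h _ rfl

omit [Fintype I] [DecidableEq I] [Fintype I'] in
theorem hf_inv {c c' : Fin 3} {e : I → I'} {i : I'} (h : c' ≠ c ∨ ∀ a, i ≠ e a) (l : Fin (n + 1)) :
    (fam n K c e).Inv (hf c' l i) := fun m ω => by
  simp only [hf, fun k => fam_π_snd c e m ω (m := (c', l, i, k)) h]

omit [Fintype I] [DecidableEq I] in
theorem Gx_inv {c : Fin 3} (hc : c ≠ 0) (e : I → I') (B : I' → Fin (n + 1) → ℝ) :
    (fam n K c e).Inv (Gx B) := fun m ω => by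
  simp only [Gx, fun l i => hf_inv (n := n) (K := K) (e := e) (i := i) (Or.inl hc.symm) l m ω,
    fam_π_fst]

omit [DecidableEq I] in
theorem gen_st {e : I → I'} (he : Injective e) (κ : I → ℝ) (S : Finset I) {G : Oa n K I' → ℝ}
    (hG : (fam n K 1 e).Inv G) (hK : 0 < K) {γ : Fin (n + 1) → ℝ} (hγ : ∑ l, γ l ^ 2 ≤ 1) :
    (gen e κ S G γ).St where
  ok := fam_ok 1 he
  lv := fun _ _ => rfl
  inv_σ := fun _ _ => rfl
  inv_b := fun _ _ => rfl
  inv_G := hG
  nσ := fun ω => by simp [gen, sq, sp_sq]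
  hK := hK
  hγ := hγ

theorem fl_le {Y : Sys n K (Oa n K I') I} (hP : Y.P = Pa n K I') (hρ : Y.ρ = ρa n K I') (c : ℝ) :
    Y.fl c ≤ ∫ U, |Y.F0 U - Y.F| ∂(hr I) + |Y.F - c| := by
  have c0 := Y.cont_F0
  have h1 : ∀ U, Y.ρ.E (fun ω => |Xn n Y.P (Y.En U) ω - c|) ≤ |Y.F0 U - Y.F| + |Y.F - c| :=
    fun U => by
      have := es (n := n) (𝒜 := Empty) (unif (I' → Bool)) (lva : La n K I' → ℕ) (fun _ => none)
        (Y.En U) (c := 0) (fun a => a.elim) fun l _ => Or.inl (Nat.lt_succ_iff.mp l.2.1.2)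
      rw [zero_mul] at this
      refine (E_mono _ (G := fun ω => |Xn n Y.P (Y.En U) ω - Y.F0 U| +
        (|Y.F0 U - Y.F| + |Y.F - c|)) fun ω =>
          (abs_sub_le _ (Y.F0 U) _).trans (add_le_add le_rfl (abs_sub_le _ _ _))).trans ?_
      rw [E_add_const, Sys.F0, hP, hρ]
      exact add_le_of_nonpos_left this
  refine (int_mono (hr I) (cont_E (m := fun _ => Y.ρ) (fun _ => continuous_const) fun ω =>
    ((cont_Xn n Y.P (Sys.cont_En id continuous_id) ω).sub continuous_const).abs)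
    (by fun_prop) h1).trans (le_of_eq ?_)
  rw [integral_add (intg _ (by fun_prop)) (intg _ (by fun_prop))]
  simp

/-! ### Changing the features of the small field -/

section chg
variable {Ω : Type} [Fintype Ω] {Y : Sys n K Ω I}

omit [DecidableEq I] in
theorem tot_vec (Y : Sys n K Ω I) (v : Ω → I → ℝ) (ω : Ω) :
    tot (fld Y.s fun q ω => v ω q.1 / Real.sqrt K) Y.γ ω = ∑ a, Y.g ω a * v ω a := by
  simp only [tot, fld, Sys.g, Fintype.sum_prod_type, mul_sum, sum_mul]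
  rw [sum_comm]
  exact sum_congr rfl fun a _ => sum_congr rfl fun l _ => sum_congr rfl fun k _ => by ring

omit [Fintype Ω] [DecidableEq I] in
theorem sum_vec (hK : 0 < K) (v d : I → ℝ) :
    ∑ q : I × Fin K, v q.1 / Real.sqrt K * (d q.1 / Real.sqrt K) = ∑ a, v a * d a := by
  have h : (0 : ℝ) < K := by exact_mod_cast hK
  simp only [Fintype.sum_prod_type, div_mul_div_comm, Real.mul_self_sqrt h.le, sum_const,
    card_univ, Fintype.card_fin, nsmul_eq_mul, mul_div_cancel₀ _ h.ne']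

theorem cu_num {N K e : ℝ} (hN : 1 ≤ N) (hK : 0 < K) (he : N ^ 3 ≤ e * Real.sqrt K) :
    Real.sqrt N / Real.sqrt K ≤ e ∧ (Real.sqrt N / Real.sqrt K) ^ 3 * (N * K) ≤ e ∧
      1 / Real.sqrt K ≤ e := by
  have h1 : 0 < Real.sqrt K := Real.sqrt_pos.2 hK
  have h2 : Real.sqrt N ≤ N := Real.sqrt_le_iff.2 ⟨by linarith, by nlinarith⟩
  have h3 : N ≤ N ^ 3 := le_self_pow₀ hN (by norm_num)
  refine ⟨by rw [div_le_iff₀ h1]; linarith, ?_, by rw [div_le_iff₀ h1]; linarith⟩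
  have h4 : (Real.sqrt N / Real.sqrt K) ^ 3 * (N * K) = Real.sqrt N * N ^ 2 / Real.sqrt K := by
    have a := Real.sq_sqrt (show 0 ≤ N by linarith)
    have b := Real.sq_sqrt hK.le
    generalize Real.sqrt N = x at *
    generalize Real.sqrt K = y at *
    subst a b
    field_simp
  rw [h4, div_le_iff₀ h1]
  nlinarith [mul_le_mul_of_nonneg_right h2 (sq_nonneg N)]

omit [DecidableEq I] in
theorem gramV (h : Y.St) {H : Ω → ℝ} (hH : Y.s.Inv H) {v d : Ω → I → ℝ} (hv : Y.s.Inv v)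
    (hd : Y.s.Inv d) (nv : ∀ ω, ∑ a, v ω a ^ 2 ≤ Fintype.card I)
    (nd : ∀ ω, ∑ a, d ω a ^ 2 ≤ Fintype.card I) (ho : ∀ x y, ∑ a, v x a * d y a = 0) {e : ℝ}
    (hI : 0 < Fintype.card I) (he : (Fintype.card I : ℝ) ^ 3 ≤ e * Real.sqrt K) (he1 : e ≤ 1 / 4) :
    Fr n Y.P Y.ρ (fun ω => H ω + ∑ a, Y.g ω a * v ω a) ≤
      Fr n Y.P Y.ρ (fun ω => H ω + ∑ a, Y.g ω a * (v ω a + d ω a)) + 800 * e ∧
    Fr n Y.P Y.ρ (fun ω => H ω + ∑ a, Y.g ω a * (v ω a + d ω a)) ≤
      Fr n Y.P Y.ρ (fun ω => H ω + ∑ a, Y.g ω a * v ω a) + 2 * (∑ l, Y.γ l ^ 2) *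
        Eh n (Tn n Y.P fun ω => H ω + ∑ a, Y.g ω a * (v ω a + d ω a)) Y.ρ 0
          (fun ω => ∑ a, d ω a ^ 2) + 800 * e := by
  obtain ⟨c1, c2, -⟩ := cu_num (N := Fintype.card I) (K := K) (by exact_mod_cast hI)
    (by exact_mod_cast h.hK) he
  have bd : ∀ {v : Ω → I → ℝ}, (∀ ω, ∑ a, v ω a ^ 2 ≤ Fintype.card I) → ∀ (q : I × Fin K) ω,
      |v ω q.1 / Real.sqrt K| ≤ Real.sqrt (Fintype.card I) / Real.sqrt K := fun hv q ω => by
    rw [abs_div, abs_of_nonneg (Real.sqrt_nonneg _)]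
    exact div_le_div_of_nonneg_right (Real.abs_le_sqrt ((single_le_sum (f := fun a => _ ^ 2)
      (fun _ _ => sq_nonneg _) (mem_univ q.1)).trans (hv ω))) (Real.sqrt_nonneg _)
  have fs : FS Y.s (fun q ω => v ω q.1 / Real.sqrt K)
      (Real.sqrt (Fintype.card I) / Real.sqrt K) (Tn n Y.P H) Y.ρ :=
    ⟨h.ok.Tn hH, h.lv, fun q l ω => by rw [hv], bd nv⟩
  have hd' : ∀ q : I × Fin K, Y.s.Inv fun ω => d ω q.1 / Real.sqrt K := fun q l ω => by
    simp only [hd l ω]
  have g1 := gramA fs hd' (bd nd) (c1.trans he1) h.hγ fun x y => by rw [sum_vec h.hK, ho]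
  have g2 := gramG fs hd' (bd nd) (c1.trans he1) h.hγ (c := fun ω => ∑ a, d ω a ^ 2)
    (fun l ω => by simp only [hd l ω]) fun a a0 a1 x y => by
      simp only [add_mul, sum_add_distrib, mul_assoc, ← mul_sum, sum_vec h.hK, ho, zero_add]
      rw [abs_mul, abs_of_nonneg a0, ← sum_add_distrib, sum_div]
      refine (mul_le_of_le_one_left (abs_nonneg _) a1).trans ((abs_sum_le_sum_abs _ _).trans
        (sum_le_sum fun i _ => abs_le.2 ⟨?_, ?_⟩))
      · nlinarith [sq_nonneg (d x i + d y i)]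
      · nlinarith [sq_nonneg (d x i - d y i)]
  simp only [← add_div] at g1 g2
  have e1 := funext (tot_vec Y v)
  have e2 := funext (tot_vec Y fun ω a => v ω a + d ω a)
  rw [e1, e2] at g1 g2
  rw [Tn_Tn] at g2
  simp only [Fintype.card_prod, Fintype.card_fin, Nat.cast_mul] at g1 g2
  rw [Fr_add, Fr_add]
  constructor <;> linarith

theorem En_vec (Y : Sys n K Ω I) (U : OG I) (ω : Ω) : Y.En U ω = Y.H U ω +
    ∑ a, Y.g ω a * act U⁻¹ (fun i => if i ∈ Y.S then Y.t U ω i else 0) a := by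
  rw [Sys.En, Sys.tot_eq]
  have := dot_act U⁻¹ (Y.g ω) fun i => if i ∈ Y.S then Y.t U ω i else 0
  simp only [dotProduct, inv_inv] at this
  rw [this]
  simp

theorem chgS (h : Y.St) {S' : Finset I} (hS : Y.S ⊆ S') {e : ℝ} (hI : 0 < Fintype.card I)
    (he : (Fintype.card I : ℝ) ^ 3 ≤ e * Real.sqrt K) (he1 : e ≤ 1 / 4) (U : OG I) :
    Y.F0 U ≤ ({ Y with S := S' } : Sys n K Ω I).F0 U + 800 * e ∧
      ({ Y with S := S' } : Sys n K Ω I).F0 U ≤ Y.F0 U + 2 * (∑ l, Y.γ l ^ 2) *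
        Eh n (({ Y with S := S' } : Sys n K Ω I).Q U) Y.ρ 0
          (fun ω => ∑ i ∈ S' \ Y.S, Y.t U ω i ^ 2) + 800 * e := by
  have nb : ∀ (A : Finset I) ω, ∑ a, act U⁻¹ (fun i => if i ∈ A then Y.t U ω i else 0) a ^ 2 =
      ∑ i ∈ A, Y.t U ω i ^ 2 := fun A ω => by rw [sum_act_sq]; simp
  have nc : ∀ (A : Finset I) ω, ∑ a, act U⁻¹ (fun i => if i ∈ A then Y.t U ω i else 0) a ^ 2 ≤
      Fintype.card I := fun A ω => (nb A ω).trans_le ((sum_le_sum_of_subset_of_nonneg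
        (subset_univ _) fun _ _ _ => sq_nonneg _).trans (Sys.sum_t_sq h U ω))
  have := gramV h (Sys.inv_H h U)
    (v := fun ω => act U⁻¹ fun i => if i ∈ Y.S then Y.t U ω i else 0)
    (d := fun ω => act U⁻¹ fun i => if i ∈ S' \ Y.S then Y.t U ω i else 0)
    (fun l ω => by simp only [Sys.inv_t h U l ω]) (fun l ω => by simp only [Sys.inv_t h U l ω])
    (nc _) (nc _) (fun x y => by
      have := act_dot U⁻¹ (fun i => if i ∈ Y.S then Y.t U x i else 0)
        fun i => if i ∈ S' \ Y.S then Y.t U y i else 0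
      simp only [dotProduct] at this
      rw [this]
      exact sum_eq_zero fun i _ => by by_cases hi : i ∈ Y.S <;> simp [hi]) hI he he1
  have e2 : (fun ω => Y.H U ω + ∑ a, Y.g ω a *
      (act U⁻¹ (fun i => if i ∈ Y.S then Y.t U ω i else 0) a +
        act U⁻¹ (fun i => if i ∈ S' \ Y.S then Y.t U ω i else 0) a)) =
      ({ Y with S := S' } : Sys n K Ω I).En U := funext fun ω => by
    rw [En_vec]
    refine congrArg _ (sum_congr rfl fun a _ => congrArg _ ?_)
    rw [← Pi.add_apply (act _ _), ← act_add]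
    refine congrFun (congrArg _ (funext fun i => ?_)) a
    by_cases hi : i ∈ Y.S
    · simp [hi, hS hi]; rfl
    · simp [hi]; rfl
  simp only [← En_vec, nb] at this
  rw [e2] at this
  exact this

end chg

end Vale.Agent.P166
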