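import Vale.Agent.P166.Uni

/-!
# P166: symmetries and splitting of the standard systems
-/

namespace Vale.Agent.P166

open MeasureTheory Finset Vale.Agent.P168 Vale.Agent.P168.PW Vale.Agent.P157 Function Filter Topology
open scoped BigOperators

set_option synthInstance.maxSize 4096

variable {n K : ℕ} {I I' 𝒞 : Type} [Fintype I] [DecidableEq I] [Fintype I'] [DecidableEq I']

/-- Permutation matrices. -/
noncomputable def pm (τ : Equiv.Perm I) : OG I :=
  ⟨τ.permMatrix ℝ, by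
    rw [Matrix.mem_orthogonalGroup_iff, Matrix.transpose_permMatrix, ← Matrix.permMatrix_mul]
    simp⟩

theorem act_pm (τ : Equiv.Perm I) (x : I → ℝ) : act (pm τ) x = fun i => x (τ i) :=
  Matrix.permMatrix_mulVec τ

/-- The small field at a site. -/
noncomputable def gf (γ : Fin (n + 1) → ℝ) (ω : Oa n K I') (i : I') : ℝ := ∑ l, γ l * hf 1 l i ω

theorem En_gen (e : I → I') (κ : I → ℝ) (S : Finset I) (G : Oa n K I' → ℝ) (γ : Fin (n + 1) → ℝ)
    (U : OG I) (ω : Oa n K I') : (gen e κ S G γ).En U ω =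
      (∑ i, κ i * act U (fun a => sp (ω.1 (e a))) i ^ 2) / 2 + G ω +
        ∑ i ∈ S, act U (fun a => gf γ ω (e a)) i * act U (fun a => sp (ω.1 (e a))) i := by
  have : (gen e κ S G γ).g ω = fun a => gf γ ω (e a) := funext fun a => by
    simp only [Sys.g, gf, hf, sum_div]; rfl
  rw [Sys.En, Sys.tot_eq, this]
  simp only [Sys.H, gen, zero_mul, sum_const_zero, add_zero]
  rfl

variable [DecidableEq 𝒞]

/-- The rows of class `j`. -/
def tp (cl : I → 𝒞) (j : 𝒞) : Finset I := univ.filter fun i => cl i = j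

/-- Eigenvalues with the top class shifted. -/
noncomputable def ka (κ : 𝒞 → ℝ) (top : 𝒞) (s : ℝ) (j : 𝒞) : ℝ := κ j + if j = top then s else 0

variable (K) in
/-- The standard system. -/
noncomputable def sy (cl : I → 𝒞) (κ : 𝒞 → ℝ) (top : 𝒞) (B : I → Fin (n + 1) → ℝ)
    (π : Option (Fin (n + 1)) → ℝ) : Sys n K (Oa n K I) I :=
  gen id (fun i => ka κ top (π none) (cl i)) (tp cl top) (Gx B) fun l => π (some l)

theorem sy_pert (cl : I → 𝒞) (κ : 𝒞 → ℝ) (top : 𝒞) (B : I → Fin (n + 1) → ℝ)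
    (π δ : Option (Fin (n + 1)) → ℝ) : (sy K cl κ top B π).pert δ = sy K cl κ top B (π + δ) := by
  simp only [sy, Sys.pert, gen, Pi.add_apply]
  congr 1
  funext i
  by_cases h : cl i = top <;> simp [ka, tp, h, add_assoc]

theorem sy_perm (cl : I → 𝒞) (κ : 𝒞 → ℝ) (top : 𝒞) (B : I → Fin (n + 1) → ℝ)
    (π : Option (Fin (n + 1)) → ℝ) (τ : Equiv.Perm I) :
    (sy K (fun i => cl (τ i)) κ top B π).F = (sy K cl κ top B π).F := by
  rw [Sys.F, Sys.F, ← integral_mul_left_eq_self (sy K cl κ top B π).F0 (pm τ.symm)]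
  have : ∀ U, (sy K (fun i => cl (τ i)) κ top B π).En U =
      (sy K cl κ top B π).En (pm τ.symm * U) := fun U => funext fun ω => by
    simp only [sy, En_gen, act_mul, act_pm, tp, sum_filter]
    refine congrArg₂ (· + ·) (congrArg (fun x => x / 2 + _) ?_) ?_
    · exact Fintype.sum_equiv τ _ _ fun i => by simp
    · exact Fintype.sum_equiv τ _ _ fun i => by simp
  refine integral_congr_ae (ae_of_all _ fun U => ?_)
  simp only [Sys.F0, this]
  rfl

theorem sy_cnt {cl cl' : I → 𝒞} (h : ∀ j, (tp cl j).card = (tp cl' j).card) (κ : 𝒞 → ℝ) (top : 𝒞)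
    (B : I → Fin (n + 1) → ℝ) (π : Option (Fin (n + 1)) → ℝ) :
    (sy K cl κ top B π).F = (sy K cl' κ top B π).F := by
  have e : ∀ j, {i // cl i = j} ≃ {i // cl' i = j} := fun j => Fintype.equivOfCardEq (by
    simpa only [Fintype.card_subtype, tp] using h j)
  rw [← sy_perm cl' κ top B π (Equiv.ofFiberEquiv e)]
  simp only [Equiv.ofFiberEquiv_map]

/-- The field energy of one site at one level. -/
noncomputable def own (l : Fin (n + 1)) (i : I) (ω : Oa n K I) : ℝ := hf 0 l i ω * sp (ω.1 i)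

theorem exch (cl : I → 𝒞) (κ : 𝒞 → ℝ) (top : 𝒞) (β : Fin (n + 1) → ℝ)
    (π : Option (Fin (n + 1)) → ℝ) (l : Fin (n + 1)) (i i' : I) :
    (sy K cl κ top (fun _ => β) π).I1 (fun _ => own l i) =
      (sy K cl κ top (fun _ => β) π).I1 fun _ => own l i' := by
  set τ := Equiv.swap i i' with hτ
  let e : La n K I → La n K I := fun m => (m.1, m.2.1, τ m.2.2.1, m.2.2.2)
  have em : Emb (pull (fun (σ : I → Bool) a => σ (τ a)) e) (Pa n K I) (ρa n K I) (Pa n K I)
      (ρa n K I) := emb_pull (UnivX.unif_comp τ.injective) (fun a b h => by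
        simp only [e, Prod.mk.injEq, τ.injective.eq_iff] at h
        exact Prod.ext h.1 (Prod.ext h.2.1 (Prod.ext h.2.2.1 h.2.2.2))) fun _ => rfl
  rw [Sys.I1, Sys.I1, ← integral_mul_right_eq_self _ (pm τ)]
  refine integral_congr_ae (ae_of_all _ fun U => ?_)
  have h1 : (sy K cl κ top (fun _ => β) π).En (U * pm τ) = fun ω =>
      (sy K cl κ top (fun _ => β) π).En U (pull (fun (σ : I → Bool) a => σ (τ a)) e ω) :=
    funext fun ω => by
      simp only [sy, En_gen, act_mul, act_pm]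
      congr 2
      exact (Equiv.sum_comp τ fun a => ∑ l, β l * (hf 0 l a ω * sp (ω.1 a))).symm
  have h2 := (em.Tn (n := n) ((sy K cl κ top (fun _ => β) π).En U)).Eh (n := n) 0 (own l i')
  simp only [Sys.Q, h1]
  refine Eq.trans (Eh_congr fun ω => ?_) h2
  simp only [own, hf, pull, e, hτ, Equiv.swap_apply_right]

omit [DecidableEq I] in
theorem tot_Gx [DecidableEq I] (β : Fin (n + 1) → ℝ) (ω : Oa n K I) :
    tot (fld (fam n K 0 id) fun q ω => sp (ω.1 q.1) / Real.sqrt K) β ω = Gx (fun _ => β) ω := by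
  simp only [tot, fld, Gx, hf, Fintype.sum_prod_type, mul_sum, sum_div, sum_mul]
  rw [sum_comm]
  exact sum_congr rfl fun a _ => sum_congr rfl fun l _ => sum_congr rfl fun k _ => by
    simp only [fam, Fam.comap, famU, id]; ring

theorem fld_own (l : Fin (n + 1)) (ω : Oa n K I) :
    fld (fam n K 0 id) (fun q ω => sp (ω.1 q.1) / Real.sqrt K) l ω = ∑ i, own l i ω := by
  simp only [fld, own, hf, Fintype.sum_prod_type, sum_div, sum_mul]
  exact sum_congr rfl fun a _ => sum_congr rfl fun k _ => by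
    simp only [fam, Fam.comap, famU, id]; ring

theorem int_cum {Ω : Type} [Fintype Ω] (Y : Sys n K Ω I) (A : Finset I) (N : ℝ) (l : ℕ) :
    ∫ U, cum n (prof n (Y.Q U) Y.ρ (Y.R A N U)) l ∂(hr I) =
      cum n (fun j => Y.I2 j (Y.R A N)) l := by
  simp only [cum, prof, Sys.I2]
  rw [integral_const_mul, integral_finsetSum _ fun j _ =>
    intg _ (Y.cch.E2 n Y.ρ j (Sys.cont_R A N))]

theorem ibp_iso (cl : I → 𝒞) (κ : 𝒞 → ℝ) (top : 𝒞) (β : Fin (n + 1) → ℝ)
    (π : Option (Fin (n + 1)) → ℝ) (l : Fin (n + 1)) (hK : 0 < K) (hI : 0 < Fintype.card I)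
    {Bm : ℝ} (hβ : |β l| ≤ Bm) (hB : Bm * (1 / Real.sqrt K) ≤ 1 / 2) :
    |(sy K cl κ top (fun _ => β) π).I1 (fun _ ω => ∑ i, own l i ω) -
      β l * (Fintype.card I * (1 - cum n (fun j => (sy K cl κ top (fun _ => β) π).I2 j
        ((sy K cl κ top (fun _ => β) π).R univ (Fintype.card I))) l))| ≤
      Fintype.card I * (100 * Bm ^ 2 * (1 / Real.sqrt K)) := by
  set Y := sy K cl κ top (fun _ => β) π with hY
  have hK' : (0 : ℝ) < K := by exact_mod_cast hK
  have hN : (0 : ℝ) < Fintype.card I := by exact_mod_cast hI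
  have c1 : Continuous fun U => Eh n (Y.Q U) Y.ρ 0 fun ω => ∑ i, own l i ω :=
    Y.cch.Eh n Y.ρ 0 fun _ => continuous_const
  have c2 : Continuous fun U => cum n (prof n (Y.Q U) Y.ρ (Y.R univ (Fintype.card I) U)) l :=
    (continuous_finsetSum _ fun j _ => Y.cch.E2 n Y.ρ j (Sys.cont_R _ _)).const_mul _
  have key : ∀ U, |(Eh n (Y.Q U) Y.ρ 0 fun ω => ∑ i, own l i ω) - β l * (Fintype.card I *
      (1 - cum n (prof n (Y.Q U) Y.ρ (Y.R univ (Fintype.card I) U)) l))| ≤
      Fintype.card I * (100 * Bm ^ 2 * (1 / Real.sqrt K)) := fun U => by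
    have fs : FS (fam n K 0 id) (fun q (ω : Oa n K I) => sp (ω.1 q.1) / Real.sqrt K)
        (1 / Real.sqrt K) (Tn n Y.P fun ω => Y.En U ω - Gx (fun _ => β) ω) Y.ρ :=
      ⟨(fam_ok 0 injective_id).Tn fun m ω => by
        simp only [hY, sy, En_gen, gf, fam_π_fst, fun l i =>
          hf_inv (n := n) (K := K) (c := 0) (c' := 1) (e := id) (i := i) (Or.inl (by simp)) l m ω]
        ring, fun _ _ => rfl, fun _ _ _ => rfl, fun q ω => by
          rw [abs_div, abs_sp, abs_of_nonneg (Real.sqrt_nonneg _)]⟩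
    have h := ibp_avg fs β l ((mul_le_mul_of_nonneg_right hβ (by positivity)).trans hB) hN
    have e1 : ∀ x y : Oa n K I, ∑ q : I × Fin K, sp (x.1 q.1) / Real.sqrt K *
        (sp (y.1 q.1) / Real.sqrt K) = ∑ i, Y.t U x i * Y.t U y i := fun x y => by
      rw [sum_vec hK (fun a => sp (x.1 a)) fun a => sp (y.1 a)]
      exact (act_dot U _ _).symm
    have e2 : ov (fun (q : I × Fin K) (ω : Oa n K I) => sp (ω.1 q.1) / Real.sqrt K)
        (Fintype.card I) = Y.R univ (Fintype.card I) U :=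
      funext fun x => funext fun y => by rw [ov, e1]; rfl
    have e3 : ∀ x : Oa n K I, ∑ q : I × Fin K, (sp (x.1 q.1) / Real.sqrt K) ^ 2 =
        Fintype.card I := fun x => by
      simp only [sq]
      rw [sum_vec hK (fun a => sp (x.1 a)) fun a => sp (x.1 a)]
      simp [sp_sq]
    rw [Tn_Tn, e2, funext (tot_Gx β), funext (fld_own l)] at h
    simp only [sub_add_cancel, e3, Eh_const] at h
    rw [mul_sub (Fintype.card I : ℝ), mul_one]
    refine h.trans ?_
    have h3 : β l ^ 2 ≤ Bm ^ 2 := by rw [← sq_abs]; exact pow_le_pow_left₀ (abs_nonneg _) hβ 2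
    have h4 : (1 / Real.sqrt K) ^ 2 * K = 1 := by
      rw [div_pow, Real.sq_sqrt hK'.le, one_pow, div_mul_cancel₀ _ hK'.ne']
    simp only [Fintype.card_prod, Fintype.card_fin, Nat.cast_mul]
    calc _ = 100 * β l ^ 2 * ((1 / Real.sqrt K) ^ 2 * K) * Fintype.card I * (1 / Real.sqrt K) := by
          ring
      _ ≤ 100 * Bm ^ 2 * ((1 / Real.sqrt K) ^ 2 * K) * Fintype.card I * (1 / Real.sqrt K) := by
          gcongr
      _ = _ := by rw [h4]; ring
  rw [← int_cum, Sys.I1]
  have e4 : β l * (Fintype.card I * (1 - ∫ U, cum n (prof n (Y.Q U) Y.ρ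
      (Y.R univ (Fintype.card I) U)) l ∂(hr I))) = ∫ U, β l * (Fintype.card I *
      (1 - cum n (prof n (Y.Q U) Y.ρ (Y.R univ (Fintype.card I) U)) l)) ∂(hr I) := by
    rw [integral_const_mul, integral_const_mul, integral_sub (integrable_const _) (intg _ c2)]
    simp
  rw [e4, ← integral_sub (intg _ c1) (intg _ (by fun_prop))]
  exact abs_integral_le_integral_abs.trans (int_le_const _ (by fun_prop) key)

theorem ibp_own (cl : I → 𝒞) (κ : 𝒞 → ℝ) (top : 𝒞) (β : Fin (n + 1) → ℝ)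
    (π : Option (Fin (n + 1)) → ℝ) (l : Fin (n + 1)) (hK : 0 < K) (i : I)
    (hβ : |β l| ≤ 1) (hB : 1 / Real.sqrt K ≤ 1 / 2) :
    |(sy K cl κ top (fun _ => β) π).I1 (fun _ => own l i) -
      β l * (1 - cum n (fun j => (sy K cl κ top (fun _ => β) π).I2 j
        ((sy K cl κ top (fun _ => β) π).R univ (Fintype.card I))) l)| ≤
      100 * (1 / Real.sqrt K) := by
  have hI : 0 < Fintype.card I := Fintype.card_pos_iff.2 ⟨i⟩
  have hN : (0 : ℝ) < Fintype.card I := by exact_mod_cast hI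
  have h := ibp_iso cl κ top β π l hK hI hβ (by linarith)
  have e : (sy K cl κ top (fun _ => β) π).I1 (fun _ ω => ∑ i, own l i ω) =
      Fintype.card I * (sy K cl κ top (fun _ => β) π).I1 fun _ => own l i := by
    rw [← nsmul_eq_mul, ← card_univ, ← sum_const,
      sum_congr rfl fun i' _ => exch cl κ top β π l i i']
    simp only [Sys.I1, Eh_sum]
    exact integral_finsetSum _ fun i' _ =>
      intg _ ((Sys.cch _).Eh n _ 0 fun _ => continuous_const)
  rw [e, mul_left_comm, ← mul_sub, abs_mul, abs_of_pos hN] at h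
  simpa using le_of_mul_le_mul_left h hN

/-! ### Free spins -/

variable (K I) in
/-- Free energy of independent spins in two hierarchical fields. -/
noncomputable def ps (α β : Fin (n + 1) → ℝ) : ℝ :=
  Fr n (Pa n K I) (ρa n K I) fun ω =>
    Gx (fun _ => β) ω + ∑ i, ∑ l, α l * (hf 2 l i ω * sp (ω.1 i))

theorem ps_eq {v : ℕ → ℝ} (hv : v (n + 1) = 0) (β : ℕ → ℝ) :
    ps K I (fun l : Fin (n + 1) => Real.sqrt (v l)) (fun l => β l) =
      psi2 n (unif (I → Bool)) (fun σ i => sp (σ i)) K K v β := by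
  let G : U (I → Bool) ((Fin (n + 1) × I × Fin K) ⊕ (Fin (n + 1) × I × Fin K)) → ℝ := fun ω =>
    ∑ i, (∑ l : Fin (n + 1), Real.sqrt (v l) * Wk (fun k => ω.2 (Sum.inl (l, i, k))) +
      ∑ l : Fin (n + 1), β l * Wk fun k => ω.2 (Sum.inr (l, i, k))) * sp (ω.1 i)
  have h1 := FU_pull (n := n) (μ := unif (I → Bool)) (μ' := unif (I → Bool))
    (lv := Sum.elim (fun l => l.1) fun l => l.1) (lv' := (lva : La n K I → ℕ)) (g := id)
    (e := Sum.elim (fun l => (2, l)) fun l => (0, l)) (fun _ => rfl)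
    (by rintro (a | a) (b | b) h <;> simp_all) (by rintro (_ | _) <;> rfl) G
  have h2 := FU_pull (n := n) (μ := unif (I → Bool)) (μ' := unif (I → Bool))
    (lv := Sum.elim (fun l => l.1) fun l => l.1) (lv' := (lv2 : L2 n I (Fin K) (Fin K) → ℕ))
    (g := id) (e := Sum.map (fun l => (l.1.castSucc, l.2)) id) (fun _ => rfl)
    (by rintro (⟨a, b⟩ | a) (⟨a', b'⟩ | b) h <;> simp_all) (by rintro (_ | _) <;> rfl) G
  rw [← h2] at h1
  refine Eq.trans (congrArg (FU n _ lva) (funext fun ω => ?_))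
    (h1.trans (congrArg (FU n _ lv2) (funext fun ω => ?_)))
  · simp only [G, pull, Gx, hf, Wk, Fintype.card_fin, Sum.elim_inl, Sum.elim_inr, id, add_mul,
      sum_add_distrib, sum_mul, mul_assoc]
    rw [add_comm]
  · simp only [G, pull, hh, id, Sum.map_inl, Sum.map_inr, Fin.sum_univ_castSucc (n := n + 1),
      Fin.val_last, hv, Real.sqrt_zero, zero_mul, add_zero, Fin.val_castSucc]

theorem ps_mem (hK : 0 < K) (α β : Fin (n + 1) → ℝ) : 0 ≤ ps K I α β ∧
    ps K I α β ≤ Fintype.card I * (∑ l, α l ^ 2 + ∑ l, β l ^ 2) / 2 := by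
  have hK' : (0 : ℝ) < K := by exact_mod_cast hK
  have h := lin_two (n := n) (P := Pa n K I) (ρ := ρa n K I) (H := fun _ => 0)
    (s := famU (I → Bool) lva) ((ok_famU _ _).Tn fun _ _ => rfl)
    (v := fun m ω => (![β m.2.1, 0, α m.2.1] m.1) * (sp (ω.1 m.2.2.1) / Real.sqrt K))
    (fun _ _ _ => rfl) (W := Fintype.card I * (∑ l, α l ^ 2 + ∑ l, β l ^ 2)) fun ω => le_of_eq (by
      simp [Fintype.sum_prod_type, Fin.sum_univ_three, mul_pow, div_pow, Real.sq_sqrt hK'.le,
        sq (sp _), sp_sq, ← sum_mul]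
      field_simp
      simp only [← mul_sum, ← sum_mul]
      ring)
  rw [Fr_const] at h
  have e : ps K I α β = Fr n (Pa n K I) (ρa n K I) fun ω => 0 + ∑ m : La n K I,
      sp ((famU (I → Bool) lva).τ m ω) *
        ((![β m.2.1, 0, α m.2.1] m.1) * (sp (ω.1 m.2.2.1) / Real.sqrt K)) := by
    refine congrArg (Fr n (Pa n K I) (ρa n K I)) (funext fun ω => ?_)
    simp only [Fintype.sum_prod_type, Fin.sum_univ_three, Gx, hf, famU, zero_add, sum_div, sum_mul,
      mul_sum, Matrix.cons_val, zero_mul, mul_zero, sum_const_zero, add_zero]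
    congr 1 <;> rw [sum_comm] <;>
      exact sum_congr rfl fun _ _ => sum_congr rfl fun _ _ => sum_congr rfl fun _ _ => by ring
  rw [e]
  simpa using h

theorem split {N : ℕ} (θ : Fin N → ℝ) (S : Finset (Fin N)) (β b α γ : Fin (n + 1) → ℝ) (c : ℝ)
    (U : OG (Fin N)) :
    (gen Fin.succ θ S (fun ω : Oa n K (Fin (N + 1)) => Gx (Fin.cons b fun _ => β) ω + c +
      ∑ l, α l * (hf 2 l 0 ω * sp (ω.1 0))) γ).F0 U =
      (gen id θ S (Gx (K := K) fun _ => β) γ).F0 U + c + ps K (Fin 1) α b := by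
  have h := FU_add (n := n) (μ := unif (Fin (N + 1) → Bool)) (μ1 := unif (Fin N → Bool))
    (μ2 := unif (Fin 1 → Bool)) (lv := (lva : La n K (Fin (N + 1)) → ℕ))
    (lv1 := (lva : La n K (Fin N) → ℕ)) (lv2 := (lva : La n K (Fin 1) → ℕ))
    (g1 := fun σ a => σ a.succ) (g2 := fun σ _ => σ 0)
    (e1 := fun m => (m.1, m.2.1, m.2.2.1.succ, m.2.2.2)) (e2 := fun m => (m.1, m.2.1, 0, m.2.2.2))
    (fun F1 F2 => by
      rw [UnivX.unif_two (e1 := Fin.succ) (e2 := fun _ : Fin 1 => (0 : Fin (N + 1)))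
        (Fin.succ_injective N) (injective_of_subsingleton _) (fun a _ => Fin.succ_ne_zero a)
        fun a b => F1 a * F2 b]
      simp only [E_const_mul, E_mul_const])
    (by rintro ⟨a, b, c, d⟩ ⟨a', b', c', d'⟩ h; simpa using h)
    (by rintro ⟨a, b, c, d⟩ ⟨a', b', c', d'⟩ h; simpa [Subsingleton.elim c c'] using h)
    (fun a b h => Fin.succ_ne_zero _ (congrArg (fun m => m.2.2.1) h)) (fun _ => rfl) (fun _ => rfl)
    ((gen id θ S (Gx (K := K) fun _ => β) γ).En U)
    fun ω => Gx (fun _ => b) ω + ∑ i, ∑ l, α l * (hf 2 l i ω * sp (ω.1 i))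
  rw [add_right_comm]
  refine Eq.trans ?_ (congrArg (· + c) h)
  rw [FU, ← Fr_add_const]
  refine congrArg (Fr n (Pa n K _) (ρa n K _)) (funext fun ω => ?_)
  simp only [En_gen, Gx, Fin.sum_univ_succ (n := N), Fin.cons_zero, Fin.cons_succ,
    Fin.sum_univ_one]
  simp only [pull, hf, gf, id]
  ring

theorem press_eq {N : ℕ} (hN : 0 < N) (β : ℝ) (lam : Fin N → ℝ) (S : Finset (Fin N))
    (U : OG (Fin N)) : N * press β lam U =
      (gen id (fun i => β * lam i) S (Gx (K := K) 0) (0 : Fin (n + 1) → ℝ)).F0 U := by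
  have hN' : (N : ℝ) ≠ 0 := by exact_mod_cast hN.ne'
  rw [press, ← mul_assoc, mul_one_div_cancel hN', one_mul, ← E_unif,
    ← FU_nosign (n := n) _ (lva : La n K (Fin N) → ℕ)]
  refine congrArg (Fr n (Pa n K _) (ρa n K _)) (funext fun ω => ?_)
  have z : ∀ ω : Oa n K (Fin N), (fun a => gf (0 : Fin (n + 1) → ℝ) ω (id a)) = 0 := fun ω =>
    funext fun a => by simp [gf]
  rw [En_gen, z, ← Matrix.mulVec_mulVec, ← Matrix.mulVec_mulVec, Matrix.dotProduct_mulVec,
    Matrix.vecMul_transpose]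
  simp only [Gx, act, Matrix.mulVec_zero, Pi.zero_apply, zero_mul, sum_const_zero, add_zero,
    dotProduct, Matrix.mulVec_diagonal, mul_sum, sum_div, id]
  exact sum_congr rfl fun i _ => by unfold sp; ring

end Vale.Agent.P166
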