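import Vale.Agent.P166.Base
import Vale.Agent.P166.Conv
import Vale.Agent.P166.SD
import Vale.Agent.P157.SphG

/-!
# P166: tools for the Ward identities
-/

namespace Vale.Agent.P166

open MeasureTheory Finset Vale.Agent.P168 Vale.Agent.P168.PW Vale.Agent.P157 Function
open scoped BigOperators

section fac
variable {Ω : Type} [Fintype Ω] {n l : ℕ} {P : Ch Ω} {ρ : PW Ω}

open W in
theorem Rp_facA (hl : l ≤ n + 1) (F R : Ω → Ω → ℝ) (r : ℕ → ℝ) {m : Ω → ℝ} {L : ℝ}
    (h : ∀ j, j ≤ n + 1 → ∀ x z y z', |F x z * (R y z' - r j)| ≤ m x + m z + L * |R y z' - r j|) :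
    |Rp n P ρ l (fun x y z => F x z * R y z) - W.star n (prof n P ρ F) r l| ≤
      4 * (2 * Eh n P ρ 0 m) + (L * E2 n P ρ 0 (fun x y => |R x y - r 0|) +
        2 * (L * E2 n P ρ l fun x y => |R x y - r l|) +
        L * dev n P ρ fun j x y => R x y - r j) := by
  have k : ∀ {i j} (f g u v : Ω → Ω → Ω → ℝ) (q : ℝ),
      (∀ a b c, |f a b c * (g a b c - q)| ≤ u a b c + v a b c) →
      |E3 n P ρ i j (fun a b c => f a b c * g a b c) - E3 n P ρ i j f * q| ≤
        E3 n P ρ i j u + E3 n P ρ i j v := fun f g u v q h => by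
    rw [mul_comm _ q, ← E3_const_mul, ← E3_sub, ← E3_add]
    refine abs_E3_le fun a b c => ?_
    rw [show f a b c * g a b c - q * f a b c = f a b c * (g a b c - q) by ring]
    exact h a b c
  have em : ∀ j, j ≤ n + 1 → E2 n P ρ j (fun x y => m x + m y) = 2 * Eh n P ρ 0 m := fun j hj => by
    rw [E2_add, E2_fst hj, E2_snd hj, two_mul]
  set D : ℕ → ℝ := fun j => L * E2 n P ρ j fun x y => |R x y - r j| with hD
  have kx : ∀ j, j ≤ l → |E3 n P ρ j l (fun a b c => F a b * R c b) - prof n P ρ F j * r l| ≤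
      2 * Eh n P ρ 0 m + D l := fun j hj => by
    have := k (i := j) (j := l) (fun a b _ => F a b) (fun _ b c => R c b) (fun a b _ => m a + m b)
      (fun _ b c => L * |R c b - r l|) (r l) fun a b c => h l hl a b c b
    rwa [E3_12 hj hl, E3_12 hj hl fun a b => m a + m b,
      E3_32 hj fun c b => L * |R c b - r l|, em j (by omega), E2_const_mul] at this
  have ky : ∀ j, j ≤ l → |E3 n P ρ j l (fun a b c => F c b * R a b) - prof n P ρ F l * r j| ≤
      2 * Eh n P ρ 0 m + D j := fun j hj => by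
    have := k (i := j) (j := l) (fun _ b c => F c b) (fun a b _ => R a b) (fun _ b c => m c + m b)
      (fun a b _ => L * |R a b - r j|) (r j) fun a b c => h j (by omega) c b a b
    rwa [E3_32 hj, E3_32 hj fun a b => m a + m b,
      E3_12 hj hl fun c b => L * |R c b - r j|, em l hl, E2_const_mul] at this
  have kz : ∀ j, l ≤ j → j ≤ n + 1 → |E3 n P ρ l j (fun a b c => F a c * R b c) -
      prof n P ρ F j * r j| ≤ 2 * Eh n P ρ 0 m + D j := fun j hj hj' => by
    have := k (i := l) (j := j) (fun a _ c => F a c) (fun _ b c => R b c) (fun a _ c => m a + m c)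
      (fun _ b c => L * |R b c - r j|) (r j) fun a b c => h j hj' a c b c
    rwa [E3_13 hj, E3_13 hj fun a b => m a + m b,
      E3_23 hj fun c b => L * |R c b - r j|, em j hj', E2_const_mul] at this
  have := comb_le (D := D) hl
    (kx 0 (Nat.zero_le l)) (ky 0 (Nat.zero_le l)) (fun j hj => kx j (mem_Icc.mp hj).2)
    (fun j hj => ky j (mem_Icc.mp hj).2) (kz l le_rfl hl)
    (fun j hj => kz j (by have := mem_Icc.mp hj; omega) (mem_Icc.mp hj).2) rfl
  convert this using 2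
  · simp only [Rp, W.star, cum, sum_sub_distrib, ← sum_mul, ← mul_sum]
    ring
  · simp only [hD, dev, ← mul_sum]
    ring

theorem E2_zeroA (F : Ω → Ω → ℝ) : E2 n P ρ 0 F = Eh n P ρ 0 fun x => F x x := by
  simp only [E2, A_of_le (le_refl 0)]

theorem nm_leA {e D : ℕ → ℝ} {c : ℝ} (h : ∀ l, l ≤ n + 1 → |e l| ≤ c + D l) :
    nm n e ≤ 2 * c + (D 0 + wt n * ∑ j ∈ Icc 1 (n + 1), D j) := by
  have h1 := mul_le_mul_of_nonneg_left
    (sum_le_sum fun j (hj : j ∈ Icc 1 (n + 1)) => h j (mem_Icc.mp hj).2) (wt_pos n).le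
  rw [sum_add_distrib, mul_add, wt_sum] at h1
  unfold nm
  linarith [h 0 (by omega)]

theorem nm_facA (F R : Ω → Ω → ℝ) (r : ℕ → ℝ) {m : Ω → ℝ} {L : ℝ}
    (h : ∀ j, j ≤ n + 1 → ∀ x z y z', |F x z * (R y z' - r j)| ≤ m x + m z + L * |R y z' - r j|) :
    nm n (fun l => W.Rp n P ρ l (fun x y z => F x z * R y z) - conv n (prof n P ρ F) r l) ≤
      16 * Eh n P ρ 0 m + 4 * L * (Eh n P ρ 0 (fun x => |R x x - r 0|) +
        dev n P ρ fun j x y => R x y - r j) := by
  refine (nm_leA (c := 4 * (2 * Eh n P ρ 0 m) + (L * E2 n P ρ 0 (fun x y => |R x y - r 0|) +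
    L * dev n P ρ fun j x y => R x y - r j))
    (D := fun l => 2 * (L * E2 n P ρ l fun x y => |R x y - r l|)) fun l hl => ?_).trans_eq ?_
  · rw [conv_eq]; exact (Rp_facA hl F R r h).trans_eq (by ring)
  · simp only [E2_zeroA, dev, ← mul_sum]; ring

theorem nm_profA (R : Ω → Ω → ℝ) (r : ℕ → ℝ) : nm n (fun l => E2 n P ρ l R - r l) ≤
    Eh n P ρ 0 (fun x => |R x x - r 0|) + dev n P ρ fun j x y => R x y - r j := by
  refine (nm_leA (c := 0) (D := fun l => E2 n P ρ l fun x y => |R x y - r l|)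
    fun l _ => ?_).trans_eq ?_
  · have := abs_E2_le (n := n) (P := P) (ρ := ρ) (j := l) fun x y => R x y - r l
    rwa [E2_sub, E2_const, ← zero_add (E2 n P ρ l fun x y => |R x y - r l|)] at this
  · simp only [E2_zeroA, dev, mul_zero, zero_add]

end fac

section int
variable {X : Type} [TopologicalSpace X] [CompactSpace X] [MeasurableSpace X]
  [OpensMeasurableSpace X] (ν : Measure X) [IsFiniteMeasure ν] {n : ℕ}

theorem nm_intA {g : ℕ → X → ℝ} (hg : ∀ l, Continuous (g l)) :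
    nm n (fun l => ∫ U, g l U ∂ν) ≤ ∫ U, nm n (fun l => g l U) ∂ν := by
  simp only [nm]
  rw [integral_add (intg _ (by fun_prop)) (intg _ (by fun_prop)), integral_const_mul,
    integral_finsetSum _ fun j _ => intg _ (by fun_prop)]
  exact add_le_add abs_integral_le_integral_abs (mul_le_mul_of_nonneg_left
    (sum_le_sum fun j _ => abs_integral_le_integral_abs) (wt_pos n).le)

theorem conv_intA {g : ℕ → X → ℝ} (hg : ∀ l, Continuous (g l)) (r : ℕ → ℝ) (l : ℕ) :
    conv n (fun j => ∫ U, g j U ∂ν) r l = ∫ U, conv n (fun j => g j U) r l ∂ν := by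
  simp only [conv, cum]
  rw [integral_sub (intg _ (by fun_prop)) (intg _ (by fun_prop)),
    integral_sub (intg _ (by fun_prop)) (intg _ (by fun_prop)),
    integral_sub (intg _ (by fun_prop)) (intg _ (by fun_prop)),
    integral_sub (intg _ (by fun_prop)) (intg _ (by fun_prop)),
    integral_add (intg _ (by fun_prop)) (intg _ (by fun_prop))]
  simp only [integral_const_mul, integral_mul_const]
  rw [integral_finsetSum _ fun j _ => intg _ (by fun_prop),
    integral_finsetSum _ fun j _ => intg _ (by fun_prop)]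
  simp only [integral_mul_const]

omit [CompactSpace X] [MeasurableSpace X] [OpensMeasurableSpace X] in
theorem cont_convA {g : ℕ → X → ℝ} (hg : ∀ l, Continuous (g l)) (r : ℕ → ℝ) (l : ℕ) :
    Continuous fun U => conv n (fun j => g j U) r l := by
  simp only [conv, cum]; fun_prop

omit [CompactSpace X] [MeasurableSpace X] [OpensMeasurableSpace X] in
theorem cont_nmA {g : ℕ → X → ℝ} (hg : ∀ l, Continuous (g l)) :
    Continuous fun U => nm n fun j => g j U := by
  simp only [nm]; fun_prop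

end int

theorem exp_sqA {Ω I : Type} [Fintype Ω] [Fintype I] (m : PW Ω) (g : Ω → I → ℝ)
    (h : ∀ z : I → ℝ, m.E (fun ω => Real.exp (∑ i, g ω i * z i)) ≤ Real.exp (sqn z / 4)) :
    m.E (fun ω => Real.exp (sqn (g ω) / 2)) ≤ Real.exp (Fintype.card I / 2) := by
  have h1 : ∀ ω, ∫ z, Real.exp (∑ i, g ω i * z i) ∂(gI I) = Real.exp (sqn (g ω) / 2) := fun ω => by
    simpa using tiltG one_pos (g ω) fun _ => 1
  have h2 : ∫ z, Real.exp (sqn z / 4) ∂(gI I) = Real.exp (Fintype.card I / 2 * Real.log 2) := by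
    have := tiltG (I := I) (b := 1 / 2) (by norm_num) 0 fun _ => 1
    simp only [Pi.zero_apply, zero_mul, sum_const_zero, zero_add, mul_one, integral_const,
      probReal_univ, smul_eq_mul, one_div, Real.log_inv, sqn] at this
    convert this using 3
    · simp [sqn]; ring
    · simp
  have i1 : ∀ ω, Integrable (fun z => Real.exp (∑ i, g ω i * z i)) (gI I) := fun ω =>
    Integrable.of_integral_ne_zero (by rw [h1]; exact (Real.exp_pos _).ne')
  have i2 : Integrable (fun z => Real.exp (sqn z / 4)) (gI I) :=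
    Integrable.of_integral_ne_zero (by rw [h2]; exact (Real.exp_pos _).ne')
  simp only [← h1, PW.E, ← integral_const_mul]
  rw [← integral_finsetSum _ fun ω _ => (i1 ω).const_mul _]
  refine (integral_mono (integrable_finsetSum _ fun ω _ => (i1 ω).const_mul _) i2 h).trans ?_
  rw [h2, Real.exp_le_exp]
  exact mul_le_of_le_one_right (by positivity) (by linarith [Real.log_two_lt_d9])

namespace Sys
variable {n K : ℕ} {Ω I : Type} [Fintype Ω] [Fintype I] [DecidableEq I] (Y : Sys n K Ω I)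

/-- The underlying rotated system. -/
noncomputable def toW : W.Sys I Ω := ⟨Y.κ, Y.S, Y.σ, Y.g, Y.b, Y.G⟩

theorem toW_En (U : OG I) : Y.toW.En U = Y.En U := funext fun ω => by
  rw [En, H, tot_eq]
  change (∑ i, Y.κ i * Y.t U ω i ^ 2) / 2 + ∑ i, Y.b ω i * Y.t U ω i +
    ∑ i ∈ Y.S, act U (Y.g ω) i * Y.t U ω i + Y.G ω = _
  ring

theorem toW_Q (U : OG I) : Y.toW.Q n Y.P U = Y.Q U := by rw [W.Sys.Q, toW_En, Q]

@[fun_prop]
theorem cont_tA (ω : Ω) : Continuous fun U => Y.t U ω := by unfold t; fun_prop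

@[fun_prop]
theorem cont_RA (A : Finset I) (N : ℝ) (x y : Ω) : Continuous fun U => Y.R A N U x y :=
  cont_R A N x y

@[fun_prop]
theorem cont_EhA {F : OG I → Ω → ℝ} (hF : ∀ ω, Continuous fun U => F U ω) (j : ℕ) :
    Continuous fun U => Eh n (Y.Q U) Y.ρ j (F U) := Y.cch.Eh n Y.ρ j hF

@[fun_prop]
theorem cont_E2A {F : OG I → Ω → Ω → ℝ} (hF : ∀ x y, Continuous fun U => F U x y) (j : ℕ) :
    Continuous fun U => E2 n (Y.Q U) Y.ρ j (F U) := Y.cch.E2 n Y.ρ j hF

@[fun_prop]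
theorem cont_devA {F : OG I → ℕ → Ω → Ω → ℝ} (hF : ∀ j x y, Continuous fun U => F U j x y) :
    Continuous fun U => dev n (Y.Q U) Y.ρ (F U) := Y.cch.dev n Y.ρ hF

@[fun_prop]
theorem cont_RpA {F : OG I → Ω → Ω → Ω → ℝ} (hF : ∀ x y z, Continuous fun U => F U x y z)
    (j : ℕ) : Continuous fun U => W.Rp n (Y.Q U) Y.ρ j (F U) := W.CC.Rp Y.cch hF j

/-- Distance of the overlap of the rows in `T` from a profile. -/
noncomputable def dT (T : Finset I) (N : ℝ) (r : ℕ → ℝ) : ℝ :=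
  ∫ U, (Eh n (Y.Q U) Y.ρ 0 (fun x => |Y.R T N U x x - r 0|) +
    dev n (Y.Q U) Y.ρ fun j x y => Y.R T N U x y - r j) ∂(hr I)

/-- The summed loop equation for one row. -/
theorem sd_rowA {l : ℕ} (hl : l ≤ n + 1) {T : Finset I} {k : ℝ} (hT : T ⊆ Y.S)
    (hκ : ∀ j ∈ T, Y.κ j = k) (hb : ∀ ω, ∀ j ∈ T, Y.b ω j = 0) {i : I} (hi : i ∉ T) (N e0 : ℝ)
    (a : Ω → ℝ) :
    ∫ U, (T.card / N * E2 n (Y.Q U) Y.ρ l (fun x y => (e0 * Y.t U x i + a x) * Y.t U y i) +
      (k - Y.κ i) * W.Rp n (Y.Q U) Y.ρ l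
        (fun x y z => (e0 * Y.t U x i + a x) * Y.t U z i * Y.R T N U y z) -
      e0 * E2 n (Y.Q U) Y.ρ l (Y.R T N U) - W.Rp n (Y.Q U) Y.ρ l
        (fun x y z => (e0 * Y.t U x i + a x) * Y.b z i * Y.R T N U y z) +
      W.Rp n (Y.Q U) Y.ρ l fun x y z => (if i ∈ Y.S then 0 else 1) * ((e0 * Y.t U x i + a x) *
        (act U (Y.g z) i * Y.R T N U y z +
          Y.t U z i * ((∑ j ∈ T, Y.t U y j * act U (Y.g z) j) / N)))) ∂(hr I) = 0 := by
  have h := fun j (hj : j ∈ T) => Y.toW.sd2 (hr I) (P := Y.P) (ρ := Y.ρ) hl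
    (ne_of_mem_of_not_mem hj hi).symm (f := fun U x => e0 * Y.t U x i + a x)
    (f' := fun U x => e0 * Y.t U x j) (fun _ => by fun_prop) (fun _ => by fun_prop) fun U ω => by
      refine (((Y.toW.hasDerivAt_t i j U ω i).const_mul e0).add_const (a ω)).congr_deriv ?_
      rw [if_pos rfl, if_neg (ne_of_mem_of_not_mem hj hi).symm, sub_zero]
      rfl
  simp only [toW_Q] at h
  have h2 := sum_eq_zero h
  rw [← integral_finsetSum _ fun j _ => intg _ (by fun_prop)] at h2
  have h3 := congrArg (N⁻¹ * ·) h2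
  simp only [mul_zero, ← integral_const_mul] at h3
  rw [← neg_eq_zero, ← integral_neg]
  refine Eq.trans (integral_congr_ae (.of_forall fun U => ?_)) h3
  simp only [sum_add_distrib, ← E2_sum, ← W.Rp_sum, mul_add N⁻¹, ← E2_const_mul,
    ← W.Rp_const_mul]
  have e1 : E2 n (Y.Q U) Y.ρ l (fun x y => N⁻¹ * ∑ j ∈ T, (e0 * Y.t U x j * Y.toW.t U y j -
      (e0 * Y.t U x i + a x) * Y.toW.t U y i)) = E2 n (Y.Q U) Y.ρ l (fun x y => e0 * Y.R T N U x y) -
      E2 n (Y.Q U) Y.ρ l fun x y => T.card / N * ((e0 * Y.t U x i + a x) * Y.t U y i) := by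
    rw [← E2_sub]
    refine E2_congr fun x y => ?_
    change N⁻¹ * ∑ j ∈ T, (e0 * Y.t U x j * Y.t U y j - (e0 * Y.t U x i + a x) * Y.t U y i) = _
    simp only [R, sum_sub_distrib, sum_const, nsmul_eq_mul, mul_assoc, ← mul_sum]
    ring
  have e2 : W.Rp n (Y.Q U) Y.ρ l (fun x y z => N⁻¹ * ∑ j ∈ T,
      (e0 * Y.t U x i + a x) * Y.toW.t U y j * Y.toW.dE i j U z) =
      W.Rp n (Y.Q U) Y.ρ l (fun x y z => (e0 * Y.t U x i + a x) * Y.b z i * Y.R T N U y z) -
      W.Rp n (Y.Q U) Y.ρ l (fun x y z =>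
        (k - Y.κ i) * ((e0 * Y.t U x i + a x) * Y.t U z i * Y.R T N U y z)) -
      W.Rp n (Y.Q U) Y.ρ l fun x y z => (if i ∈ Y.S then 0 else 1) * ((e0 * Y.t U x i + a x) *
        (act U (Y.g z) i * Y.R T N U y z +
          Y.t U z i * ((∑ j ∈ T, Y.t U y j * act U (Y.g z) j) / N))) := by
    rw [← W.Rp_sub, ← W.Rp_sub]
    refine W.Rp_congr fun x y z => ?_
    rw [sum_congr rfl (g := fun j => (e0 * Y.t U x i + a x) * ((Y.b z i - (k - Y.κ i) * Y.t U z i -
      (if i ∈ Y.S then 0 else 1) * act U (Y.g z) i) * (Y.t U y j * Y.t U z j) -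
      (if i ∈ Y.S then 0 else 1) * Y.t U z i * (Y.t U y j * act U (Y.g z) j))) fun j hj => by
        change _ * Y.t U y j * ((Y.κ i - Y.κ j) * (Y.t U z i * Y.t U z j) +
          (Y.b z i * Y.t U z j - Y.b z j * Y.t U z i) +
          ((if i ∈ Y.S then 1 else 0) - if j ∈ Y.S then 1 else 0) *
            (act U (Y.g z) i * Y.t U z j + act U (Y.g z) j * Y.t U z i)) = _
        rw [hκ j hj, hb z j hj, if_pos (hT hj)]
        split_ifs <;> ring]
    simp only [R, ← mul_sum, sum_sub_distrib]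
    ring
  rw [e1, e2]
  ring

/-- From an integrated loop equation to the approximate profile equation. -/
theorem ward_genA (T : Finset I) (N : ℝ) (r : ℕ → ℝ) {F Fb : OG I → Ω → Ω → ℝ}
    {Φ : OG I → Ω → Ω → Ω → ℝ} {m m' φ : OG I → Ω → ℝ} {a0 c e0 e L : ℝ}
    (cF : ∀ x y, Continuous fun U => F U x y) (cb : ∀ x y, Continuous fun U => Fb U x y)
    (cΦ : ∀ x y z, Continuous fun U => Φ U x y z) (cm : ∀ x, Continuous fun U => m U x)
    (cm' : ∀ x, Continuous fun U => m' U x) (cφ : ∀ x, Continuous fun U => φ U x)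
    (hc : 0 ≤ c) (he0 : 0 ≤ e0) (ha : |a0 - 1| ≤ e)
    (H : ∀ l, l ≤ n + 1 → ∫ U, (a0 * E2 n (Y.Q U) Y.ρ l (F U) +
      c * W.Rp n (Y.Q U) Y.ρ l (fun x y z => F U x z * Y.R T N U y z) -
      e0 * E2 n (Y.Q U) Y.ρ l (Y.R T N U) -
      W.Rp n (Y.Q U) Y.ρ l (fun x y z => Fb U x z * Y.R T N U y z) +
      W.Rp n (Y.Q U) Y.ρ l (Φ U)) ∂(hr I) = 0)
    (hF : ∀ U j, j ≤ n + 1 → ∀ x z y z', |F U x z * (Y.R T N U y z' - r j)| ≤
      m U x + m U z + L * |Y.R T N U y z' - r j|)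
    (hb : ∀ U j, j ≤ n + 1 → ∀ x z y z', |Fb U x z * (Y.R T N U y z' - r j)| ≤
      m U x + m U z + L * |Y.R T N U y z' - r j|)
    (hm' : ∀ U x y, |F U x y| ≤ m' U x + m' U y) (hΦ : ∀ U x y z, |Φ U x y z| ≤ φ U z) :
    nm n (fun l => Y.I2 l F + c * conv n (fun j => Y.I2 j F) r l -
      (e0 * r l + conv n (fun j => Y.I2 j Fb) r l)) ≤
      4 * e * Y.I1 m' + (c + 1) * (16 * Y.I1 m + 4 * L * Y.dT T N r) + e0 * Y.dT T N r +
        8 * Y.I1 φ := by
  have c1 := fun l => cont_convA (n := n) (g := fun j U => E2 n (Y.Q U) Y.ρ j (F U))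
    (fun j => Y.cont_E2A cF j) r l
  have c2 := fun l => cont_convA (n := n) (g := fun j U => E2 n (Y.Q U) Y.ρ j (Fb U))
    (fun j => Y.cont_E2A cb j) r l
  set g : ℕ → OG I → ℝ := fun l U => (1 - a0) * E2 n (Y.Q U) Y.ρ l (F U) +
    -c * (W.Rp n (Y.Q U) Y.ρ l (fun x y z => F U x z * Y.R T N U y z) -
      conv n (prof n (Y.Q U) Y.ρ (F U)) r l) +
    e0 * (E2 n (Y.Q U) Y.ρ l (Y.R T N U) - r l) +
    (W.Rp n (Y.Q U) Y.ρ l (fun x y z => Fb U x z * Y.R T N U y z) -
      conv n (prof n (Y.Q U) Y.ρ (Fb U)) r l) + -1 * W.Rp n (Y.Q U) Y.ρ l (Φ U) with hg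
  have cg : ∀ l, Continuous (g l) := fun l =>
    ((((Y.cont_E2A cF l).const_mul _).add (((Y.cont_RpA (fun _ _ _ => by fun_prop) l).sub
      (c1 l)).const_mul _)).add (by fun_prop)).add ((Y.cont_RpA (fun _ _ _ => by fun_prop) l).sub
      (c2 l)) |>.add ((Y.cont_RpA cΦ l).const_mul _)
  rw [nm_congr (b := fun l => ∫ U, g l U ∂(hr I)) fun l hl => by
    have c3 := Y.cont_E2A cF l
    have c4 := c1 l
    have c5 := c2 l
    rw [← add_zero (∫ U, g l U ∂(hr I)), ← H l hl, ← integral_add (intg _ (cg l))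
      (intg _ (by fun_prop))]
    simp only [I2]
    rw [conv_intA _ fun j => Y.cont_E2A cF j, conv_intA _ fun j => Y.cont_E2A cb j,
      show e0 * r l = ∫ _U, e0 * r l ∂(hr I) by simp, ← integral_const_mul,
      ← integral_add (intg _ (by fun_prop)) (intg _ (by fun_prop)),
      ← integral_add (intg _ (by fun_prop)) (intg _ (by fun_prop)),
      ← integral_sub (intg _ (by fun_prop)) (intg _ (by fun_prop))]
    refine integral_congr_ae (.of_forall fun U => ?_)
    simp only [hg]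
    unfold prof
    ring]
  refine (nm_intA _ cg).trans ?_
  simp only [I1, dT, ← integral_const_mul]
  rw [← integral_add (intg _ (by fun_prop)) (intg _ (by fun_prop)), ← integral_const_mul,
    ← integral_add (intg _ (by fun_prop)) (intg _ (by fun_prop)),
    ← integral_add (intg _ (by fun_prop)) (intg _ (by fun_prop)),
    ← integral_add (intg _ (by fun_prop)) (intg _ (by fun_prop))]
  refine int_mono _ (cont_nmA cg) (by fun_prop) fun U => ?_
  have b1 : nm n (fun l => E2 n (Y.Q U) Y.ρ l (F U)) ≤ 2 * (2 * Eh n (Y.Q U) Y.ρ 0 (m' U)) :=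
    nm_le_of_bd fun l hl => (abs_E2_le _).trans ((E2_mono (hm' U)).trans_eq (by
      rw [E2_add, E2_fst hl, E2_snd hl, two_mul]))
  have b2 := nm_facA (P := Y.Q U) (ρ := Y.ρ) _ _ r (hF U)
  have b3 := nm_profA (n := n) (P := Y.Q U) (ρ := Y.ρ) (Y.R T N U) r
  have b4 := nm_facA (P := Y.Q U) (ρ := Y.ρ) _ _ r (hb U)
  have b5 : nm n (fun l => W.Rp n (Y.Q U) Y.ρ l (Φ U)) ≤ 2 * (4 * Eh n (Y.Q U) Y.ρ 0 (φ U)) :=
    nm_le_of_bd fun l hl => by
      simpa [Eh_const] using W.abs_Rp_le (P := Y.Q U) (ρ := Y.ρ) hl (F := fun _ => 0)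
        (G := fun _ => 0) (H := φ U) fun x y z => by simpa using hΦ U x y z
  refine (nm_add_le _ _).trans ((add_le_add ((nm_add_le _ _).trans (add_le_add
    ((nm_add_le _ _).trans (add_le_add (nm_add_le _ _) le_rfl)) le_rfl)) le_rfl).trans ?_)
  simp only [nm_const_mul, abs_neg, abs_one, abs_of_nonneg hc, abs_of_nonneg he0]
  rw [abs_sub_comm] at ha
  have b6 := mul_le_mul ha b1 (nm_nonneg _) ((abs_nonneg _).trans ha)
  nlinarith [mul_le_mul_of_nonneg_left b2 hc, mul_le_mul_of_nonneg_left b3 he0]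

end Sys

end Vale.Agent.P166
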