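import Vale.Agent.P166.Base
import Vale.Agent.P166.Conv
import Vale.Agent.P166.WardA

/-!
# P166: Ward identities
-/

namespace Vale.Agent.P166

open MeasureTheory Finset Vale.Agent.P168 Vale.Agent.P168.PW Vale.Agent.P157 Function Filter Topology
open scoped BigOperators

theorem gmom {n K : ℕ} {Ω I : Type} [Fintype Ω] [Fintype I] [DecidableEq I] {Y : Sys n K Ω I}
    (h : Y.St) (U : OG I) :
    Eh n (Y.Q U) Y.ρ 0 (fun ω => ∑ a, Y.g ω a ^ 2) ≤ 20 * (∑ l, Y.γ l ^ 2) * Fintype.card I := by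
  set Γ := ∑ l, Y.γ l ^ 2 with hΓ
  have hΓ0 : 0 ≤ Γ := sum_nonneg fun _ _ => sq_nonneg _
  rcases hΓ0.eq_or_lt with h0 | h0
  · have : ∀ l, Y.γ l = 0 := fun l => pow_eq_zero_iff two_ne_zero |>.mp
      ((sum_eq_zero_iff_of_nonneg fun _ _ => sq_nonneg _).mp h0.symm l (mem_univ l))
    simp [Sys.g, this, Eh_const, ← h0]
  have hK : (0 : ℝ) < K := by exact_mod_cast h.hK
  have ok := (Sys.fs h U).ok
  have hN : (0 : ℝ) ≤ Fintype.card I := Nat.cast_nonneg _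
  have h1 : Fr n Y.P Y.ρ (Y.H U) ≤ Fr n Y.P Y.ρ (Y.En U) := by
    rw [show Y.En U = fun ω => Y.H U ω + tot (fld Y.s (Y.u U)) Y.γ ω from rfl, Fr_add]
    refine le_add_of_nonneg_right (le_trans (le_of_eq ?_) (Eh_le_Fr _))
    simp only [show tot (fld Y.s (Y.u U)) Y.γ = fun ω => ∑ l, Y.γ l *
      ∑ q, sp (Y.s.τ (l, q) ω) * Y.u U q ω from rfl, Eh_sum, Eh_const_mul]
    refine (sum_eq_zero fun l _ => mul_eq_zero_of_right _ (sum_eq_zero fun q _ => ?_)).symm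
    exact (ok.sy (l, q)).Eh_odd 0 fun ω => by
      rw [(ok.sy _).self, sp_not, (Sys.fs h U).inv q]; ring
  have h2 := exp_sqA (W.law n (Tn n Y.P (Y.H U)) Y.ρ) (fun ω a => (Real.sqrt (2 * Γ))⁻¹ * Y.g ω a)
    fun z => by
      rw [W.law_E]
      have := linmom (n := n) ok (u := fun q _ => (Real.sqrt (2 * Γ))⁻¹ * z q.2.1 * Y.γ q.1 /
        Real.sqrt K) (fun _ _ _ => rfl) (W := sqn z / 2) fun ω => le_of_eq (by
          simp only [Fintype.sum_prod_type, div_pow, mul_pow, inv_pow, Real.sq_sqrt hK.le,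
            Real.sq_sqrt (show 0 ≤ 2 * Γ by positivity), sum_const, card_univ, Fintype.card_fin,
            nsmul_eq_mul, mul_div_cancel₀ _ hK.ne', ← sum_mul, ← mul_sum, ← hΓ, sqn]
          field_simp)
      convert this using 2
      · funext ω
        simp only [Sys.g, Fintype.sum_prod_type, mul_sum, sum_mul]
        rw [sum_comm]
        congr 1
        exact sum_congr rfl fun l _ => sum_congr rfl fun a _ => sum_congr rfl fun k _ => by ring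
      · ring
  simp only [W.law_E, sqn_mul, inv_pow, Real.sq_sqrt (show 0 ≤ 2 * Γ by positivity)] at h2
  have h3 := (Fr_le_log _).trans (Real.log_le_log (E_pos _ fun _ => E_pos _ fun _ =>
    Real.exp_pos _) h2)
  rw [Real.log_exp] at h3
  have h4 := Fr_cvx (n := n) (P := Y.P) (ρ := Y.ρ) (Y.En U)
    fun ω => Y.En U ω + (8 * Γ)⁻¹ * ∑ a, Y.g ω a ^ 2
  have h5 : Fr n Y.P Y.ρ (fun ω => Y.En U ω + (8 * Γ)⁻¹ * ∑ a, Y.g ω a ^ 2) ≤ Fr n Y.P Y.ρ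
      fun ω => (Y.H U ω + (2 * Γ)⁻¹ * sqn (Y.g ω) / 2) + 2 * Γ * Fintype.card I :=
    Fr_mono fun ω => by
      have a1 : ∑ i ∈ Y.S, act U (Y.g ω) i * Y.t U ω i ≤
          ∑ i, ((8 * Γ)⁻¹ * act U (Y.g ω) i ^ 2 + 2 * Γ * Y.t U ω i ^ 2) :=
        (sum_le_sum fun i _ => by
          have : (8 * Γ)⁻¹ * act U (Y.g ω) i ^ 2 + 2 * Γ * Y.t U ω i ^ 2 -
              act U (Y.g ω) i * Y.t U ω i = (8 * Γ)⁻¹ * (act U (Y.g ω) i - 4 * Γ * Y.t U ω i) ^ 2 := by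
            field_simp; ring
          have : 0 ≤ (8 * Γ)⁻¹ * (act U (Y.g ω) i - 4 * Γ * Y.t U ω i) ^ 2 := by positivity
          linarith).trans
          (sum_le_sum_of_subset_of_nonneg (subset_univ _) fun _ _ _ => by positivity)
      rw [sum_add_distrib, ← mul_sum, ← mul_sum, sum_act_sq] at a1
      have a2 := mul_le_mul_of_nonneg_left (Sys.sum_t_sq h U ω) (show 0 ≤ 2 * Γ by positivity)
      have a3 : (2 * Γ)⁻¹ * sqn (Y.g ω) / 2 = 2 * ((8 * Γ)⁻¹ * ∑ a, Y.g ω a ^ 2) := by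
        rw [sqn]; field_simp; ring
      rw [Sys.En, Sys.tot_eq, a3]
      linarith
  rw [Fr_add_const, Fr_add (Y.H U)] at h5
  simp only [add_sub_cancel_left, Eh_const_mul] at h4
  have h6 : (8 * Γ)⁻¹ * Eh n (Y.Q U) Y.ρ 0 (fun ω => ∑ a, Y.g ω a ^ 2) ≤
      5 / 2 * Fintype.card I := by
    have : Γ * Fintype.card I ≤ 1 * Fintype.card I := mul_le_mul_of_nonneg_right h.hγ hN
    change (8 * Γ)⁻¹ * Eh n (Tn n Y.P (Y.En U)) Y.ρ 0 _ ≤ _
    linarith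
  rw [inv_mul_le_iff₀ (by positivity)] at h6
  linarith

theorem two_leW {I : Type} [Fintype I] {B : Finset I} {X : ℝ} (hI : 0 < Fintype.card I)
    (h : (Fintype.card I : ℝ) ≤ X * (B.card - 1)) (hB : 0 < B.card ∨ 0 ≤ X) :
    0 < B.card ∧ 0 < X ∧ (Fintype.card I : ℝ) ≤ X * B.card := by
  have h0 : (0 : ℝ) < Fintype.card I := by exact_mod_cast hI
  have h1 : 0 < B.card := hB.elim id fun hX => Nat.pos_of_ne_zero fun h1 => by
    rw [h1] at h; simp at h; linarith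
  have h2 : (1 : ℝ) ≤ B.card := by exact_mod_cast h1
  have h3 : 0 < X := pos_of_mul_pos_left (h0.trans_le h) (by linarith)
  exact ⟨h1, h3, by nlinarith⟩

theorem m4 (X C : ℝ) : ∃ M : ℝ, 1 ≤ M ∧ ∀ (n K : ℕ) (Ω I : Type) [Fintype Ω] [Fintype I]
    [DecidableEq I] (Y : Sys n K Ω I) (T : Finset I) (κT : ℝ), Y.Ok T κT X C →
    ∀ i, Y.I1 (fun U ω => Y.t U ω i ^ 4) ≤ M := by
  set M0 := (6 * |X| + 4 * ((|C| + 1) * |X|) ^ 2) * (2 * |X| + 4 * ((|C| + 1) * |X|) ^ 2) with hM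
  have hM0 : 0 ≤ M0 := by positivity
  refine ⟨1 + X ^ 2 + M0, by nlinarith [sq_nonneg X], fun n K Ω I _ _ _ Y T κT h i => ?_⟩
  have hb : ∀ ω, |Y.toW.b ω i| ≤ |C| + 1 := fun ω => by
    have := (single_le_sum (f := fun i => Y.b ω i ^ 2) (fun _ _ => sq_nonneg _)
      (mem_univ i)).trans (h.b_bd ω)
    change |Y.b ω i| ≤ _
    nlinarith [le_abs_self C, sq_abs (Y.b ω i), sq_nonneg (|Y.b ω i| - 1), abs_nonneg C]
  rcases Nat.eq_zero_or_pos T.card with h0 | h0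
  · have h1 := h.cT
    rw [h0] at h1
    refine int_le_const _ (by fun_prop) fun U => Eh_le_const fun ω => ?_
    have h2 := (single_le_sum (f := fun i => Y.t U ω i ^ 2) (fun _ _ => sq_nonneg _)
      (mem_univ i)).trans (Sys.sum_t_sq h.toSt U ω)
    have h3 : Y.t U ω i ^ 2 ≤ -X := by simp at h1; linarith
    nlinarith [sq_nonneg (Y.t U ω i)]
  suffices H : ∫ U, Eh n (Y.toW.Q n Y.P U) Y.ρ 0 (fun x => Y.toW.t U x i ^ 4) ∂(hr I) ≤ M0 by
    simp only [Sys.toW_Q] at H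
    exact H.trans (le_add_of_nonneg_left (by positivity))
  obtain ⟨-, hX, hT⟩ := two_leW h.hI h.cT (Or.inl h0)
  rw [← abs_of_pos hX] at hT
  by_cases hiT : i ∈ T
  · exact (Y.toW.mom_free (hr I) h0 h.nσ hT (fun j hj => (h.κ_T j hj).trans (h.κ_T i hiT).symm)
      (fun j hj => iff_of_true (h.TS hj) (h.TS hiT)) h.b_T hb).2
  by_cases hiS : i ∈ Y.S
  · exact (Y.toW.mom_single (hr I) h0 hiT h.nσ hT h.κ_T (h.κ_le i)
      (fun j hj => iff_of_true (h.TS hj) hiS) h.b_T hb).2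
  obtain ⟨B, hiB, hd, hκ, hB⟩ := h.blk i hiS
  obtain ⟨h1, -, hB'⟩ := two_leW h.hI hB (Or.inr hX.le)
  rw [← abs_of_pos hX] at hB'
  exact (Y.toW.mom_free (hr I) h1 h.nσ hB' hκ
    (fun j hj => iff_of_false (disjoint_left.mp hd hj) hiS)
    (fun ω j hj => h.b_S ω j (disjoint_left.mp hd hj)) hb).2

namespace Sys
variable {n K : ℕ} {Ω I : Type} [Fintype Ω] [Fintype I] [DecidableEq I] {Y : Sys n K Ω I}
  {T : Finset I} {κT X C N e M : ℝ} {r : ℕ → ℝ}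

theorem I1_leW {f : OG I → Ω → ℝ} (hf : ∀ ω, Continuous fun U => f U ω) {i : I} {a b : ℝ}
    (hb : 0 ≤ b) (h : ∀ U ω, f U ω ≤ a + b * Y.t U ω i ^ 4)
    (hM : Y.I1 (fun U ω => Y.t U ω i ^ 4) ≤ M) : Y.I1 f ≤ a + b * M := by
  refine (int_mono _ (by fun_prop) (by fun_prop) fun U => Eh_mono (h U)).trans ?_
  simp only [Eh_add, Eh_const, Eh_const_mul]
  rw [integral_add (intg _ (by fun_prop)) (intg _ (by fun_prop)), integral_const_mul]
  simpa [I1] using mul_le_mul_of_nonneg_left hM hb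

omit [DecidableEq I] in
theorem Nz.eW (z : Nz K I T X N e) : 0 < e ∧ N⁻¹ ≤ e ∧ |T.card / N - 1| ≤ e := by
  have := z.hN
  refine ⟨pos_of_mul_pos_left (one_pos.trans_le z.one) this.le, ?_, ?_⟩
  · rw [inv_le_iff_one_le_mul₀ this]; exact z.one
  · rw [div_sub_one this.ne', abs_div, abs_of_pos this, div_le_iff₀ this]; exact z.cT

theorem dT_leW (h : Y.Ok T κT X C) (z : Nz K I T X N e) (hM1 : 1 ≤ M)
    (hM : ∀ i, Y.I1 (fun U ω => Y.t U ω i ^ 4) ≤ M) (r : ℕ → ℝ) :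
    Y.dT T N r ≤ Y.dv N r + 2 * C * M * e := by
  obtain ⟨he, hN, -⟩ := z.eW
  have hN0 := z.hN
  set m : OG I → Ω → ℝ := fun U x => e / 2 * ∑ i ∈ Y.S \ T, Y.t U x i ^ 2 with hm
  have k : ∀ U x y q, |Y.R T N U x y - q| ≤ |Y.R Y.S N U x y - q| + |m U x + m U y| :=
    fun U x y q => by
      have e1 : Y.R T N U x y - q =
          Y.R Y.S N U x y - q - N⁻¹ * ∑ i ∈ Y.S \ T, Y.t U x i * Y.t U y i := by
        rw [R, R, ← sum_sdiff h.TS]; ring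
      rw [e1]
      refine (abs_sub _ _).trans (add_le_add le_rfl (le_trans ?_ (le_abs_self _)))
      refine (abs_mul_le' ((abs_of_pos (inv_pos.mpr hN0)).trans_le hN)
        ((abs_sum_le_sum_abs _ _).trans (sum_le_sum (g := fun i =>
          (Y.t U x i ^ 2 + Y.t U y i ^ 2) / 2) fun i _ => ?_))).trans_eq ?_
      · rw [abs_le]
        constructor <;>
          nlinarith [sq_nonneg (Y.t U x i + Y.t U y i), sq_nonneg (Y.t U x i - Y.t U y i)]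
      · simp only [hm, ← sum_div, sum_add_distrib]; ring
  have m0 : ∀ U x, 0 ≤ m U x := fun U x => by positivity
  have h1 : Y.I1 m ≤ e / 2 * (C * M) := by
    simp only [I1, hm, Eh_const_mul, Eh_sum, integral_const_mul]
    rw [integral_finsetSum _ fun i _ => intg _ (by fun_prop)]
    refine mul_le_mul_of_nonneg_left ((sum_le_card_nsmul _ _ M fun i _ => ?_).trans ?_)
      (by positivity)
    · refine (I1_leW (by fun_prop) (a := 1 / 2) (b := 1 / 2) (by norm_num) (fun U ω => ?_)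
        (hM i)).trans (by linarith)
      nlinarith [sq_nonneg (Y.t U ω i ^ 2 - 1)]
    · rw [nsmul_eq_mul]; exact mul_le_mul_of_nonneg_right h.cS (by linarith)
  have h2 : Y.dT T N r ≤ Y.dv N r + 4 * Y.I1 m := by
    rw [dT, dv, I1, ← integral_const_mul, ← integral_add (intg _ (by fun_prop))
      (intg _ (by fun_prop))]
    refine int_mono _ (by fun_prop) (by fun_prop) fun U => ?_
    have a1 := Eh_mono (n := n) (P := Y.Q U) (ρ := Y.ρ) (j := 0) fun x => k U x x (r 0)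
    have a2 := dev_le_add (n := n) (P := Y.Q U) (ρ := Y.ρ) (G := fun j x y => Y.R Y.S N U x y - r j)
      (H := fun _ x y => m U x + m U y) fun j _ _ x y => k U x y (r j)
    have a3 := dev_le_add (n := n) (P := Y.Q U) (ρ := Y.ρ) (F := fun _ x y => m U x + m U y)
      (G := fun _ x _ => m U x) (H := fun _ _ y => m U y) fun _ _ _ _ _ => abs_add_le _ _
    simp only [dev_fst, dev_snd, abs_of_nonneg (m0 U _)] at a3
    simp only [Eh_add, abs_of_nonneg (add_nonneg (m0 U _) (m0 U _))] at a1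
    linarith
  linarith

theorem abs_R_subW (h : Y.St) (z : Nz K I T X N e) (hr : Pr n X r) (U : OG I) (x y : Ω) {j : ℕ}
    (hj : j ≤ n + 1) : |Y.R T N U x y - r j| ≤ 2 * X := by
  have h1 := abs_le.mp (abs_R_le h T z.hN z.cN U x y)
  have h2 := hr.mem hj
  rw [abs_le]; constructor <;> linarith

end Sys

theorem amW {u v D τ X : ℝ} (hτ : 0 < τ) (hD : |D| ≤ 2 * X) :
    |u * v * D| ≤ τ * u ^ 4 / 2 + τ * v ^ 4 / 2 + X / (2 * τ) * |D| := by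
  have h1 : |u * v| * |D| ≤ τ * |u * v| ^ 2 + |D| ^ 2 / (4 * τ) := by
    have : τ * |u * v| ^ 2 + |D| ^ 2 / (4 * τ) - |u * v| * |D| =
        (2 * τ * |u * v| - |D|) ^ 2 / (4 * τ) := by field_simp; ring
    have : 0 ≤ (2 * τ * |u * v| - |D|) ^ 2 / (4 * τ) := by positivity
    linarith
  have h2 : |D| ^ 2 / (4 * τ) ≤ X / (2 * τ) * |D| := by
    rw [div_le_iff₀ (by positivity)]
    have : X / (2 * τ) * |D| * (4 * τ) = 2 * X * |D| := by field_simp; ring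
    nlinarith [abs_nonneg D]
  rw [sq_abs] at h1
  rw [abs_mul]
  nlinarith [mul_nonneg hτ.le (sq_nonneg (u ^ 2 - v ^ 2))]

theorem numW1 {u t a e0 : ℝ} (hu : u = e0 * t + a) (h0 : 0 ≤ e0) (h1 : e0 ≤ 1) (ha : |a| ≤ 1) :
    u ^ 2 ≤ 2 * t ^ 2 + 2 ∧ u ^ 4 ≤ 8 * t ^ 4 + 8 := by
  have a1 : a ^ 2 ≤ 1 := by have := abs_le.mp ha; nlinarith
  have a2 : (e0 * t) ^ 2 ≤ t ^ 2 := by
    rw [mul_pow]; exact mul_le_of_le_one_left (sq_nonneg _) (by nlinarith)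
  have a3 : u ^ 2 ≤ 2 * t ^ 2 + 2 := by rw [hu]; nlinarith [sq_nonneg (e0 * t - a)]
  refine ⟨a3, ?_⟩
  have := pow_le_pow_left₀ (sq_nonneg _) a3 2
  nlinarith [sq_nonneg (t ^ 2 - 1)]

theorem numW2 {u v t s τ C D X : ℝ} (hτ : 0 < τ) (hD : |D| ≤ 2 * X) (hu : u ^ 4 ≤ 8 * t ^ 4 + 8)
    (hv : v ^ 4 ≤ s ^ 4 + C ^ 2) : |u * v * D| ≤ τ * (4 + C ^ 2 / 2) + 5 * τ * t ^ 4 +
      (τ * (4 + C ^ 2 / 2) + 5 * τ * s ^ 4) + X / (2 * τ) * |D| := by
  refine (amW hτ hD).trans ?_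
  have h1 := mul_le_mul_of_nonneg_left hu hτ.le
  have h2 := mul_le_mul_of_nonneg_left hv hτ.le
  have h3 : 0 ≤ τ * t ^ 4 := by positivity
  have h4 : 0 ≤ τ * s ^ 4 := by positivity
  have h5 : 0 ≤ τ * C ^ 2 := by positivity
  linarith

theorem numW3 {u t s : ℝ} (hu : u ^ 2 ≤ 2 * t ^ 2 + 2) :
    |u * s| ≤ 2 + 1 * t ^ 4 + (2 + 1 * s ^ 4) := by
  rw [abs_le]
  constructor <;> nlinarith [sq_nonneg (u + s), sq_nonneg (u - s), sq_nonneg (t ^ 2 - 1),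
    sq_nonneg (s ^ 2 - 1), sq_nonneg (t ^ 2), sq_nonneg (s ^ 2)]

theorem numW4 {X C M τ c e e0 d dT i1 i2 : ℝ} (hX : 0 ≤ X) (hC : 0 ≤ C) (hM : 1 ≤ M) (hτ : 0 < τ)
    (hc' : c ≤ 2 * C) (he : 0 < e) (h1 : e0 ≤ 1) (hd : 0 ≤ d) (hT : 0 ≤ dT)
    (g3 : dT ≤ d + 2 * C * M * e) (g7 : 0 ≤ i1) (g1 : i1 ≤ τ * (4 + C ^ 2 / 2) + 5 * τ * M)
    (g2 : i2 ≤ 2 + 1 * M) (g0 : 0 ≤ i2) (hc : 0 ≤ c) (h0 : 0 ≤ e0) :
    (1 + 7 * c * X) * (4 * e * i2 + (c + 1) * (16 * i1 + 4 * (X / (2 * τ)) * dT) + e0 * dT +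
      8 * 0) ≤ (1 + 14 * C * X) * ((2 * C + 1) * (16 * (4 + C ^ 2 / 2 + 5 * M))) * τ +
      (1 + 14 * C * X) * (((2 * C + 1) * (4 * (X / (2 * τ))) + 1) * (1 + 2 * C * M) +
        4 * (2 + M)) * (d + e) := by
  have a0 : dT ≤ (1 + 2 * C * M) * (d + e) := by
    have : 0 ≤ C * M * d := by positivity
    nlinarith
  calc _ ≤ (1 + 7 * (2 * C) * X) * (4 * (d + e) * (2 + M) + (2 * C + 1) *
        (16 * (τ * (4 + C ^ 2 / 2 + 5 * M)) + 4 * (X / (2 * τ)) * ((1 + 2 * C * M) * (d + e))) +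
        1 * ((1 + 2 * C * M) * (d + e)) + 8 * 0) := by gcongr <;> linarith
    _ = _ := by ring

theorem numW5 {s : ℝ} (hs : 0 < s) (u v : ℝ) : |u * v| ≤ (s * u ^ 2 + s⁻¹ * v ^ 2) / 2 := by
  have : (s * |u| ^ 2 + s⁻¹ * |v| ^ 2) / 2 - |u| * |v| = s⁻¹ * (s * |u| - |v|) ^ 2 / 2 := by
    field_simp; ring
  have h : 0 ≤ s⁻¹ * (s * |u| - |v|) ^ 2 / 2 := by positivity
  rw [abs_mul, ← sq_abs u, ← sq_abs v]
  linarith

theorem numW6 {X s e c b N E : ℝ} (hX : 0 ≤ X) (hs : 0 ≤ s) (he : 0 < e) (hc : 0 < c) (hb : 0 < b)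
    (hN : 0 < N) (h1 : c ≤ X * b) (h2 : c ≤ X * N) (h : E ≤ 20 * s ^ 2 * c) :
    X * (b⁻¹ + N⁻¹) * (2⁻¹ * ((s + e) * c + (s + e)⁻¹ * E)) ≤ 21 * X ^ 2 * (s + e) := by
  have a1 : (s + e)⁻¹ * E ≤ 20 * (s + e) * c := by
    rw [inv_mul_le_iff₀ (by positivity)]
    refine h.trans ?_
    have : s ^ 2 ≤ (s + e) ^ 2 := by gcongr; linarith
    nlinarith
  have a2 : (b⁻¹ + N⁻¹) * c ≤ 2 * X := by
    rw [← inv_mul_le_iff₀' hb] at h1
    rw [← inv_mul_le_iff₀' hN] at h2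
    linarith
  calc _ ≤ X * (b⁻¹ + N⁻¹) * (2⁻¹ * ((s + e) * c + 20 * (s + e) * c)) := by gcongr
    _ = 21 / 2 * X * (s + e) * ((b⁻¹ + N⁻¹) * c) := by ring
    _ ≤ 21 / 2 * X * (s + e) * (2 * X) := by gcongr
    _ = _ := by ring

theorem numW7 {X C M c e s d dT i1 : ℝ} (hX : 0 ≤ X) (hC : 0 ≤ C) (hM : 1 ≤ M) (hc : 0 ≤ c)
    (hc' : c ≤ 2 * C) (he : 0 < e) (hs : 0 ≤ s) (hd : 0 ≤ d) (hT : 0 ≤ dT)
    (g3 : dT ≤ d + 2 * C * M * e) (g1 : i1 ≤ 21 * X ^ 2 * (s + e)) (g0 : 0 ≤ i1) :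
    (1 + 7 * c * X) * (4 * e * (X / 2) + (c + 1) * (16 * 0 + 4 * X * dT) + 1 * dT + 8 * i1) ≤
      (1 + 14 * C * X) * (2 * X + ((2 * C + 1) * (4 * X) + 1) * (1 + 2 * C * M) + 168 * X ^ 2) *
        (d + e + s) := by
  have a0 : dT ≤ (1 + 2 * C * M) * (d + e + s) := by
    have : 0 ≤ C * M * (d + s) := by positivity
    nlinarith
  calc _ ≤ (1 + 7 * (2 * C) * X) * (4 * (d + e + s) * (X / 2) + (2 * C + 1) *
        (16 * 0 + 4 * X * ((1 + 2 * C * M) * (d + e + s))) +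
        1 * ((1 + 2 * C * M) * (d + e + s)) + 8 * (21 * X ^ 2 * (d + e + s))) := by
        gcongr
        · linarith
        · exact g1.trans (mul_le_mul_of_nonneg_left (by linarith) (by positivity))
    _ = _ := by ring

theorem wardS (X C θ : ℝ) (hθ : 0 < θ) : ∃ M : ℝ, 0 ≤ M ∧ ∀ (n K : ℕ) (Ω I : Type) [Fintype Ω]
    [Fintype I] [DecidableEq I] (Y : Sys n K Ω I) (T : Finset I) (κT N e : ℝ) (r : ℕ → ℝ),
    Y.Ok T κT X C → Sys.Nz K I T X N e → Pr n X r → ∀ e0 : ℝ, 0 ≤ e0 → e0 ≤ 1 → ∀ a : Ω → ℝ,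
    (∀ ω, |a ω| ≤ 1) → ∀ i ∈ Y.S \ T,
      nm n (fun l => Y.I2 l (fun U x y => (e0 * Y.t U x i + a x) * Y.t U y i) -
        conv n (fun j => e0 * W.one0 j + Y.I2 j fun U x y => (e0 * Y.t U x i + a x) * Y.b y i)
          (zc n (κT - Y.κ i) r) l) ≤ θ + M * (Y.dv N r + e) := by
  obtain ⟨M, hM1, hM⟩ := m4 X C
  obtain ⟨τ, hτ, hτ'⟩ : ∃ τ : ℝ, 0 < τ ∧
      (1 + 14 * |C| * |X|) * ((2 * |C| + 1) * (16 * (4 + C ^ 2 / 2 + 5 * M))) * τ = θ :=
    ⟨θ / ((1 + 14 * |C| * |X|) * ((2 * |C| + 1) * (16 * (4 + C ^ 2 / 2 + 5 * M)))),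
      by positivity, by field_simp⟩
  refine ⟨(1 + 14 * |C| * |X|) * (((2 * |C| + 1) * (4 * (|X| / (2 * τ))) + 1) * (1 + 2 * |C| * M) +
    4 * (2 + M)), by positivity,
    fun n K Ω I _ _ _ Y T κT N e r h z hp e0 h0 h1 a ha i hi => ?_⟩
  obtain ⟨hiS, hiT⟩ := mem_sdiff.mp hi
  replace hM := hM n K Ω I Y T κT h
  obtain ⟨he, -, hz⟩ := z.eW
  have hX : 0 ≤ X := (hp.mem (Nat.zero_le _)).1.trans hp.le
  have hC : 0 ≤ C := (Nat.cast_nonneg _).trans h.cS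
  rw [← hτ', abs_of_nonneg hX, abs_of_nonneg hC]
  have hc : 0 ≤ κT - Y.κ i := sub_nonneg.mpr (h.κ_le i)
  have hc' : κT - Y.κ i ≤ 2 * C := by linarith [(abs_le.mp h.κT_bd).2, (abs_le.mp (h.κ_bd i)).1]
  have f2 := fun U x => numW1 (rfl : e0 * Y.t U x i + a x = _) h0 h1 (ha x)
  have b4 : ∀ x, Y.b x i ^ 4 ≤ C ^ 2 := fun x => by
    have := pow_le_pow_left₀ (sq_nonneg _) ((single_le_sum (f := fun i => Y.b x i ^ 2)
      (fun _ _ => sq_nonneg _) (mem_univ i)).trans (h.b_bd x)) 2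
    rwa [← pow_mul] at this
  have G := Y.ward_genA T N r (F := fun U x y => (e0 * Y.t U x i + a x) * Y.t U y i)
    (Fb := fun U x y => (e0 * Y.t U x i + a x) * Y.b y i) (Φ := fun _ _ _ _ => 0)
    (m := fun U x => τ * (4 + C ^ 2 / 2) + 5 * τ * Y.t U x i ^ 4)
    (m' := fun U x => 2 + 1 * Y.t U x i ^ 4) (φ := fun _ _ => 0) (L := X / (2 * τ))
    (by fun_prop) (by fun_prop) (by fun_prop) (by fun_prop) (by fun_prop) (by fun_prop) hc h0 hz
    (fun l hl => by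
      simpa only [if_pos hiS, zero_mul] using Y.sd_rowA hl h.TS h.κ_T h.b_T hiT N e0 a)
    (fun U j hj x y y' z' => numW2 hτ (Sys.abs_R_subW h.toSt z hp U y' z' hj) (f2 U x).2
      (le_add_of_nonneg_right (sq_nonneg C)))
    (fun U j hj x y y' z' => numW2 hτ (Sys.abs_R_subW h.toSt z hp U y' z' hj) (f2 U x).2
      ((b4 y).trans (le_add_of_nonneg_left (by positivity))))
    (fun U x y => numW3 (f2 U x).1) (fun _ _ _ _ => by simp)
  have g1 := Sys.I1_leW (Y := Y) (f := fun U x => τ * (4 + C ^ 2 / 2) + 5 * τ * Y.t U x i ^ 4)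
    (by fun_prop) (by positivity) (fun _ _ => le_rfl) (hM i)
  have g2 := Sys.I1_leW (Y := Y) (f := fun U x => 2 + 1 * Y.t U x i ^ 4)
    (by fun_prop) (by positivity) (fun _ _ => le_rfl) (hM i)
  have g4 : Y.I1 (fun _ _ => 0) = 0 := by simp [Sys.I1, Eh_const]
  rw [g4] at G
  refine (solve hp hc (le_trans (le_of_eq ?_) G)).trans (numW4 hX hC hM1 hτ hc' he h1
    (Sys.dv_nonneg N r)
    (integral_nonneg fun _ => add_nonneg (Eh_nonneg fun _ => abs_nonneg _) (dev_nonneg _))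
    (Sys.dT_leW h z hM1 hM r) (integral_nonneg fun _ => Eh_nonneg fun _ => by positivity) g1 g2
    (integral_nonneg fun _ => Eh_nonneg fun _ => by positivity) hc h0)
  simp only [conv_eq, W.star_add_left, W.star_const_mul_left, W.star_one]

theorem ward1 (X C θ : ℝ) (hθ : 0 < θ) : ∃ M : ℝ, 0 ≤ M ∧ ∀ (n K : ℕ) (Ω I : Type) [Fintype Ω]
    [Fintype I] [DecidableEq I] (Y : Sys n K Ω I) (T : Finset I) (κT N e : ℝ) (r : ℕ → ℝ),
    Y.Ok T κT X C → Sys.Nz K I T X N e → Pr n X r → (∀ ω i, Y.b ω i = 0) → ∀ i ∈ Y.S \ T,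
      |Y.I1 (fun U ω => Y.t U ω i ^ 2) - zc n (κT - Y.κ i) r 0| ≤ θ + M * (Y.dv N r + e) := by
  obtain ⟨M, hM, H⟩ := wardS X C θ hθ
  refine ⟨M, hM, fun n K Ω I _ _ _ Y T κT N e r h z hr hb i hi => ?_⟩
  have := (abs_zero_le_nm _).trans
    (H n K Ω I Y T κT N e r h z hr 1 zero_le_one le_rfl (fun _ => 0) (by simp) i hi)
  simpa [hb, Sys.I2, Sys.I1, E2_const, E2_zeroA, conv_eq, W.star_one, sq] using this

theorem wardE (X C θ : ℝ) (hθ : 0 < θ) : ∃ M : ℝ, 0 ≤ M ∧ ∀ (n K : ℕ) (Ω I : Type) [Fintype Ω]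
    [Fintype I] [DecidableEq I] (Y : Sys n K Ω I) (T : Finset I) (κT N e : ℝ) (r : ℕ → ℝ),
    Y.Ok T κT X C → Sys.Nz K I T X N e → Pr n X r → ∀ a : Ω → ℝ, (∀ ω, |a ω| ≤ 1) →
    ∀ i ∈ Y.S \ T, |Y.I1 (fun U ω => a ω * Y.t U ω i) -
      conv n (fun j => Y.I2 j fun _ x y => a x * Y.b y i) (zc n (κT - Y.κ i) r) 0| ≤
        θ + M * (Y.dv N r + e) := by
  obtain ⟨M, hM, H⟩ := wardS X C θ hθ
  refine ⟨M, hM, fun n K Ω I _ _ _ Y T κT N e r h z hr a ha i hi => ?_⟩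
  have := (abs_zero_le_nm _).trans
    (H n K Ω I Y T κT N e r h z hr 0 le_rfl zero_le_one a ha i hi)
  simpa only [zero_mul, zero_add, Sys.I2, Sys.I1, E2_zeroA] using this

theorem sd_blkW {n K : ℕ} {Ω I : Type} [Fintype Ω] [Fintype I] [DecidableEq I] {Y : Sys n K Ω I}
    {T : Finset I} {κT X C N κB : ℝ} (h : Y.Ok T κT X C) (hN : 0 < N) {l : ℕ} (hl : l ≤ n + 1)
    {B : Finset I} (hB : B = T ∨ Disjoint B Y.S) (hκ : ∀ i ∈ B, Y.κ i = κB)
    (hB0 : (0 : ℝ) < B.card) :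
    ∫ U, (T.card / N * E2 n (Y.Q U) Y.ρ l (Y.R B B.card U) + (κT - κB) *
      W.Rp n (Y.Q U) Y.ρ l (fun x y z => Y.R B B.card U x z * Y.R T N U y z) -
      1 * E2 n (Y.Q U) Y.ρ l (Y.R T N U) -
      W.Rp n (Y.Q U) Y.ρ l (fun _ y z => 0 * Y.R T N U y z) +
      W.Rp n (Y.Q U) Y.ρ l fun x y z => if B = T then 0 else
        (∑ i ∈ B, Y.t U x i * act U (Y.g z) i) / B.card * Y.R T N U y z +
          Y.R B B.card U x z * ((∑ j ∈ T, Y.t U y j * act U (Y.g z) j) / N)) ∂(hr I) = 0 := by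
  have R0 : ∀ U, W.Rp n (Y.Q U) Y.ρ l (fun _ _ _ => 0) = 0 := fun U => by
    simpa using W.Rp_const_mul (n := n) (l := l) (P := Y.Q U) (ρ := Y.ρ) 0 fun _ _ _ => 0
  obtain ⟨i0, hi0⟩ := card_pos.mp (Nat.cast_pos.mp hB0)
  by_cases hBT : B = T
  · subst hBT
    have : κT - κB = 0 := by rw [← h.κ_T i0 hi0, hκ i0 hi0, sub_self]
    simp only [this, zero_mul, if_true, R0, add_zero, sub_zero, one_mul, ← E2_const_mul]
    refine integral_eq_zero_of_ae (.of_forall fun U => sub_eq_zero.mpr (E2_congr fun x y => ?_))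
    simp only [Sys.R]; field_simp
  have hd := hB.resolve_left hBT
  have h2 := sum_eq_zero fun i (hi : i ∈ B) => Y.sd_rowA hl h.TS h.κ_T h.b_T
    (fun hT => disjoint_left.mp hd hi (h.TS hT)) N ((B.card : ℝ)⁻¹) fun _ => 0
  rw [← integral_finsetSum _ fun i _ => intg _ (by fun_prop)] at h2
  refine Eq.trans (integral_congr_ae (.of_forall fun U => ?_)) h2
  have p1 : E2 n (Y.Q U) Y.ρ l (Y.R B B.card U) = ∑ i ∈ B, E2 n (Y.Q U) Y.ρ l
      fun x y => ((B.card : ℝ)⁻¹ * Y.t U x i + 0) * Y.t U y i := by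
    rw [← E2_sum]
    exact E2_congr fun x y => by simp only [Sys.R, add_zero, mul_assoc, ← mul_sum]; ring
  have p2 : W.Rp n (Y.Q U) Y.ρ l (fun x y z => Y.R B B.card U x z * Y.R T N U y z) =
      ∑ i ∈ B, W.Rp n (Y.Q U) Y.ρ l
        fun x y z => ((B.card : ℝ)⁻¹ * Y.t U x i + 0) * Y.t U z i * Y.R T N U y z := by
    rw [← W.Rp_sum]
    refine W.Rp_congr fun x y z => ?_
    rw [← sum_mul, Sys.R]
    simp only [add_zero, mul_assoc, ← mul_sum]; ring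
  have p3 : W.Rp n (Y.Q U) Y.ρ l (fun x y z =>
      (∑ i ∈ B, Y.t U x i * act U (Y.g z) i) / B.card * Y.R T N U y z +
        Y.R B B.card U x z * ((∑ j ∈ T, Y.t U y j * act U (Y.g z) j) / N)) =
      ∑ i ∈ B, W.Rp n (Y.Q U) Y.ρ l fun x y z => 1 * (((B.card : ℝ)⁻¹ * Y.t U x i + 0) *
        (act U (Y.g z) i * Y.R T N U y z +
          Y.t U z i * ((∑ j ∈ T, Y.t U y j * act U (Y.g z) j) / N))) := by
    rw [← W.Rp_sum]
    refine W.Rp_congr fun x y z => ?_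
    generalize Y.R T N U y z = ρ'
    generalize (∑ j ∈ T, Y.t U y j * act U (Y.g z) j) / N = σ'
    rw [Sys.R, sum_div, sum_div, sum_mul, sum_mul, ← sum_add_distrib]
    exact sum_congr rfl fun i _ => by ring
  have p4 : 1 * E2 n (Y.Q U) Y.ρ l (Y.R T N U) =
      ∑ _i ∈ B, (B.card : ℝ)⁻¹ * E2 n (Y.Q U) Y.ρ l (Y.R T N U) := by
    rw [sum_const, nsmul_eq_mul, ← mul_assoc, mul_inv_cancel₀ hB0.ne']
  simp only [if_neg hBT, zero_mul, R0, sub_zero]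
  rw [p1, p2, p3, p4, mul_sum, mul_sum, ← sum_add_distrib, ← sum_sub_distrib, ← sum_add_distrib]
  refine sum_congr rfl fun i hi => ?_
  rw [hκ i hi, if_neg (disjoint_left.mp hd hi)]
  simp only [h.b_S _ i (disjoint_left.mp hd hi), mul_zero, zero_mul, R0, sub_zero]

theorem wardB (X C : ℝ) : ∃ M : ℝ, 0 ≤ M ∧ ∀ (n K : ℕ) (Ω I : Type) [Fintype Ω]
    [Fintype I] [DecidableEq I] (Y : Sys n K Ω I) (T : Finset I) (κT N e : ℝ) (r : ℕ → ℝ),
    Y.Ok T κT X C → Sys.Nz K I T X N e → Pr n X r → ∀ (B : Finset I) (κB : ℝ),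
    B = T ∨ Disjoint B Y.S → (∀ i ∈ B, Y.κ i = κB) → (Fintype.card I : ℝ) ≤ X * B.card →
      nm n (fun j => Y.I2 j (Y.R B B.card) - zc n (κT - κB) r j) ≤
        M * (Y.dv N r + e + Real.sqrt (∑ l, Y.γ l ^ 2)) := by
  obtain ⟨M, hM1, hM⟩ := m4 X C
  refine ⟨(1 + 14 * |C| * |X|) * (2 * |X| + ((2 * |C| + 1) * (4 * |X|) + 1) * (1 + 2 * |C| * M) +
    168 * X ^ 2), by positivity, fun n K Ω I _ _ _ Y T κT N e r h z hp B κB hB hκ hc => ?_⟩
  replace hM := hM n K Ω I Y T κT h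
  obtain ⟨he, -, hz⟩ := z.eW
  have hX : 0 ≤ X := (hp.mem (Nat.zero_le _)).1.trans hp.le
  have hC : 0 ≤ C := (Nat.cast_nonneg _).trans h.cS
  rw [abs_of_nonneg hX, abs_of_nonneg hC]
  have hI : (0 : ℝ) < Fintype.card I := by exact_mod_cast h.hI
  have hB0 : (0 : ℝ) < B.card := pos_of_mul_pos_right (hI.trans_le hc) hX
  obtain ⟨i0, hi0⟩ := card_pos.mp (Nat.cast_pos.mp hB0)
  have hc0 : 0 ≤ κT - κB := sub_nonneg.mpr (hκ i0 hi0 ▸ h.κ_le i0)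
  have hc' : κT - κB ≤ 2 * C := by
    linarith [(abs_le.mp h.κT_bd).2, (abs_le.mp (h.κ_bd i0)).1, hκ i0 hi0]
  have hN := z.hN
  obtain ⟨s, hs, hs'⟩ : ∃ s, s = Real.sqrt (∑ l, Y.γ l ^ 2) ∧ 0 ≤ s := ⟨_, rfl, Real.sqrt_nonneg _⟩
  have hs2 : ∑ l, Y.γ l ^ 2 = s ^ 2 := by
    rw [hs, Real.sq_sqrt (sum_nonneg fun _ _ => sq_nonneg _)]
  rw [← hs]
  clear hs
  obtain ⟨w, hw⟩ : ∃ w : Ω → ℝ,
    w = fun x => ((s + e) * Fintype.card I + (s + e)⁻¹ * ∑ a, Y.g x a ^ 2) / 2 := ⟨_, rfl⟩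
  have hw1 : ∀ (A : Finset I) U x y, |∑ i ∈ A, Y.t U x i * act U (Y.g y) i| ≤ w y :=
    fun A U x y => by
      refine (abs_sum_le_sum_abs _ _).trans ((sum_le_sum (g := fun i =>
        ((s + e) * Y.t U x i ^ 2 + (s + e)⁻¹ * act U (Y.g y) i ^ 2) / 2) fun i _ => ?_).trans
        ((sum_le_sum_of_subset_of_nonneg (subset_univ A) fun _ _ _ => by positivity).trans ?_))
      · exact numW5 (by positivity) _ _
      · rw [← sum_div, sum_add_distrib, ← mul_sum, ← mul_sum, sum_act_sq]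
        have := mul_le_mul_of_nonneg_left (Sys.sum_t_sq h.toSt U x) (show 0 ≤ s + e by positivity)
        simp only [hw]
        linarith
  have G := Y.ward_genA T N r (F := Y.R B B.card) (Fb := fun _ _ _ => 0)
    (Φ := fun U x y z => if B = T then 0 else (∑ i ∈ B, Y.t U x i * act U (Y.g z) i) / B.card *
      Y.R T N U y z + Y.R B B.card U x z * ((∑ j ∈ T, Y.t U y j * act U (Y.g z) j) / N))
    (m := fun _ _ => 0) (m' := fun _ _ => X / 2) (φ := fun _ z => X * ((B.card : ℝ)⁻¹ + N⁻¹) * w z)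
    (L := X) (by fun_prop) (by fun_prop) (fun _ _ _ => by split_ifs <;> fun_prop) (by fun_prop)
    (by fun_prop) (by fun_prop) hc0 zero_le_one hz (fun l hl => ?_)
    (fun U j _ x y y' z' => by
      simpa using abs_mul_le' (Sys.abs_R_le h.toSt B hB0 hc U x y) le_rfl)
    (fun U j _ x y y' z' => by simpa using mul_nonneg hX (abs_nonneg _))
    (fun U x y => by simpa using Sys.abs_R_le h.toSt B hB0 hc U x y)
    (fun U x y z' => by
      have w0 : 0 ≤ w z' := (abs_nonneg _).trans (hw1 B U x z')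
      split_ifs
      · rw [abs_zero]; exact mul_nonneg (mul_nonneg hX
          (add_nonneg (inv_nonneg.mpr hB0.le) (inv_nonneg.mpr hN.le))) w0
      refine (abs_add_le _ _).trans ((add_le_add
        (abs_mul_le' (c := w z' / B.card) ?_ (Sys.abs_R_le h.toSt T hN z.cN U y z'))
        (abs_mul_le' (c' := w z' / N) (Sys.abs_R_le h.toSt B hB0 hc U x z') ?_)).trans_eq
        (by ring))
      · rw [abs_div, abs_of_pos hB0]; exact div_le_div_of_nonneg_right (hw1 ..) hB0.le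
      · rw [abs_div, abs_of_pos hN]; exact div_le_div_of_nonneg_right (hw1 ..) hN.le)
  · have g0 : ∀ c : ℝ, Y.I1 (fun _ _ => c) = c := fun c => by simp [Sys.I1, Eh_const]
    have g1 : Y.I1 (fun _ z => X * ((B.card : ℝ)⁻¹ + N⁻¹) * w z) ≤ 21 * X ^ 2 * (s + e) := by
      refine int_le_const _ (by fun_prop) fun U => ?_
      have a1 := gmom h.toSt U
      rw [hs2] at a1
      simp only [hw, div_eq_mul_inv, mul_comm _ (2 : ℝ)⁻¹, Eh_const_mul, Eh_add, Eh_const]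
      exact numW6 hX hs' he hI hB0 hN hc z.cN a1
    rw [g0, g0] at G
    refine (solve1 hp hc0 (le_trans (le_of_eq ?_) G)).trans (numW7 hX hC hM1 hc0 hc' he hs'
      (Sys.dv_nonneg N r)
      (integral_nonneg fun _ => add_nonneg (Eh_nonneg fun _ => abs_nonneg _) (dev_nonneg _))
      (Sys.dT_leW h z hM1 hM r) g1 (integral_nonneg fun _ => Eh_nonneg fun x =>
        mul_nonneg (mul_nonneg hX (add_nonneg (inv_nonneg.mpr hB0.le) (inv_nonneg.mpr hN.le)))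
          ((abs_nonneg _).trans (hw1 B 1 x x))))
    simp [Sys.I2, E2_const, conv, cum]
  exact sd_blkW h hN hl hB hκ hB0

end Vale.Agent.P166
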