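import Vale.Agent.P166.StepA
import Vale.Agent.P166.Near
import Vale.Agent.P166.HC

/-!
# P166: the averaging window
-/

namespace Vale.Agent.P166

open MeasureTheory Finset Vale.Agent.P168 Vale.Agent.P168.PW Vale.Agent.P157 Function Filter Topology
open scoped BigOperators

set_option synthInstance.maxSize 4096

variable {n K R : ℕ} {I 𝒞 : Type} [Fintype I] [DecidableEq I] [DecidableEq 𝒞]

/-- A point of the window. -/
noncomputable def wz (η : ℝ) (z : Option (Fin (n + 1)) → Fin R) : Option (Fin (n + 1)) → ℝ :=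
  win (fun _ => η) (η / R) z

theorem wz_mem [NeZero R] {η : ℝ} (hη : 0 ≤ η) (z : Option (Fin (n + 1)) → Fin R)
    (j : Option (Fin (n + 1))) : η ≤ wz η z j ∧ wz η z j + η / R ≤ 2 * η := by
  have hR : (0 : ℝ) < R := by exact_mod_cast Nat.pos_of_ne_zero (NeZero.ne R)
  have h1 : ((z j : ℕ) : ℝ) + 1 ≤ R := by exact_mod_cast (z j).2
  have h2 : η / R * ((z j : ℕ) + 1) ≤ η / R * R := by gcongr
  rw [div_mul_cancel₀ _ hR.ne'] at h2
  have h3 : 0 ≤ η / R * (z j : ℕ) := by positivity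
  unfold wz win
  constructor <;> linarith

theorem sum_sq_le_of_mem {π : Option (Fin (n + 1)) → ℝ} {η : ℝ}
    (h : ∀ j, 0 ≤ π j ∧ π j ≤ 2 * η) : ∑ l, π (some l) ^ 2 ≤ (n + 1) * (2 * η) ^ 2 := by
  refine (sum_le_card_nsmul _ _ ((2 * η) ^ 2) fun l _ =>
    pow_le_pow_left₀ (h _).1 (h _).2 2).trans_eq ?_
  simp

theorem sy_eq_bg (cl : I → 𝒞) (κ : 𝒞 → ℝ) (top : 𝒞) (B : I → Fin (n + 1) → ℝ)
    (π : Option (Fin (n + 1)) → ℝ) :
    sy K cl κ top B π = bg K cl (ka κ top (π none)) top B fun l => π (some l) := rfl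

theorem sy_st (hK : 0 < K) (cl : I → 𝒞) (κ : 𝒞 → ℝ) (top : 𝒞) (B : I → Fin (n + 1) → ℝ)
    {π : Option (Fin (n + 1)) → ℝ} (h : ∑ l, π (some l) ^ 2 ≤ 1) : (sy K cl κ top B π).St :=
  bg_st B hK h

theorem sy_lip (hK : 0 < K) (cl : I → 𝒞) (κ : 𝒞 → ℝ) (top : 𝒞) (B : I → Fin (n + 1) → ℝ)
    {π π' : Option (Fin (n + 1)) → ℝ} (h : ∑ l, π (some l) ^ 2 ≤ 1)
    (h' : ∑ l, π' (some l) ^ 2 ≤ 1) : |(sy K cl κ top B π').F - (sy K cl κ top B π).F| ≤
      3 * Fintype.card I * ∑ j, |π' j - π j| := by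
  have e : sy K cl κ top B π' = (sy K cl κ top B π).pert (π' - π) := by
    rw [sy_pert, add_sub_cancel]
  have := fun U => abs_le.1 (pert_lip (sy_st hK cl κ top B h) (e ▸ sy_st hK cl κ top B h') U)
  rw [← e] at this
  have a := F_le_const fun U => sub_le_iff_le_add'.1 (this U).2
  have b := F_le_const fun U => neg_le_sub_iff_le_add.1 (this U).1
  simp only [Pi.sub_apply] at a b
  rw [abs_le]
  constructor <;> linarith

theorem avsd [NeZero R] (hK : 0 < K) (cl : I → 𝒞) (κ : 𝒞 → ℝ) (top : 𝒞)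
    (B : I → Fin (n + 1) → ℝ) {η : ℝ} (hη : 0 ≤ η) (h1 : (n + 1) * (2 * η) ^ 2 ≤ 1) :
    (unif (Option (Fin (n + 1)) → Fin R)).E
      (fun z => sd (fun δ => (sy K cl κ top B (wz η z + δ)).F) (η / R)) ≤
      (n + 2) * (6 * Fintype.card I * (η / R) / R) := by
  have hR : (1 : ℝ) ≤ R := by exact_mod_cast Nat.pos_of_ne_zero (NeZero.ne R)
  have h0 : 0 ≤ η / R := by positivity
  have h2 : η / R ≤ η := div_le_self hη hR
  have h3 : η / R * R = η := div_mul_cancel₀ _ (by positivity)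
  refine (sd_avg (fun π => (sy K cl κ top B π).F) (fun _ => η) h0
    (L := 3 * Fintype.card I * (η / R)) fun π hπ j hj => ?_).trans_eq (by simp; ring)
  rw [h3] at hπ hj
  refine (sy_lip hK cl κ top B ((sum_sq_le_of_mem (η := η) fun i => by
    constructor <;> linarith [hπ i]).trans h1) ((sum_sq_le_of_mem (η := η) fun i => ?_).trans
      h1)).trans_eq ?_
  · by_cases h : i = j
    · subst h
      simp only [Pi.add_apply, Pi.single_eq_same]
      constructor <;> linarith [hπ i]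
    · simp only [Pi.add_apply, Pi.single_eq_of_ne h]
      constructor <;> linarith [hπ i]
  · simp only [Pi.add_apply, add_sub_cancel_left, Pi.single_apply, apply_ite abs, abs_zero,
      sum_ite_eq', mem_univ, if_true, abs_of_nonneg h0]

end Vale.Agent.P166
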